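import Crest.Agent.X212.Gla92.Lf
import Crest.Agent.X212.Gb50.Geo

/-!
# Row 212, GLL-GEOSZ (helper21): heights on necks, the leaves `GmS`, `GmZ`
-/

set_option autoImplicit false
set_option linter.unusedSectionVars false
noncomputable section
open scoped Manifold ContDiff Topology
open MeasureTheory Set Function Filter Metric

namespace Crest.Agent.X212.Sw21
open An An.Job M Prm93 Cht98 Nd18 Gj67 Sob92 Gb50 Gla92 Cyf70
open Gl67 (ka ka_deriv cd_ka ka_zero ka_lip ka_mono Sid)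
open Real (smoothTransition)

/-- concave with slope at most one -/
structure Cv (v : ℝ → ℝ) : Prop where
  cd : ContDiff ℝ ∞ v
  d1 : ∀ s, |deriv v s| ≤ 1
  d2 : ∀ s, deriv (deriv v) s ≤ 0

section real
variable {v : ℝ → ℝ} {s : ℝ}

theorem st_d (s : ℝ) : HasDerivAt smoothTransition (deriv smoothTransition s) s :=
  ((Real.smoothTransition.contDiff (n := 1)).differentiable one_ne_zero s).hasDerivAt

theorem cv_aff {ε : ℝ} (h : |ε| ≤ 1) (c : ℝ) : Cv fun s => ε * s - c := by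
  have e : deriv (fun s => ε * s - c) = fun _ => ε := funext fun s => by simp
  exact ⟨by fun_prop, fun _ => e ▸ h, fun _ => by simp [e]⟩

theorem cv_tent (L m : ℝ) : Cv fun s => L - rho (s - m) := by
  have i : ∀ s : ℝ, HasDerivAt (fun s => s - m) 1 s := fun s => (hasDerivAt_id s).sub_const m
  have e : deriv (fun s => L - rho (s - m)) =
      fun s => smoothTransition (-(s - m)) - smoothTransition (s - m) := funext fun s =>
    (((((ka_deriv _).comp s (i s)).add ((ka_deriv _).comp s (i s).fun_neg)).add_const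
      (1 - ka 1)).const_sub L).deriv.trans (by ring)
  have k := fun u => And.intro (Real.smoothTransition.nonneg u) (Real.smoothTransition.le_one u)
  have k' := fun u => Real.smoothTransition.monotone.deriv_nonneg (x := u)
  refine ⟨contDiff_const.sub (cd_rho.comp (by fun_prop)), fun s => ?_, fun s => ?_⟩ <;> rw [e]
  · exact abs_sub_le_iff.2 ⟨by linarith [k (s - m), k (-(s - m))], by linarith [k (s - m), k (-(s - m))]⟩
  · refine (((st_d _).comp s (i s).fun_neg).sub ((st_d _).comp s (i s))).deriv.trans_le ?_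
    linarith [k' (s - m), k' (-(s - m))]

variable (h : Cv v)
include h

theorem Cv.d (s : ℝ) : HasDerivAt v (deriv v s) s := (h.cd.differentiable (by simp) s).hasDerivAt

theorem Cv.dk : deriv (fun s => ka (v s)) = fun s => smoothTransition (v s) * deriv v s :=
  funext fun s => ((ka_deriv _).comp s (h.d s)).deriv

theorem Cv.k1 : deriv (fun s => ka (v s)) s ^ 2 ≤ 1 := by
  rw [h.dk, sq_le_one_iff_abs_le_one, abs_mul, abs_of_nonneg (Real.smoothTransition.nonneg _)]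
  exact mul_le_one₀ (Real.smoothTransition.le_one _) (abs_nonneg _) (h.d1 s)

theorem Cv.k2 (k : 1 ≤ ka (v s)) : deriv (deriv fun s => ka (v s)) s ≤ 0 := by
  have k0 : 0 < v s := ka_pos (one_pos.trans_le k)
  have k1 : 1 ≤ v s := by linarith [ka_lip k0.le, ka_zero le_rfl]
  have k2 : deriv smoothTransition (v s) = 0 := IsLocalMax.deriv_eq_zero (.of_forall fun u =>
    (Real.smoothTransition.le_one u).trans_eq (Real.smoothTransition.one_of_one_le k1).symm)
  rw [h.dk]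
  refine (((st_d _).comp s (h.d s)).mul ((contDiff_infty_iff_deriv.1 h.cd).2.differentiable
    (by simp) s).hasDerivAt).deriv.trans_le ?_
  simpa [k2] using mul_nonpos_of_nonneg_of_nonpos (Real.smoothTransition.nonneg _) (h.d2 s)

theorem Cv.lip (s t : ℝ) : |ka (v s) - ka (v t)| ≤ |s - t| := by
  simpa using Convex.norm_image_sub_le_of_norm_deriv_le (f := fun s => ka (v s)) (C := 1)
    (fun u _ => ((ka_deriv _).comp u (h.d u)).differentiableAt)
    (fun u _ => (sq_le_one_iff_abs_le_one _).1 h.k1) convex_univ (mem_univ t) (mem_univ s)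

omit h in
theorem gh_eq {R : ℝ} (hR : 1 ≤ R) : gh R s = ka (s - R) := by
  rcases le_total 1 s with k | k
  · exact gh_one k
  · rw [gh, ka_zero (by linarith [f0_le k zero_le_one]), ka_zero (by linarith)]

end real

section gen
variable {E : Type} [NormedAddCommGroup E] [NormedSpace ℝ E] [FiniteDimensional ℝ E]
  [MeasurableSpace E] [BorelSpace E]
  {HM : Type} [TopologicalSpace HM] {I : ModelWithCorners ℝ E HM} [I.Boundaryless]
  {M : Type} [TopologicalSpace M] [ChartedSpace HM M] [IsManifold I ∞ M]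
  [MeasurableSpace M] [T2Space M] [BorelSpace M] [SecondCountableTopology M]
  {lam : Type} [Fintype lam] {T : Type} [NormedAddCommGroup T] [NormedSpace ℝ T]
  {N : Type} [NormedAddCommGroup N] [NormedSpace ℝ N]

section fam
variable {ι : Type} [Fintype ι] {𝔉 : Mod61.Fam I M ι lam T} {α : Type}

/-- one bump -/
theorem bv0 {f : M → N} (h : Sm I f ∧ HasCompactSupport f) :
    Bv0 (fun _ : α => 𝔉) fun _ => f :=
  ⟨(Cb_of_hcs h.1 h.2).imp fun _ k _ => k, fun _ => h.2,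
    ⟨_, fun _ => (ENNReal.coe_toNNReal (IsCompact.measure_lt_top h.2).ne).ge⟩⟩

/-- explicit bounds of one family -/
theorem fu_of [FiniteDimensional ℝ T] {l : Filter α} {r : ℝ} (h : 𝔉.OK) (hr : closedBall 0 r ⊆ 𝔉.Q)
    (tG : ∃ C, ∀ t ∈ closedBall (0 : T) r, (𝔉.G t).F.Tame C) {g : T → M → ℝ}
    (s : SB 𝔉.F0.toPre 𝔉.Q g) (e : ∀ t ∈ 𝔉.Q,
      (𝔉.G t).F.μ = 𝔉.F0.μ.withDensity fun x => ENNReal.ofReal (Real.exp (g t x))) :
    EC l fun _ C => FU 𝔉 r C := by
  have u : ∀ {N : Type} [NormedAddCommGroup N] [NormedSpace ℝ N] {f : T → M → N},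
      SB 𝔉.F0.toPre 𝔉.Q f → EC l fun _ C => UBn 𝔉.F0.toPre r C f := fun k =>
    .of (fun _ _ _ => ubn_mono) ((ubn_sb k h.opn hr).imp fun _ k => .of_forall fun _ => k)
  have c : ∀ {N : Type} [NormedAddCommGroup N] [NormedSpace ℝ N] {f : M → N},
      𝔉.F0.Cb f → EC l fun _ C => 𝔉.F0.CBs f C := fun k =>
    .of (fun _ _ _ => CBs_mono) (k.imp fun _ k => .of_forall fun _ => k)
  refine (((((EC.of (fun _ _ _ => Tame_mono) (h.tame.imp fun _ k => .of_forall fun _ => k)).and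
    (EC.of (P := fun _ C => ∀ t ∈ closedBall (0 : T) r, (𝔉.G t).F.Tame C)
      (fun _ _ _ k e t ht => Tame_mono (k t ht) e) (tG.imp fun _ k => .of_forall fun _ => k))).and
    ((EC.all fun a => EC.all fun b => EC.all fun k => EC.all fun l => c (h.co a b k l)).and
      (c h.cl))).and (((EC.all fun a => EC.all fun b => u (h.sS a b)).and
    (EC.all fun a => EC.all fun b => u (h.sSi a b))).and
    ((EC.all fun a => EC.all fun b => EC.all fun k => u (h.scf a b k)).and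
      (EC.all fun a => u (h.sla a))))).and
    (((EC.all fun a => EC.all fun b => EC.all fun k => u (h.sc a b k)).and
      (EC.all fun a => u (h.sdv a))).and ((EC.all fun a => u (h.sa a)).and (u s)))).mono
    (.of_forall fun _ C k => ?_)
  obtain ⟨⟨⟨⟨k1, k2⟩, k3, k4⟩, ⟨k5, k6⟩, k7, k8⟩, ⟨k9, k10⟩, k11, k12⟩ := k
  exact ⟨hr, k1, k2, k3, k4, k5, k6, k7, k8, k9, k10, k11, _, s, k12, e⟩

end fam

variable {Y : Mf 3} [CompactSpace Y.M] {κ : Type} [Fintype κ] (D : YD Y.I Y.M κ lam)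
  (B : Base M (Option κ) lam) (G : Geo I M (Option κ) lam) {f : M → ℝ} {x : M}

/-- a height: locally a concave profile on a neck -/
def Ht (f : M → ℝ) : Prop := ∀ x, ∃ (K : Nk D B G) (v : ℝ → ℝ), Cv v ∧
  (x ∉ K.ψ.target → v (K.tm x) < 0) ∧ ∀ᶠ y in 𝓝 x, f y = ka (v (K.tm y))

variable {D B G}

theorem D_nk (K : Nk D B G) {c : ℝ → ℝ} (hc : ContDiff ℝ ∞ c) (hx : x ∈ K.ψ.target)
    (e : ∀ᶠ y in 𝓝 x, f y = c (K.tm y)) : (∀ᶠ y in 𝓝 x, G.F.D none f y = deriv c (K.tm y)) ∧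
      ∀ a, G.F.D (some a) f =ᶠ[𝓝 x] fun _ => 0 := by
  have m := K.ψ.open_target.eventually_mem hx
  have k := fun a => K.rel'.D_ev hx a (u' := fun z => c z.2)
    ((e.and m).mono fun _ k => k.1.trans (congrArg c (K.snd_symm k.2).symm))
  exact ⟨((k none).and m).mono fun _ k => k.1.trans ((congrFun (D_none_snd D.F.toPre hc) _).trans
    (congrArg _ (K.snd_symm k.2))), fun a => (k (some a)).mono fun _ k =>
      k.trans (congrFun (D_some_snd D.F.toPre hc a) _)⟩

theorem Ht.gr (h : Ht D B G f) (x : M) : ∑ a, G.F.D a f x ^ 2 ≤ 1 := by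
  obtain ⟨K, v, hv, h1, h2⟩ := h x
  by_cases hx : x ∈ K.ψ.target
  · obtain ⟨k1, k2⟩ := D_nk K (c := fun s => ka (v s)) (cd_ka.comp hv.cd) hx h2
    simpa [k1.self_of_nhds, fun a => (k2 a).self_of_nhds] using hv.k1
  · have e : f =ᶠ[𝓝 x] fun _ => 0 := (h2.and ((hv.cd.continuous.comp K.cont).continuousAt.eventually
      (Iio_mem_nhds (h1 hx)))).mono fun _ k => k.1.trans (ka_zero (le_of_lt k.2))
    simp [Pre.D_def, dv_congr e, dv_const]

theorem Ht.lop (h : Ht D B G f) (v0 : D.F.IsVol) (v1 : G.F.IsVol) (k : 1 ≤ f x) :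
    Mp86.Lop I G.F.e G.F.dv f x ≤ 0 := by
  obtain ⟨K, v, hv, h1, h2⟩ := h x
  rw [h2.self_of_nhds] at k
  have hx : x ∈ K.ψ.target := by_contra fun hx => by linarith [ka_zero (h1 hx).le]
  have c : ContDiff ℝ ∞ fun s => ka (v s) := cd_ka.comp hv.cd
  obtain ⟨k1, k2⟩ := D_nk K c hx h2
  have k3 := (D_nk K (contDiff_infty_iff_deriv.1 c).2 hx k1).1.self_of_nhds
  have k4 : G.F.dv none x = 0 := K.rel'.dv hx v1 (Int54.isVol_cyl v0) none
  have k5 : ∀ a, G.F.D (some a) (G.F.D (some a) f) x = 0 := fun a =>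
    (dv_congr (k2 a)).trans (congrFun (dv_const _) x)
  change ∑ a, (G.F.D a (G.F.D a f) x + G.F.dv a x • G.F.D a f x) ≤ 0
  simpa [k3, k4, k5, fun a => (k2 a).self_of_nhds] using hv.k2 k

end gen

variable {Wi : Type} {X : Mf 4} {A κ lam : Type} [Fintype A] [Fintype κ] [Fintype lam]
  [DecidableEq lam] {M : Mark X A κ} {W : World M} {L : ML M lam} {Λ : Lns W L}
  {A' h : Type} [Fintype A'] [DecidableEq A'] [Fintype h] {r n : ℕ}
  {J : Job Wi Λ A' h r n} {σ : Cel A'} {a : A'}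
  {U Up R : Type} [NormedAddCommGroup U] [NormedSpace ℝ U] [NormedAddCommGroup Up]
  [NormedSpace ℝ Up] [NormedAddCommGroup R] [NormedSpace ℝ R] {d : Dat J σ a U Up R}
  {q₀ : Wi →₀ ℝ} {δ : ℝ} (H : d.OK q₀ δ)
include H

theorem ht_S {t : Tc σ a} (ht : t ∈ d.FS.Q) : Ht d.D (J.B _) (d.FS.G t) d.hS := fun x => by
  obtain ⟨b, hb⟩ := ex_side (hc d x)
  have ag := agr_end Λ (m := J.m) (c := J.cf a) (a := d.x) ⟨H.hd, (d.hb true).1⟩ (d.hb true).2.2.1 ht
  refine ⟨nkA (d.KS b) (fun z hz i => have k := ((S_tgt H b).1 hz).1; ⟨ag.e z k i, ag.a z k i⟩)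
    (H.ok.xs _).1.vol (H.okS.fam.G t ht).vol, _, cv_aff (ε := -pm b) (by cases b <;> simp [pm]) d.R0,
    fun k => ?_, ?_⟩
  · have := not_lt.1 fun e => k ((d.KS b).tgt ▸ (S_J H b).2 e)
    exact sub_neg.2 (this.trans_lt (one_pos.trans_le H.R1))
  · refine ((continuous_const.mul (sm_hZ W.toCaps (c := J.cf a) (.inl ⟨H.hd, (d.hb true).1⟩)).continuous).tendsto
      x).eventually (Ioi_mem_nhds (hb ▸ abs_pos.2 (hc_ne H x))) |>.mono fun y k => ?_
    exact (hS_side H b (le_of_lt k)).trans (gh_eq H.R1)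

/-- **LEAF GM-S** -/
theorem gmS : GmS d :=
  ⟨⟨_, isCompact_thk W.toCaps _ _ one_pos (by norm_num), subset_univ _,
      fun _ _ ht => agr_thk Λ (d.hb true).2.2.1 ht⟩, fun _ _ ht => (ht_S H ht).gr,
    fun _ t ht _ => (ht_S H ht).lop (H.ok.xs _).1.vol (H.okS.fam.G t ht).vol,
    bv0 H.okS.bp, bv0 H.okS.mo, bv0 H.okS.lo, 0, fun _ x hx => by simp [Dat.S] at hx⟩

theorem nk_X {τ : d.Ta} (T : Lg d τ) {t : Tc σ a} (ht : t ∈ (d.FX τ).Q) :
    NkOK M J.m M.c0 (th d (τ, t)) d.x := by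
  obtain ⟨s₀, k1, k2⟩ := H.ok.lin
  refine ⟨(nk_τ τ).cyl, Mark.lt_of_br (H.ok.par σ H.mem _ ⟨fun a' b e => ?_, fun a' e => ?_⟩) (fr0 _)
    ((T.x t).symm ▸ T.half), ht, (nk_τ τ).lit⟩
  · have : a' ≠ a := fun k => by simp [k, H.fr] at e
    simp [Dat.s, ee, e, this, H.sol.cell.1 a' b e]
  · obtain ⟨x, hx⟩ := Option.isSome_iff_exists.1 e
    exact not_lt.1 fun k => (ht x (fr0 _)).not_ge (k.le.trans_eq (k2 a' x hx _ (k1.le.trans k.le)).1.symm)

/-- the height of the long neck -/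
theorem ht_X {τ : d.Ta} (T : Lg d τ) {t : Tc σ a} (ht : t ∈ (d.FX τ).Q) :
    Ht d.D (J.B _) ((d.FX τ).G t) (d.hX τ) := fun x => by
  have ag := (nk_τ τ).agr Λ (nk_X H T ht) (by rw [Mark.tv_fr (fr0 _), Mark.tv_fr (fr0 _), T.x, T.x])
  have h1 := nl_ge' H T
  have h2 := H.R1
  refine ⟨nkA (d.KX τ) (fun z hz i => have k := isNk_sub τ.2 (H.ok.nk _ _ _ _ _) hz
    ⟨ag.e z k i, ag.a z k i⟩) (H.ok.xs _).1.vol ((FX_ok H τ).G t ht).vol, _,
    cv_tent (nl τ / 2 - d.R0) (nl τ / 2), fun e => ?_, .of_forall fun y => (hX_eq H T y).trans ?_⟩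
  · have := abs_le.1 (rho_spec ((d.KX τ).tm x - nl τ / 2)).1
    rcases not_and_or.1 fun e' => e ((d.KX τ).tgt ▸ (X_J H T).2 e') with e | e <;>
      change _ - rho ((d.KX τ).tm x - _) < 0 <;> linarith
  · change _ = ka (_ - rho ((d.KX τ).tm y - _))
    have := abs_le.1 (rho_spec ((d.KX τ).tm y - nl τ / 2)).1
    rcases le_total ((d.KX τ).tm y) 1 with e | e
    · rw [tent_lo (by linarith) (by linarith), gh_eq h2, ka_zero (by linarith), ka_zero (by linarith)]
    rcases le_total ((d.KX τ).tm y) (nl τ - 1) with e' | e'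
    · rw [tf_mid e e']; rfl
    · rw [tent_hi (by linarith) (by linarith), gh_eq h2, ka_zero (by linarith), ka_zero (by linarith)]

omit H in
theorem ht_Z (τ : ℝ) : Ht d.D d.D.B d.D.G (d.hZ τ) := fun _ =>
  ⟨d.D.nk, _, cv_tent (nl τ / 2 - d.R0) 0, fun k => (k trivial).elim,
    .of_forall fun y => by rw [sub_zero]; rfl⟩

omit H in
theorem lip_Z (τ : ℝ) (x z : d.Y × ℝ) : |d.hZ τ x - d.hZ τ z| ≤ |x.2 - z.2| := by
  simpa only [sub_zero, Dat.hZ, tent] using (cv_tent (nl τ / 2 - d.R0) 0).lip x.2 z.2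

/-- **LEAF GM-Z** -/
theorem gmZ : GmZ d := by
  have k := H.okZ 0
  have v := (H.ok.xs d.x).1.vol
  have s : ∀ {N : Type} [NormedAddCommGroup N] {f : d.Y × ℝ → N}, (∀ z, 1 ≤ |z.2| → f z = 0) →
      ∀ z ∈ tsupport f, |z.2| ≤ 1 := fun e => closure_minimal
        (fun z hz => (not_le.1 fun k => hz (e z k)).le) (isClosed_le continuous_snd.abs continuous_const)
  have c : ∀ {N : Type} [NormedAddCommGroup N] [NormedSpace ℝ N] {f : d.Y × ℝ → N},
      d.FZ.F0.Cb f → EC (⊤ : Filter ℝ) fun _ C => d.FZ.F0.CBs f C := fun k =>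
    .of (fun _ _ _ => CBs_mono) (k.imp fun _ k => .of_forall fun _ => k)
  have u : ∀ i, UC (⊤ : Filter ℝ) (fun _ => d.FZ.F0.toPre) fun τ => d.FZ.F0.D i (d.hZ τ) := fun i =>
    (UC.tent d.R0 id 0 (fun _ => d.D.nk.sm_τ) (fun j => (d.D.nk.cd_τ.2 j).imp fun _ k =>
      .of_forall fun _ => k) i).congr (.of_forall fun τ => congrArg _ (funext fun z => by
        simp only [Nk.τ, YD.nk, tf_none, Pi.zero_apply, sub_zero]; rfl))
  obtain ⟨C, hC⟩ := ((fu_of (r := 1) k.fam (subset_univ _) (k.fam.tame.imp fun _ e _ _ => e)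
    (SB.fixed (Cb_const (0 : ℝ))) fun _ _ => by simp; rfl).and (((c k.cp).and ((EC.all fun i =>
      c (k.cρ i)).and (c k.cj))).and (((EC.all fun i => c (k.cA i)).and ((c k.cΦ).and (c k.cb))).and
        ((EC.all fun i => c (k.cd i)).and (EC.all fun i => (u i).ec))))).ex
  refine ⟨⟨⟨⟨∅, isCompact_empty, subset_rfl, fun _ _ _ => agr_refl _ isClosed_empty.isOpen_compl⟩,
    fun τ _ _ => (ht_Z τ).gr, fun τ _ _ _ => (ht_Z τ).lop v (Int54.isVol_cyl v), bv0 k.bp, bv0 k.mo,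
    bv0 k.lo, 2, fun τ x hx z hz => (lip_Z τ x z).trans ((abs_sub _ _).trans ?_)⟩, C,
    (eventually_top.1 hC 0).1, fun τ => ?_⟩, fun _ => d.D.nk, 0, fun _ _ _ => .refl _,
    fun τ x _ z _ => (lip_Z τ x z).trans_eq (zero_add _).symm⟩
  · linarith [s (fun z e => (H.bp z e).1) x hx, s (fun z e => (H.bp z e).2) z hz]
  · obtain ⟨-, ⟨k1, k2, k3⟩, ⟨k4, k5, k6⟩, k7, k8⟩ := eventually_top.1 hC τ
    exact ⟨k1, k2, k3, k4, k5, k6, k7, k8⟩

end Crest.Agent.X212.Sw21
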