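import Crest.Agent.X212.Sb84.Defs
import Crest.Agent.X212.One97.Ext
import Crest.Agent.X212.Abel74.Gap

/-!
# Row 212, SB (helper21): the leaf RED
-/

set_option autoImplicit false
set_option linter.unusedSectionVars false
noncomputable section
open scoped Manifold ContDiff Topology InnerProductSpace
open MeasureTheory Function Filter Set
open Crest.Agent.R208.F (Ext)

namespace Crest.Agent.X212.Sw21.Sb
open An M Cyl58 Cyf70 Nd18 Pj41 Tmp64 Wz78 Int54 Brk99
open Abel74 (RedOn fm)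
open Loc8 (Rd)
open Num57 (OK vol)

section gen
variable {E : Type} [NormedAddCommGroup E] [NormedSpace ℝ E] [FiniteDimensional ℝ E]
  [MeasurableSpace E] [BorelSpace E]
  {HM : Type} [TopologicalSpace HM] {I : ModelWithCorners ℝ E HM} [I.Boundaryless]
  {M : Type} [TopologicalSpace M] [ChartedSpace HM M] [IsManifold I ∞ M]
  [MeasurableSpace M] [BorelSpace M] [SecondCountableTopology M] [T2Space M]
  {ι lam : Type} [Fintype ι] [Fintype lam] {B : Base M ι lam} {G : Geo I M ι lam} {O : Set M}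

theorem rd_of_red {m : Md M ι lam} {W : m.Cn} {F : Fr I M ι} {ξ : M → m.A} (R : RedOn F m W O ξ)
    (hO : IsOpen O) : Rd F m W O (O.indicator ξ) :=
  ⟨red_congr R fun _ hx => mem_of_superset (hO.mem_nhds hx) fun _ hy => indicator_of_mem hy _, hO,
    fun _ hx => indicator_of_notMem hx _⟩

/-- **fixed points with spinor are reductions** -/
theorem rd_of_fix {r : ℕ} {c : Cfg M ι lam r} (hB : B.OK I) (A : c.Adm B G) (hO : IsOpen O)
    (hc : IsPreconnected O) (h : Fix G.F c O) (h0 : ∃ x ∈ O, c.Φ x ≠ 0) : ∃ ξ, Rd G.F c.m c.W O ξ ∧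
      ∀ x ∈ O, opL (ξ x) (c.Φ x) = c.m.J (c.Φ x) := by
  obtain ⟨ξ, P, h⟩ := h
  obtain ⟨x, hx, h0⟩ := h0
  have s : ∀ y ∈ O, SA I ξ y := fun y hy => P.sm.contMDiffAt (hO.mem_nhds hy)
  obtain ⟨t, ht⟩ := Abel74.const_of_D (F := G.F) hO hc (fun y hy => (s y hy).inner (s y hy)) fun a y hy => by
    rw [Pre.D_def, dv_inner a (adW_skw A.conn a y) (s y hy) (s y hy), P.par a y hy]; simp
  have e := congrArg (· (c.Φ x)) (Abel74.g_sq hB A.ok (P.mem x hx))
  have p : c.m.p x (c.Φ x) = c.Φ x := by rw [← A.pos x, ← mul_apply_eq_comp, Wz78.p_pp A.ok]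
  have j : opL (ξ x) (c.m.J (c.Φ x)) = c.m.J (opL (ξ x) (c.Φ x)) :=
    (congrArg (· (c.Φ x)) (g_J (P.mem x hx))).symm
  have jj : c.m.J (c.m.J (c.Φ x)) = (-1 : ℝ) • c.Φ x := by
    rw [← mul_apply_eq_comp, A.ok.Jsq, neg_one_smul]; rfl
  simp only [mul_apply_eq_comp, smul_apply, h x hx, j, p, jj] at e
  have n := smul_left_injective ℝ h0 e
  refine ⟨_, rd_of_red ⟨s, P.mem, fun y hy => Abel74.sq_of_norm hB A.ok (P.mem y hy) ?_,
    fun y hy a => P.par a y hy⟩ hO, fun y hy => by rw [indicator_of_mem hy, h y hy]⟩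
  rw [← real_inner_self_eq_norm_sq, ht y hy, ← ht x hx, real_inner_self_eq_norm_sq]
  linarith

/-- the level density of a reduction is the square of its curvature form -/
theorem int_eta {m : Md M ι lam} {V : m.Cn} {ξ : M → m.A} (R : Rd G.F m V O ξ) (hB : B.OK I) (hG : G.OK B)
    (hm : m.OK I B) (hV : m.IsConn B G V) (hF : OK G.F B.o) {η : M → ℝ} (h : ∀ z ∉ O, η z = 0) :
    integ I (vol G.F B.o) (η • ((2 : ℝ) • fm G.F m V ξ * (2 : ℝ) • fm G.F m V ξ)) =
      -(16 * Real.pi ^ 2) * ∫ z, η z * m.kd B G.F V z ∂G.F.μ := by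
  have D := R.den hB hG hm hV
  rw [Loc8.integ_sq hF η fun z _ => D.dg z, ← integral_const_mul]
  refine congrArg _ (funext fun z => ?_)
  by_cases hz : z ∈ O
  · simp only [D.e1 z hz, D.e2 z hz, norm_Fg_sq hG hV hB]
    ring
  · simp [h z hz]

end gen

variable {κ lam : Type} [Fintype κ] [Fintype lam]

/-- there are admissible configurations on the cross-section of an end -/
theorem exists_yc {Y : Mf 3} [CompactSpace Y.M] {D : YD Y.I Y.M κ lam} {Z : Mf 4} {B : Base Z.M (Option κ) lam}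
    {G : Geo Z.I Z.M (Option κ) lam} (K : Nk D B G) {r : ℕ} {x : Cfg Z.M (Option κ) lam r} (hx : x.Adm B G) {t : ℝ}
    (ht : t ∈ K.J) : ∃ β : YC Y.M κ lam, D.Adm β := by
  have A := (One97.yd_cy D).adm_sq_of_band (θ := fun _ => t) contDiff_const (J := K.J) (fun _ => ht)
    ((One97.admOn_pb K isOpen_univ (admOn_univ.2 (show x.con.Adm B G from ⟨hx.ok, hx.conn, contMDiff_const,
      fun _ => map_zero _, .inl rfl⟩))).mono fun x hx => ⟨K.mem_src.2 hx.2, trivial⟩)
  exact ⟨pb (fun y => (y, 0)) (sqC (fun _ => t) (K.pb x.con)), ⟨A.ok, ((IsConn.on A.conn _).congr isOpen_univ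
    fun a z _ => congrArg (· • x.W a (K.ψ (z.1, t))) (by cases a <;> simp [sw])).isConn A.ok, A.sm, A.pos,
    A.z⟩, fun y => (congrArg (· • x.W none (K.ψ (y, t))) (deriv_const 0 _)).trans (zero_smul ℝ _)⟩

variable [DecidableEq lam] {X : Mf 4} {A : Type} [Fintype A] {M : Mark X A κ} {Wi : Type} {W : World M}
  {N : ML M lam} {Λ : Lns W N} {A' h : Type} [Fintype A'] [DecidableEq A'] [Fintype h] {r n : ℕ}

/-- **LEAF RED** -/
theorem red (J : Job Wi Λ A' h r n) : Sb84.RedJ J := fun _ _ _ c _ _ _ hy hπ h0 h =>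
  have := M.con
  let ⟨ξ, R, _⟩ := rd_of_fix (Λ.B_ok J.m c) hy.sol.toAdm (isOpen_pc W.toCaps hπ)
    (isConnected_pc W.toCaps hπ).isPreconnected h h0
  ⟨ξ, R.toRedOn⟩

end Crest.Agent.X212.Sw21.Sb
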