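import Crest.Agent.X212.Win39.Osc

/-!
# Row 212, DEG-TOOLS (helper21): rigidity of frame preserving maps, limits of gauges, logarithms

`osc_on` (local oscillation), `zero_of_lin`, `iso_eqOn`, `Iso.eq` (ISO); `mdiff_loc`, `lim_loc`
(LIM, no compactness); `Lg`, `Lg.near`, `Lg.lim`, `Lg.path` (LOG).
-/

set_option autoImplicit false
set_option linter.unusedSectionVars false
noncomputable section
open scoped Manifold ContDiff Topology InnerProductSpace
open MeasureTheory Set Function Filter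

namespace Crest.Agent.X212.Sw21
open An Sob92 Win39

variable {E : Type} [NormedAddCommGroup E] [NormedSpace ℝ E] [FiniteDimensional ℝ E]
  [MeasurableSpace E] [BorelSpace E]
  {HM : Type} [TopologicalSpace HM] {I : ModelWithCorners ℝ E HM} [I.Boundaryless]
  {M : Type} [TopologicalSpace M] [ChartedSpace HM M] [IsManifold I ∞ M]
  [MeasurableSpace M] {ι : Type} [Fintype ι]
  {N : Type} [NormedAddCommGroup N] [NormedSpace ℝ N] (F : Pre I M ι)

theorem span_c (x : M) (v : TangentSpace I x) : ∃ c : ι → ℝ, v = ∑ a, c a • F.e a x := by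
  obtain ⟨c, hc⟩ := (Submodule.mem_span_range_iff_exists_fun ℝ).1
    (show v ∈ Submodule.span ℝ (range fun a => F.e a x) from F.span x ▸ Submodule.mem_top)
  exact ⟨c, hc.symm⟩

variable (N) in
/-- local bounds of the derivatives bound the oscillation -/
theorem osc_on (x₀ : M) {O : Set M} (hO : O ∈ 𝓝 x₀) {ε : ℝ} (hε : 0 < ε) :
    ∃ O' ∈ 𝓝 x₀, O' ⊆ O ∧ ∀ (f : M → N) (η : ℝ), 0 ≤ η →
      (∀ z ∈ O', MDifferentiableAt I 𝓘(ℝ, N) f z) → (∀ a, ∀ z ∈ O', ‖F.D a f z‖ ≤ η) →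
      ∀ x ∈ O', ‖f x - f x₀‖ ≤ ε * η := by
  obtain ⟨R, hR, hRT⟩ := exists_rinv F.sm x₀ (span_c F x₀)
  have hx₀ := mem_chart_source HM x₀
  have h3 := (chart_symm_smoothAt (I := I) hx₀).continuousAt.tendsto
  rw [extChartAt_to_inv] at h3
  have h2 : ∀ᶠ y in 𝓝 (extChartAt I x₀ x₀), y ∈ (extChartAt I x₀).target :=
    extChartAt_target_mem_nhds x₀
  have hb : ∀ᶠ x in 𝓝 x₀, ‖R x‖ < ‖R x₀‖ + 1 :=
    hR.continuousAt.norm.eventually (gt_mem_nhds (by linarith))
  obtain ⟨r, hr, hB⟩ := Metric.eventually_nhds_iff_ball.1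
    (h2.and (h3.eventually ((hRT.and hb).and hO)))
  set K := (‖comb ι N‖ + 1) * (‖R x₀‖ + 1) with hK
  have hK0 : 0 < K := by positivity
  have hr' := lt_min hr (div_pos hε hK0)
  have hs : ∀ y ∈ Metric.ball (extChartAt I x₀ x₀) (min r (ε / K)), _ := fun y hy =>
    hB y (Metric.ball_subset_ball (min_le_left _ _) hy)
  refine ⟨(extChartAt I x₀).source ∩ extChartAt I x₀ ⁻¹' Metric.ball (extChartAt I x₀ x₀)
    (min r (ε / K)), inter_mem (extChartAt_source_mem_nhds (I := I) x₀)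
    ((continuousAt_extChartAt (I := I) x₀) (Metric.ball_mem_nhds _ hr')), fun x hx => ?_,
    fun f η h0 hf hD x hx => ?_⟩
  · have := (hs _ hx.2).2.2
    rwa [(extChartAt I x₀).left_inv hx.1] at this
  have hm : ∀ y ∈ Metric.ball (extChartAt I x₀ x₀) (min r (ε / K)), (extChartAt I x₀).symm y ∈
      (extChartAt I x₀).source ∩ extChartAt I x₀ ⁻¹' Metric.ball (extChartAt I x₀ x₀)
        (min r (ε / K)) := fun y hy => ⟨(extChartAt I x₀).map_target (hs y hy).1, by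
      rwa [mem_preimage, (extChartAt I x₀).right_inv (hs y hy).1]⟩
  have hx2 := (mem_ball_iff_norm.1 hx.2).trans_le (min_le_right _ _)
  have key := (convex_ball (extChartAt I x₀ x₀)
    (min r (ε / K))).norm_image_sub_le_of_norm_hasFDerivWithin_le
    (𝕜 := ℝ) (f := f ∘ (extChartAt I x₀).symm) (C := K * η)
    (f' := fun y => (comb ι N fun a => F.D a f ((extChartAt I x₀).symm y)).comp
      (R ((extChartAt I x₀).symm y))) (fun y hy => ?_) (fun y hy => ?_)
    (Metric.mem_ball_self hr') hx.2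
  · simp only [comp_apply, extChartAt_to_inv, (extChartAt I x₀).left_inv hx.1] at key
    refine key.trans ?_
    calc _ ≤ K * η * (ε / K) := by gcongr
      _ = ε * η := by field_simp
  · have h4 : (extChartAt I x₀).symm y ∈ (chartAt HM x₀).source := by
      simpa using (extChartAt I x₀).map_target (hs y hy).1
    have := chart_hasFDerivAt h4 (hs y hy).2.1.1 (hf _ (hm y hy))
    rw [(extChartAt I x₀).right_inv (hs y hy).1] at this
    exact this.hasFDerivWithinAt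
  · refine (ContinuousLinearMap.opNorm_comp_le _ _).trans ?_
    have h5 : ‖fun a => F.D a f ((extChartAt I x₀).symm y)‖ ≤ η :=
      (pi_norm_le_iff_of_nonneg h0).2 fun a => hD a _ (hm y hy)
    have h6 := (hs y hy).2.1.2.le
    calc _ ≤ ‖comb ι N‖ * η * (‖R x₀‖ + 1) := by
          gcongr
          exact ((comb ι N).le_opNorm _).trans (by gcongr)
      _ ≤ (‖comb ι N‖ + 1) * η * (‖R x₀‖ + 1) := by gcongr; linarith
      _ = K * η := by ring

/-- unique continuation for `‖D f‖ ≤ K ‖f‖` -/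
theorem zero_of_lin {f : M → N} {x₀ : M} {K : ℝ} (h0 : f x₀ = 0)
    (h : ∀ᶠ z in 𝓝 x₀, MDifferentiableAt I 𝓘(ℝ, N) f z ∧ ∀ a, ‖F.D a f z‖ ≤ K * ‖f z‖) :
    ∀ᶠ z in 𝓝 x₀, f z = 0 := by
  have hc : ∀ᶠ z in 𝓝 x₀, ‖f z‖ < 1 :=
    h.self_of_nhds.1.continuousAt.norm.eventually (gt_mem_nhds (by simp [h0]))
  obtain ⟨O, hO, hs, hosc⟩ := osc_on N F x₀ (h.and hc) (ε := 1 / 2 / (|K| + 1)) (by positivity)
  have key : ∀ n : ℕ, ∀ z ∈ O, ‖f z‖ ≤ (1 / 2) ^ n := fun n => by
    induction n with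
    | zero => exact fun z hz => by simpa using (hs hz).2.le
    | succ n ih =>
      intro z hz
      have := hosc f ((|K| + 1) * (1 / 2) ^ n) (by positivity) (fun z hz => (hs hz).1.1)
        (fun a z hz => ((hs hz).1.2 a).trans (mul_le_mul ((le_abs_self K).trans (by linarith))
          (ih z hz) (norm_nonneg _) (by positivity))) z hz
      rw [h0, sub_zero] at this
      refine this.trans (le_of_eq ?_)
      field_simp; ring
  filter_upwards [hO] with z hz
  exact norm_le_zero_iff.1 (ge_of_tendsto' (tendsto_pow_atTop_nhds_zero_of_lt_one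
    (by norm_num) (by norm_num : (1 / 2 : ℝ) < 1)) fun n => key n z hz)

section iso
variable {E' : Type} [NormedAddCommGroup E'] [NormedSpace ℝ E'] [FiniteDimensional ℝ E']
  [MeasurableSpace E'] [BorelSpace E']
  {HM' : Type} [TopologicalSpace HM'] {I' : ModelWithCorners ℝ E' HM'} [I'.Boundaryless]
  {M' : Type} [TopologicalSpace M'] [ChartedSpace HM' M'] [IsManifold I' ∞ M']
  [MeasurableSpace M'] {F} {F' : Pre I' M' ι}

/-- `φ` maps the frame to the frame at `x` -/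
def Fp (F : Pre I M ι) (F' : Pre I' M' ι) (φ : M → M') (x : M) : Prop :=
  MDifferentiableAt I I' φ x ∧ ∀ a, mfderiv I I' φ x (F.e a x) = F'.e a (φ x)

theorem Fp.D {φ : M → M'} {x : M} (h : Fp F F' φ x) {g : M' → N}
    (hg : MDifferentiableAt I' 𝓘(ℝ, N) g (φ x)) (a : ι) : F.D a (g ∘ φ) x = F'.D a g (φ x) := by
  rw [Pre.D_def, Pre.D_def, dv, dv, mfderiv_comp x hg h.1, ← h.2 a]; rfl

theorem fp_of_iso {φ : OpenPartialHomeomorph M M'} (h : Iso F F' φ) {x : M} (hx : x ∈ φ.source) :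
    Fp F F' φ x :=
  ⟨(h.sm.contMDiffAt (φ.open_source.mem_nhds hx)).mdifferentiableAt (by simp), fun a => h.e a x hx⟩

theorem fp_loc {φ φ' : M → M'} {x₀ : M} (h : ∀ᶠ x in 𝓝 x₀, Fp F F' φ x)
    (h' : ∀ᶠ x in 𝓝 x₀, Fp F F' φ' x) (e : φ x₀ = φ' x₀) : φ =ᶠ[𝓝 x₀] φ' := by
  set c := extChartAt I' (φ x₀) with hc
  have hy := mem_chart_source HM' (φ x₀)
  have hL : ∀ a, ∃ K, ∃ t ∈ 𝓝 (c (φ x₀)), LipschitzOnWith K (F'.D a c ∘ c.symm) t := fun a => by
    have h1 : ContMDiffAt I' 𝓘(ℝ, E') ∞ (F'.D a c) (c.symm (c (φ x₀))) := by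
      rw [hc, extChartAt_to_inv]; exact dv_smoothAt (F'.sm a _) contMDiffAt_extChartAt
    exact ((h1.comp _ (chart_symm_smoothAt hy)).contDiffAt.of_le
      (by exact_mod_cast le_top)).exists_lipschitzOnWith
  choose K t ht hK using hL
  have hs : ∀ᶠ y in 𝓝 (φ x₀), y ∈ (chartAt HM' (φ x₀)).source ∧ ∀ a, c y ∈ t a :=
    (eventually_mem_set.2 (chart_source_mem_nhds HM' _)).and
      (eventually_all.2 fun a => continuousAt_extChartAt (φ x₀) (ht a))
  have h1 := h.self_of_nhds.1.continuousAt.eventually hs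
  have h2 : ∀ᶠ x in 𝓝 x₀, _ := h'.self_of_nhds.1.continuousAt.eventually (e ▸ hs :
    ∀ᶠ y in 𝓝 (φ' x₀), y ∈ (chartAt HM' (φ x₀)).source ∧ ∀ a, c y ∈ t a)
  have hd : ∀ y ∈ (chartAt HM' (φ x₀)).source, MDifferentiableAt I' 𝓘(ℝ, E') c y := fun y hy =>
    (contMDiffAt_extChartAt' (n := ∞) hy).mdifferentiableAt (by simp)
  have hl : ∀ y ∈ (chartAt HM' (φ x₀)).source, c.symm (c y) = y := fun y hy =>
    c.left_inv (by simpa [hc] using hy)
  have key := zero_of_lin F (f := c ∘ φ - c ∘ φ') (x₀ := x₀) (K := ∑ a, (K a : ℝ)) (by simp [e]) (by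
    filter_upwards [h, h', h1, h2] with x a1 a2 a3 a4
    have b1 := (hd _ a3.1).comp x a1.1
    have b2 := (hd _ a4.1).comp x a2.1
    refine ⟨b1.sub b2, fun a => ?_⟩
    rw [Pre.D_def, dv_sub b1 b2, ← Pre.D_def, ← Pre.D_def, a1.D (hd _ a3.1), a2.D (hd _ a4.1)]
    have b3 := (hK a).norm_sub_le (a3.2 a) (a4.2 a)
    simp only [comp_apply, hl _ a3.1, hl _ a4.1] at b3
    exact b3.trans (mul_le_mul_of_nonneg_right (Finset.single_le_sum (f := fun a => (K a : ℝ))
      (fun a _ => (K a).2) (Finset.mem_univ a)) (norm_nonneg _)))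
  filter_upwards [key, h1, h2] with x a1 a3 a4
  rw [← hl _ a3.1, ← hl _ a4.1]
  exact congrArg c.symm (sub_eq_zero.1 a1)

/-- ISO: frame preserving maps that agree at a point agree on a connected open set -/
theorem fp_eqOn [T2Space M'] {φ φ' : M → M'} {U : Set M} (hU : IsOpen U) (hc : IsPreconnected U)
    (h : ∀ x ∈ U, Fp F F' φ x) (h' : ∀ x ∈ U, Fp F F' φ' x) {x₀ : M} (hx : x₀ ∈ U)
    (e : φ x₀ = φ' x₀) : EqOn φ φ' U := by
  have h1 : ∀ x ∈ U, φ x = φ' x → φ =ᶠ[𝓝 x] φ' := fun x hx e =>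
    fp_loc (mem_of_superset (hU.mem_nhds hx) h) (mem_of_superset (hU.mem_nhds hx) h') e
  have h2 : U ⊆ {x | φ =ᶠ[𝓝 x] φ'} := by
    refine hc.subset_of_closure_inter_subset isOpen_setOfPred_eventually_nhds ⟨x₀, hx, h1 x₀ hx e⟩ ?_
    rintro x ⟨hx1, hx2⟩
    refine h1 x hx2 (tendsto_nhds_unique_of_frequently_eq (h x hx2).1.continuousAt
      (h' x hx2).1.continuousAt ?_)
    exact (mem_closure_iff_frequently.1 hx1).mono fun y hy => hy.self_of_nhds
  exact fun x hx => (h2 hx).self_of_nhds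

theorem iso_eqOn [T2Space M'] {φ φ' : OpenPartialHomeomorph M M'} (h : Iso F F' φ)
    (h' : Iso F F' φ') {U : Set M} (hU : IsOpen U) (hc : IsPreconnected U) (hs : U ⊆ φ.source)
    (hs' : U ⊆ φ'.source) {x₀ : M} (hx : x₀ ∈ U) (e : φ x₀ = φ' x₀) : EqOn φ φ' U :=
  fp_eqOn hU hc (fun _ hx => fp_of_iso h (hs hx)) (fun _ hx => fp_of_iso h' (hs' hx)) hx e

theorem iso_eq [T2Space M'] [PreconnectedSpace M] {φ φ' : OpenPartialHomeomorph M M'}
    (h : Iso F F' φ) (h' : Iso F F' φ') (hs : φ.source = univ) (hs' : φ'.source = univ) {x₀ : M}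
    (e : φ x₀ = φ' x₀) (x : M) : φ x = φ' x :=
  iso_eqOn h h' isOpen_univ isPreconnected_univ hs.ge hs'.ge (mem_univ x₀) e (mem_univ x)

end iso

/-- local form of `Sob92.mdiff_of_limit` -/
theorem mdiff_loc {α : Type} {l : Filter α} [l.NeBot] {u : α → M → N} {f : M → N} {g : ι → M → N}
    {x₀ : M} (hu : ∀ᶠ p in l ×ˢ 𝓝 x₀, MDifferentiableAt I 𝓘(ℝ, N) (u p.1) p.2)
    (hf : ∀ᶠ x in 𝓝 x₀, Tendsto (fun n => u n x) l (𝓝 (f x)))
    (hg : ∀ a, TendstoUniformlyOnFilter (fun n => F.D a (u n)) (g a) l (𝓝 x₀)) :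
    MDifferentiableAt I 𝓘(ℝ, N) f x₀ ∧ ∀ a, F.D a f x₀ = g a x₀ := by
  obtain ⟨R, hR, hRT⟩ := exists_rinv F.sm x₀ (span_c F x₀)
  have hx₀ := mem_chart_source HM x₀
  have h3 := (chart_symm_smoothAt (I := I) hx₀).continuousAt.tendsto
  rw [extChartAt_to_inv] at h3
  have h3' : Tendsto (fun p : α × E => (p.1, (extChartAt I x₀).symm p.2))
      (l ×ˢ 𝓝 (extChartAt I x₀ x₀)) (l ×ˢ 𝓝 x₀) := tendsto_id.prodMap h3
  have h2 : ∀ᶠ y in 𝓝 (extChartAt I x₀ x₀), y ∈ (extChartAt I x₀).target :=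
    extChartAt_target_mem_nhds x₀
  have hb : ∀ᶠ x in 𝓝 x₀, ‖R x‖ < ‖R x₀‖ + 1 :=
    hR.continuousAt.norm.eventually (gt_mem_nhds (by linarith))
  have key : HasFDerivAt (f ∘ (extChartAt I x₀).symm) ((fun y => (comb ι N fun a =>
      g a ((extChartAt I x₀).symm y)).comp (R ((extChartAt I x₀).symm y))) (extChartAt I x₀ x₀))
      (extChartAt I x₀ x₀) := by
    refine hasFDerivAt_of_tendstoUniformlyOnFilter (l := l)
      (f := fun n => u n ∘ (extChartAt I x₀).symm) (g := f ∘ (extChartAt I x₀).symm)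
      (g' := fun y => (comb ι N fun a =>
        g a ((extChartAt I x₀).symm y)).comp (R ((extChartAt I x₀).symm y)))
      (f' := fun n y => (comb ι N fun a => F.D a (u n) ((extChartAt I x₀).symm y)).comp
        (R ((extChartAt I x₀).symm y))) ?_ ?_ (h3.eventually hf)
    · rw [Metric.tendstoUniformlyOnFilter_iff]
      intro ε hε
      set C := (‖comb ι N‖ + 1) * (‖R x₀‖ + 1)
      have hC : 0 < C := by positivity
      have h5 : ∀ᶠ p in l ×ˢ 𝓝 x₀, ∀ a, dist (g a p.2) (F.D a (u p.1) p.2) < ε / C :=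
        eventually_all.2 fun a => Metric.tendstoUniformlyOnFilter_iff.1 (hg a) _ (by positivity)
      filter_upwards [h3'.eventually h5, Eventually.prod_inr (h3.eventually hb) l] with p hp1 hp2
      rw [dist_eq_norm, ← ContinuousLinearMap.sub_comp, ← map_sub]
      have h6 : ‖(fun a => g a ((extChartAt I x₀).symm p.2)) -
          fun a => F.D a (u p.1) ((extChartAt I x₀).symm p.2)‖ ≤ ε / C :=
        (pi_norm_le_iff_of_nonneg (by positivity)).2 fun a => by
          simpa [dist_eq_norm] using (hp1 a).le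
      refine (ContinuousLinearMap.opNorm_comp_le _ _).trans_lt ?_
      calc _ ≤ ‖comb ι N‖ * (ε / C) * (‖R x₀‖ + 1) := by
            gcongr
            exact ((comb ι N).le_opNorm _).trans (by gcongr)
        _ < (‖comb ι N‖ + 1) * (ε / C) * (‖R x₀‖ + 1) := by gcongr; linarith
        _ = ε := by simp only [C]; field_simp
    · filter_upwards [Eventually.prod_inr (h2.and (h3.eventually hRT)) l, h3'.eventually hu]
        with p hp hp'
      have h4 : (extChartAt I x₀).symm p.2 ∈ (chartAt HM x₀).source := by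
        simpa using (extChartAt I x₀).map_target hp.1
      have := chart_hasFDerivAt h4 hp.2 hp'
      rwa [(extChartAt I x₀).right_inv hp.1] at this
  have hd := of_chart_hasFDerivAt hx₀ key
  refine ⟨hd.1, fun a => ?_⟩
  rw [Pre.D_def, hd.2]
  beta_reduce
  rw [extChartAt_to_inv, ContinuousLinearMap.comp_apply]
  have h7 := hRT.self_of_nhds
  have h9 : ∀ b, Tendsto (fun n => F.D b (u n) x₀) l (𝓝 (g b x₀)) := fun b =>
    (hg b).tendsto_at (by simpa using pure_le_nhds x₀)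
  refine tendsto_nhds_unique ?_ (h9 a)
  refine ((((comb ι N).flip (R x₀ (dv I (F.e a) (extChartAt I x₀) x₀))).continuous.tendsto _).comp
    (tendsto_pi_nhds.2 h9)).congr' ?_
  filter_upwards [(tendsto_id.prodMk (tendsto_const_pure.mono_right (pure_le_nhds x₀))).eventually hu]
    with n hn
  exact ((of_chart_hasFDerivAt hx₀ (chart_hasFDerivAt hx₀ h7 hn)).2 (F.e a)).symm

/-- pointwise limits of functions with locally bounded derivatives are locally uniform -/
theorem unif_loc {α : Type} {l : Filter α} [l.NeBot] {f : α → M → N} {g : M → N} {x : M} {C : ℝ}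
    {O : Set M} (hO : O ∈ 𝓝 x) (hb : ∀ᶠ n in l, ∀ z ∈ O, MDifferentiableAt I 𝓘(ℝ, N) (f n) z ∧
      ∀ a, ‖F.D a (f n) z‖ ≤ C) (hg : ∀ z ∈ O, Tendsto (fun n => f n z) l (𝓝 (g z))) :
    TendstoUniformlyOnFilter f g l (𝓝 x) := by
  rw [Metric.tendstoUniformlyOnFilter_iff]
  intro ε hε
  obtain ⟨O', hO', hs, hosc⟩ := osc_on N F x hO (ε := ε / 3 / (|C| + 1)) (by positivity)
  have hx := hg x (mem_of_mem_nhds hO)
  have h2 : ε / 3 / (|C| + 1) * |C| ≤ ε / 3 := by
    rw [div_mul_eq_mul_div, div_le_iff₀ (by positivity)]; nlinarith [abs_nonneg C]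
  have hb' : ∀ᶠ n in l, ∀ z ∈ O', ‖f n z - f n x‖ ≤ ε / 3 := hb.mono fun n hn z hz =>
    (hosc _ |C| (abs_nonneg C) (fun z hz => (hn z (hs hz)).1)
      (fun a z hz => ((hn z (hs hz)).2 a).trans (le_abs_self C)) z hz).trans h2
  have h1 := (Metric.tendsto_nhds.1 hx (ε / 3) (by positivity)).and hb'
  filter_upwards [h1.prod_mk hO'] with p hp
  have h3 := hp.1.2 _ hp.2
  have h4 : ‖g p.2 - g x‖ ≤ ε / 3 := le_of_tendsto ((hg p.2 (hs hp.2)).sub hx).norm
    (hb'.mono fun n hn => hn _ hp.2)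
  have h5 := hp.1.1
  rw [dist_eq_norm] at h5 ⊢
  have h6 := norm_sub_le_norm_sub_add_norm_sub (g p.2) (g x) (f p.1 p.2)
  have h7 := norm_sub_le_norm_sub_add_norm_sub (g x) (f p.1 x) (f p.1 p.2)
  rw [norm_sub_rev (g x) (f p.1 x), norm_sub_rev (f p.1 x) (f p.1 p.2)] at h7
  linarith

/-- LIM: limits of locally defined gauge transformations -/
theorem lim_loc [T2Space M] [BorelSpace M] {α : Type} (𝒰 : Ultrafilter α) {u : α → M → ℂ}
    {δ : ι → M → ℝ} (hu : ∀ x, ∃ O ∈ 𝓝 x, ∀ᶠ n in (𝒰 : Filter α), ∀ z ∈ O,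
      MDifferentiableAt I 𝓘(ℝ, ℂ) (u n) z ∧ ‖u n z‖ = 1) (hδ : ∀ a, Sm I (δ a))
    (hβ : ∀ a, TendstoLocallyUniformly (fun n x => (star (u n x) * F.D a (u n) x).im) (δ a) 𝒰) :
    ∃ U : M → ℂ, Sm I U ∧ (∀ x, ‖U x‖ = 1) ∧ (∀ a x, (star (U x) * F.D a U x).im = δ a x) ∧
      TendstoLocallyUniformly u U 𝒰 := by
  have ex : ∀ x, ∃ z ∈ Metric.sphere (0 : ℂ) 1, Tendsto (fun n => u n x) 𝒰 (𝓝 z) := fun x =>
    (isCompact_sphere (0 : ℂ) 1).ultrafilter_le_nhds (𝒰.map fun n => u n x)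
      (le_principal_iff.2 (mem_map.2 ((hu x).elim fun O h => h.2.mono fun n hn => by
        simpa using (hn x (mem_of_mem_nhds h.1)).2)))
  choose U hU hl using ex
  have hU1 : ∀ x, ‖U x‖ = 1 := fun x => by simpa using hU x
  have hn : ∀ (r : ℝ) (z : ℂ), ‖mi r z‖ = |r| * ‖z‖ := fun r z => by simp [mi_apply]
  have hβ' : ∀ a x, TendstoUniformlyOnFilter (fun n x => (star (u n x) * F.D a (u n) x).im) (δ a)
      𝒰 (𝓝 x) := fun a => tendstoLocallyUniformly_iff_filter.1 (hβ a)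
  have hD : ∀ x, ∃ O ∈ 𝓝 x, ∀ᶠ n in (𝒰 : Filter α), ∀ z ∈ O, MDifferentiableAt I 𝓘(ℝ, ℂ) (u n) z ∧
      ‖u n z‖ = 1 ∧ ∀ a, F.D a (u n) z = mi (star (u n z) * F.D a (u n) z).im (u n z) := fun x => by
    obtain ⟨O, hO, h⟩ := hu x
    refine ⟨interior O, interior_mem_nhds.2 hO, h.mono fun n hn z hz => ?_⟩
    have h1 := hn z (interior_subset hz)
    exact ⟨h1.1, h1.2, fun a => (D_unit h1.1 (mem_of_superset (mem_interior_iff_mem_nhds.1 hz)
      fun y hy => (hn y hy).2) a).trans (mi_apply _ _).symm⟩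
  have hC : ∀ x, ∃ C, ∀ᶠ z in 𝓝 x, ∀ a, |δ a z| ≤ C := fun x => ⟨‖fun a => δ a x‖ + 1, by
    have : ContinuousAt (fun z a => δ a z) x := continuousAt_pi.2 fun a => (hδ a).continuous.continuousAt
    filter_upwards [this.norm.eventually_le_const (lt_add_one _)] with z hz a
    exact (norm_le_pi_norm (fun a => δ a z) a).trans hz⟩
  have hev : ∀ x, ∀ ε > 0, ∀ᶠ p in (𝒰 : Filter α) ×ˢ 𝓝 x, ∀ a,
      |δ a p.2 - (star (u p.1 p.2) * F.D a (u p.1) p.2).im| < ε := fun x ε hε =>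
    eventually_all.2 fun a => Metric.tendstoUniformlyOnFilter_iff.1 (hβ' a x) ε hε
  have hun : ∀ x, TendstoUniformlyOnFilter u U 𝒰 (𝓝 x) := fun x => by
    obtain ⟨O, hO, h⟩ := hD x
    obtain ⟨C, hC⟩ := hC x
    obtain ⟨p, hp, q, hq, hpq⟩ := eventually_prod_iff.1 (hev x 1 one_pos)
    refine unif_loc F (C := C + 1) (inter_mem hO (hC.and hq)) ?_ fun z _ => hl z
    filter_upwards [h, hp] with n h1 h2 z hz
    refine ⟨(h1 z hz.1).1, fun a => ?_⟩
    rw [(h1 z hz.1).2.2 a, hn, (h1 z hz.1).2.1, mul_one]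
    have h3 := hpq h2 hz.2.2 a
    have := abs_sub_abs_le_abs_sub (star (u n z) * F.D a (u n) z).im (δ a z)
    rw [abs_sub_comm] at h3
    linarith [hz.2.1 a]
  have key := fun x => mdiff_loc F (g := fun a x => mi (δ a x) (U x)) (x₀ := x) (l := 𝒰) (u := u)
    ((hD x).elim fun O h => (h.2.prod_mk h.1).mono fun p hp => (hp.1 _ hp.2).1)
    (Eventually.of_forall hl) fun a => by
    rw [Metric.tendstoUniformlyOnFilter_iff]
    intro ε hε
    obtain ⟨O, hO, h⟩ := hD x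
    obtain ⟨C, hC⟩ := hC x
    filter_upwards [hev x (ε / 2) (by positivity), Metric.tendstoUniformlyOnFilter_iff.1 (hun x)
      (ε / 2 / (|C| + 1)) (by positivity), h.prod_mk (hC.and hO)] with p e1 e4 e5
    have e6 := e5.1 _ e5.2.2
    have e7 := e1 a
    have e8 := (e5.2.1 a).trans (le_abs_self C)
    rw [e6.2.2 a]
    generalize (star (u p.1 p.2) * F.D a (u p.1) p.2).im = β at e7
    have e3 : mi (δ a p.2) (U p.2) - mi β (u p.1 p.2) =
        mi (δ a p.2) (U p.2 - u p.1 p.2) + mi (δ a p.2 - β) (u p.1 p.2) := by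
      simp only [map_sub, sub_apply]; abel
    rw [dist_eq_norm, lt_div_iff₀ (by positivity)] at e4
    rw [dist_eq_norm, e3]
    refine (norm_add_le _ _).trans_lt ?_
    rw [hn, hn, e6.2.1, mul_one]
    nlinarith [norm_nonneg (U p.2 - u p.1 p.2)]
  have hs := sm_ode (fun x => (key x).1) hδ fun a x => (key x).2 a
  refine ⟨U, hs, hU1, fun a x => ?_, tendstoLocallyUniformly_iff_filter.2 hun⟩
  rw [(key x).2 a, mi_apply, mul_left_comm, Complex.star_def, Complex.conj_mul', hU1]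
  simp

/-! ### logarithms -/

variable (I) in
/-- `u` has a smooth logarithm -/
abbrev Lg (u : M → ℂ) : Prop := ∃ χ : M → ℝ, Sm I χ ∧ ∀ y, u y = Complex.exp (χ y * Complex.I)

theorem Lg.one : Lg I fun _ : M => (1 : ℂ) := ⟨0, contMDiff_const, fun _ => by simp⟩

theorem Lg.norm {u : M → ℂ} (h : Lg I u) (y : M) : ‖u y‖ = 1 := by
  obtain ⟨χ, -, h⟩ := h
  rw [h, Complex.norm_exp_ofReal_mul_I]

theorem Lg.mul {u v : M → ℂ} (h : Lg I u) (h' : Lg I v) : Lg I fun y => u y * v y := by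
  obtain ⟨χ, h1, h2⟩ := h
  obtain ⟨χ', h3, h4⟩ := h'
  exact ⟨χ + χ', h1.add h3, fun y => by
    beta_reduce; rw [h2, h4, ← Complex.exp_add]; simp [add_mul]⟩

theorem Lg.star {u : M → ℂ} (h : Lg I u) : Lg I fun y => star (u y) := by
  obtain ⟨χ, h1, h2⟩ := h
  exact ⟨-χ, h1.neg, fun y => by
    beta_reduce; rw [h2, Complex.star_def, ← Complex.exp_conj]; simp⟩

theorem Lg.sm {u : M → ℂ} (h : Lg I u) : Sm I u := by
  obtain ⟨χ, h1, h2⟩ := h
  rw [funext h2]
  have : ContDiff ℝ ∞ fun r : ℝ => Complex.exp (r * Complex.I) :=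
    (Complex.contDiff_exp (𝕜 := ℝ)).comp (Complex.ofRealCLM.contDiff.mul contDiff_const)
  exact this.contMDiff.comp h1

theorem lg_of_ne {u : M → ℂ} (hu : Sm I u) (h1 : ∀ y, ‖u y‖ = 1) (h : ∀ y, u y ≠ -1) : Lg I u := by
  have hs : ∀ y, u y ∈ Complex.slitPlane := fun y => by
    by_contra hy
    obtain ⟨h2, h3⟩ := not_or.1 (mt Complex.mem_slitPlane_iff.2 hy)
    have h4 : u y = (u y).re := Complex.ext rfl (by simpa using h3)
    have h5 := h1 y
    rw [h4, Complex.norm_real, Real.norm_eq_abs, abs_of_nonpos (not_lt.1 h2)] at h5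
    exact h y (by rw [h4, show (u y).re = -1 by linarith]; simp)
  refine ⟨fun y => Complex.arg (u y), fun y => ?_, fun y => ?_⟩
  · have := Complex.imCLM.contDiff.contDiffAt.comp (u y)
      ((Complex.contDiffAt_log (n := ∞) (hs y)).restrict_scalars ℝ)
    exact ((this.congr_of_eventuallyEq (Eventually.of_forall fun w =>
      (Complex.log_im w).symm)).contMDiffAt.comp y (hu y) :)
  · have := Complex.norm_mul_exp_arg_mul_I (u y)
    rw [h1] at this
    simpa using this.symm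

/-- LOG: functions at distance `< 2` are homotopic -/
theorem Lg.near {u v : M → ℂ} (h : Lg I v) (hu : Sm I u) (h1 : ∀ y, ‖u y‖ = 1)
    (hd : ∀ y, ‖u y - v y‖ < 2) : Lg I u := by
  have hv : ∀ y, Star.star (v y) * v y = 1 := fun y => by
    rw [Complex.star_def, Complex.conj_mul', h.norm]; simp
  have h2 := lg_of_ne (u := fun y => u y * Star.star (v y)) 
    (smooth_bil (ContinuousLinearMap.mul ℝ ℂ) hu h.star.sm)
    (fun y => by rw [norm_mul, h1, norm_star, h.norm, one_mul]) fun y e => by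
      have e1 : u y = -v y := by rw [← mul_one (u y), ← hv y, ← mul_assoc, e, neg_one_mul]
      have := hd y
      rw [e1, ← neg_add', norm_neg, ← two_mul, norm_mul, h.norm] at this
      simp at this
  simpa only [mul_assoc, hv, mul_one] using h2.mul h

/-- LOG: uniform limits -/
theorem Lg.lim {α : Type} {l : Filter α} {u : α → M → ℂ} {U : M → ℂ} (h : ∃ᶠ n in l, Lg I (u n))
    (hU : Sm I U) (h1 : ∀ y, ‖U y‖ = 1) (hl : TendstoUniformly u U l) : Lg I U := by
  obtain ⟨n, h2, h3⟩ := (h.and_eventually (Metric.tendstoUniformly_iff.1 hl 2 two_pos)).exists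
  exact h2.near hU h1 fun y => dist_eq_norm (U y) _ ▸ h3 y

theorem Lg.ev {α : Type} {l : Filter α} {u : α → M → ℂ} {U : M → ℂ} (h : Lg I U)
    (hu : ∀ᶠ n in l, Sm I (u n) ∧ ∀ y, ‖u n y‖ = 1) (hl : TendstoUniformly u U l) :
    ∀ᶠ n in l, Lg I (u n) := by
  filter_upwards [hu, Metric.tendstoUniformly_iff.1 hl 2 two_pos] with n h2 h3
  exact h.near h2.1 h2.2 fun y => by rw [norm_sub_rev, ← dist_eq_norm]; exact h3 y

/-- LOG: homotopies -/
theorem Lg.path [CompactSpace M] {A : Type} [TopologicalSpace A] {J : Set A} (hJ : IsPreconnected J)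
    {u : M × A → ℂ} (hc : ContinuousOn u (univ ×ˢ J)) (hu : ∀ t ∈ J, Sm I fun y => u (y, t))
    (h1 : ∀ t ∈ J, ∀ y, ‖u (y, t)‖ = 1) {t₀ t : A} (h0 : t₀ ∈ J) (ht : t ∈ J)
    (h : Lg I fun y => u (y, t₀)) : Lg I fun y => u (y, t) := by
  have key : ∀ s ∈ J, ∀ᶠ s' in 𝓝[J] s, ∀ y, ‖u (y, s') - u (y, s)‖ < 2 := fun s hs => by
    have := isCompact_univ.eventually_forall_of_forall_eventually (x₀ := (⟨s, hs⟩ : J))
      (P := fun s' (y : M) => ‖u (y, s'.1) - u (y, s)‖ < 2) fun y _ => by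
        have c1 : Continuous fun z : J × M => u (z.2, z.1.1) :=
          hc.comp_continuous (by fun_prop) fun z => ⟨trivial, z.1.2⟩
        have c2 : Continuous fun z : J × M => u (z.2, s) :=
          hc.comp_continuous (by fun_prop) fun z => ⟨trivial, hs⟩
        exact (c1.sub c2).norm.continuousAt.eventually_lt continuousAt_const (by simp)
    rw [nhdsWithin_eq_map_subtype_coe hs, eventually_map]
    exact this.mono fun s' h y => h y trivial
  refine hJ.induction₂' (fun a b => (Lg I fun y => u (y, a)) → Lg I fun y => u (y, b))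
    (fun s hs => ?_) (fun _ _ _ _ _ _ a b c => b (a c)) h0 ht h
  filter_upwards [key s hs, self_mem_nhdsWithin] with s' h2 hs'
  exact ⟨fun h => h.near (hu s' hs') (h1 s' hs') h2,
    fun h => h.near (hu s hs) (h1 s hs) fun y => norm_sub_rev (u (y, s')) _ ▸ h2 y⟩

/-- LOG on a cylinder -/
theorem Lg.cyl [CompactSpace M] {J : Set ℝ} (hJ : IsPreconnected J) {u : M × ℝ → ℂ}
    (hu : ContMDiffOn (I.prod 𝓘(ℝ, ℝ)) 𝓘(ℝ, ℂ) ∞ u (univ ×ˢ J)) (h1 : ∀ x ∈ univ ×ˢ J, ‖u x‖ = 1)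
    {t₀ t : ℝ} (h0 : t₀ ∈ J) (ht : t ∈ J) (h : Lg I fun y => u (y, t₀)) : Lg I fun y => u (y, t) :=
  Lg.path hJ hu.continuousOn (fun _ hs => hu.comp_contMDiff (contMDiff_id.prodMk contMDiff_const)
    fun _ => ⟨trivial, hs⟩) (fun _ hs _ => h1 _ ⟨trivial, hs⟩) h0 ht h

end Crest.Agent.X212.Sw21
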