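import Crest.Agent.X212.Pyl42.Main
import Crest.Agent.X212.Msi61.Lcy
import Crest.Agent.X212.Dck68.Main

/-!
# Row 212, LY (helper21): the plug
-/

set_option autoImplicit false
noncomputable section

namespace Crest.Agent.X212.Sw21
open G75

/-- **LY** -/
theorem ly {κ lam : Type} [Fintype κ] [Fintype lam] [DecidableEq lam] {Lm : LM κ lam}
    (H : Lns95.LH Lm) : Rf65.LyStmt Lm := fun S D i Wi r n J hS hJ l hl =>
  let ⟨p, cv, h⟩ := Pyl42.pyl H Dck68.deck S D i Wi r n J hS hJ l hl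
  ⟨p, fun β k => (Msi61.cyStmt _ cv h β k).1⟩

end Crest.Agent.X212.Sw21
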