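import Crest.Agent.X212.Qab60.Lq
import Crest.Agent.X212.Cob34.Xi
import Crest.Agent.X212.Cob34.Toe

/-! X212 (helper21): the row of a cut at an abelian point of a job; `KEX`. -/

set_option autoImplicit false
set_option linter.unusedSectionVars false
noncomputable section
open scoped Manifold ContDiff Topology InnerProductSpace Real
open Set Function Filter

namespace Crest.Agent.X212.Sw21
open An Prm93 Num57 M Wz78 Hol14 Qab60
open Fred93 (Fr)
open Abel74 (RedOn fm)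

theorem ex_ker {H K : Type} [NormedAddCommGroup H] [NormedSpace ℝ H] [CompleteSpace H]
    [NormedAddCommGroup K] [NormedSpace ℝ K] [CompleteSpace K] {L Q : H →L[ℝ] H} {P : H →L[ℝ] K}
    {j : K →L[ℝ] H} (h1 : ∀ χ, P (j χ) = χ) (h2 : ∀ ψ, j (P ψ) = Q ψ) (c : ∀ ψ, Q (L ψ) = L (Q ψ))
    (hL : Fr L 0) {n : ℤ} (hn : n ≠ 0) (hA : Fr (P ∘L L ∘L j) n) : ∃ ψ, ‖ψ‖ = 1 ∧ L ψ = 0 := by
  by_contra h
  have i : Injective L := (injective_iff_map_eq_zero _).2 fun ψ z =>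
    by_contra fun h0 => h ⟨‖ψ‖⁻¹ • ψ, norm_smul_inv_norm h0, by rw [map_smul, z, smul_zero]⟩
  exact hn (hA.unique (Fr.of_bijective (Cob34.bij_res h1 h2 c ⟨i, hL.surj_of_inj i⟩)))

section pt
variable {E : Type} [NormedAddCommGroup E] [NormedSpace ℝ E] [FiniteDimensional ℝ E]
  [MeasurableSpace E] [BorelSpace E]
  {HM : Type} [TopologicalSpace HM] {I : ModelWithCorners ℝ E HM} [I.Boundaryless]
  {M : Type} [TopologicalSpace M] [ChartedSpace HM M] [IsManifold I ∞ M] [T2Space M]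
  [MeasurableSpace M] [BorelSpace M] [SecondCountableTopology M] {ι : Type} [Fintype ι]
  {lam : Type} [Fintype lam] {r : ℕ}

/-- a cut through an abelian part -/
structure AP (B : Base M ι lam) (G : Geo I M ι lam) (Ω : Set M) (x : Cfg M ι lam r)
    (ξ : M → x.m.A) (k : Cut M lam) : Prop where
  hB : B.OK I
  hG : G.OK B
  tm : ∃ C, G.F.Tame C
  cl : IsClopen Ω
  ab : Ab B G Ω x ξ
  hk : k.OK B G.F
  sub : k.supp ⊆ Ω

/-- operators that behave like the terms: compact, on `U`, complex linear, preserving the half -/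
structure Lk (B : Base M ι lam) (F : An.Fr I M ι) (m : Md M ι lam) (k : Cut M lam) (η : m.A)
    (σ : CL (k.H B m) (k.H B m)) : Prop where
  cp : IsCompactOperator σ
  hu : On (k.pi B F m k.x0) σ
  cJ : Commute σ (JH m.J (m.pp B k.x0))
  cQ : Commute σ (cH m B k (ph B k F η))
  cN : Commute σ (cH m B k (ph B k F (-η)))

variable {B : Base M ι lam} {G : Geo I M ι lam} {Ω : Set M} {x : Cfg M ι lam r} {ξ : M → x.m.A}
  {k : Cut M lam}

section lk
variable {F : An.Fr I M ι} {m : Md M ι lam} {η : m.A} {σ τ : CL (k.H B m) (k.H B m)}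

theorem Lk.zero : Lk B F m k η 0 :=
  ⟨isCompactOperator_zero, ⟨fun _ => map_zero _, fun _ => rfl⟩, .zero_left _, .zero_left _,
    .zero_left _⟩

theorem Lk.add (h : Lk B F m k η σ) (h' : Lk B F m k η τ) : Lk B F m k η (σ + τ) :=
  ⟨h.cp.add h'.cp, h.hu.add h'.hu, h.cJ.add_left h'.cJ, h.cQ.add_left h'.cQ, h.cN.add_left h'.cN⟩

theorem Lk.smul (h : Lk B F m k η σ) (a : ℝ) : Lk B F m k η (a • σ) :=
  ⟨h.cp.smul a, h.hu.smul a, h.cJ.smul_left a, h.cQ.smul_left a, h.cN.smul_left a⟩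

theorem Lk.sum {α : Type} (s : Finset α) {σ : α → CL (k.H B m) (k.H B m)}
    (h : ∀ a ∈ s, Lk B F m k η (σ a)) : Lk B F m k η (∑ a ∈ s, σ a) :=
  Finset.sum_induction _ _ (fun _ _ => Lk.add) .zero h

theorem Lk.neg (h : Lk B F m k η σ) : Lk B F m k (-η) σ :=
  ⟨h.cp, h.hu, h.cJ, h.cN, by rw [neg_neg]; exact h.cQ⟩

end lk

namespace AP
variable (h : AP B G Ω x ξ k)
include h

theorem rd : RedOn G.F x.m x.W k.supp ξ := h.ab.rd.toRedOn.mono h.sub

/-- the terms at an abelian point -/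
theorem lk_tc (t : Tc M lam r) : Lk B G.F x.m k (ξ k.x0) (x.tc B G.F k t) := by
  obtain ⟨_, hT⟩ := h.tm
  obtain ⟨a, b, e⟩ := Cob34.xi_eq h.hB h.hG (Mp86.bumps_of_tame _ hT) h.cl h.ab t.ξ (h.sub x0_mem)
  have H := h.ab.adm.ok
  have m := h.rd.mem _ x0_mem
  have c : ∀ T, T * opL (ξ k.x0) = opL (ξ k.x0) * T → T * x.xi G.F t.ξ k.x0 = x.xi G.F t.ξ k.x0 * T :=
    fun T hT => by
      rw [e]; exact ((Commute.one_right T).smul_right a).add_right (Commute.smul_right hT b)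
  have R' := redOn_neg h.rd
  exact ⟨cpt_tc t, on_tc h.hB H h.hk t, ContinuousLinearMap.ext fun ψ =>
    (JH_frk_pi h.hB H (k := k) (F := G.F) (c _ (g_J m)) t.m t.n t.w ψ).symm,
    ContinuousLinearMap.ext fun ψ => (ph_tc h.hB H h.hk m (h.rd.sq _ x0_mem) t (c _ (g_J m))
      (c _ (g_pi H m).symm) (c _ rfl) ψ).symm,
    ContinuousLinearMap.ext fun ψ => (ph_tc h.hB H h.hk (R'.mem _ x0_mem) (R'.sq _ x0_mem) t
      (c _ (g_J m)) (c _ (g_pi H m).symm) (c _ (by rw [map_neg, neg_mul, mul_neg])) ψ).symm⟩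

variable {σ : CL (k.H B x.m) (k.H B x.m)}

theorem fr (hσ : IsCompactOperator σ) : Fr (k.T B G.F x.m x.W - σ) 0 :=
  fr_sub h.hB h.ab.adm.ok h.hk (cn0_of h.ab.adm.conn) hσ

/-- a row of non-zero flux has a solution -/
theorem ex (hσ : Lk B G.F x.m k (ξ k.x0) σ) {n : ℤ} (n0 : n ≠ 0)
    (hn : flux I k (fm G.F x.m x.W ξ) = n * (2 * π)) : ∃ ψ, ‖ψ‖ = 1 ∧ k.T B G.F x.m x.W ψ = σ ψ := by
  have H := h.ab.adm.ok
  have C := h.ab.adm.conn
  have S := sub_ph' h.hB H h.hk (h.rd.mem _ x0_mem) (h.rd.sq _ x0_mem)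
  obtain ⟨ψ, a, b⟩ := ex_ker S.proj_incl S.incl_proj (fun ψ => by
    rw [sub_apply, sub_apply, map_sub,
      ph_T h.hB H h.hk C h.rd]
    exact congrArg _ (DFunLike.congr_fun hσ.cQ.eq ψ).symm) (h.fr hσ.cp)
    (mul_ne_zero two_ne_zero n0) (fr_half h.hB H h.hk C h.rd h.hG hn hσ.cp)
  exact ⟨ψ, a, sub_eq_zero.1 b⟩

end AP
end pt

section job
variable {Wi : Type} {X : Mf 4} {A κ lam : Type} [Fintype A] [Fintype κ] [Fintype lam]
  [DecidableEq lam] {M : Mark X A κ} {W : World M} {N : ML M lam} {Λ : Lns W N}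
  {A' h : Type} [Fintype A'] [DecidableEq A'] [Fintype h] {r n : ℕ}
  {J : Job Wi Λ A' h r n} {c : M.Cl} {σ : Cel A'} {s : A' → ℝ} {Ω : Set (W.Z c).M}
  {x : Cg' W c lam r} {ξ : (W.Z c).M → x.m.A} {l : h}

theorem ap_of (hJ : J.OK) (o : Ovc J c σ s) (cl : IsClopen Ω) (ab : Ab (J.B c) (J.G c s) Ω x ξ)
    (hl : l ∈ J.unc c) (sub : (J.cut c l).supp ⊆ Ω) : AP (J.B c) (J.G c s) Ω x ξ (J.cut c l) :=
  have p := Fin37.Pm.ok hJ ⟨σ, o⟩
  ⟨Λ.B_ok _ _, p.1, p.2, cl, ab, hJ.ct σ o.1 s (J.cl_dom o.2.1) c o.2.2 l hl, sub⟩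

theorem AP.lk (H : AP (J.B c) (J.G c s) Ω x ξ (J.cut c l)) (q : Wi →₀ ℝ) :
    Lk (J.B c) (J.G c s).F x.m (J.cut c l) (ξ (J.cut c l).x0) (J.σc c q s l x) :=
  Lk.sum _ fun _ _ => (H.lk_tc _).smul _

variable (J c) in
/-- **RFQ-KEX** -/
theorem kex : KexL J c := fun hJ _ _ o _ _ _ cl ab _ hl sub hf q => by
  have H := ap_of hJ o cl ab hl sub
  rcases eq_or_eq_neg_of_abs_eq hf with e | e
  · exact H.ex (H.lk q) one_ne_zero (by simpa using e)
  · exact H.ex (H.lk q) (n := -1) (by simp) (by simpa using e)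

end job
end Crest.Agent.X212.Sw21
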