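import Crest.Agent.X212.Map77.S1

/-!
# Row 212, MS-CC (helper21): the cylinder is a cell
-/

set_option autoImplicit false
set_option linter.unusedSectionVars false
noncomputable section
open scoped Manifold ContDiff Topology InnerProductSpace
open MeasureTheory Set Function Filter

namespace Crest.Agent.X212.Sw21
open An Prm93 Sob92 Sw
open M (Mf)

variable {κ lam ν : Type} [Fintype κ] [Fintype lam] [Fintype ν] [DecidableEq ν]
  {d : Dt κ lam ν} {N : Type} [Fintype N] {ty : N → d.𝓔} {i : N}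
  {T : Type} [NormedAddCommGroup T] [NormedSpace ℝ T] [FiniteDimensional ℝ T]

theorem cs_self : (d.cs ty i).nk i = some (d.e (ty i)).nk := by simp [Dt.cs]

theorem cs_ne {j : N} (h : j ≠ i) : (d.cs ty i).nk j = none := by simp [Dt.cs, h]

theorem cs_eq {j : N} {K} (h : K ∈ (d.cs ty i).nk j) : j = i := by
  by_contra hj
  simp [cs_ne hj] at h

theorem mem_cs {K} : K ∈ (d.cs ty i).nk i ↔ K = (d.e (ty i)).nk :=
  ⟨fun h => Option.some.inj (h.symm.trans cs_self), fun h => h ▸ cs_self⟩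

theorem nk_inf (e : En3 κ lam ν) (b : Bool) : e.nk.Inf b := by cases b <;> exact rfl

theorem cs_inf {j : N} {b : Bool} : (d.cs ty i).Inf j b ↔ j = i :=
  ⟨fun ⟨_, h, _⟩ => cs_eq h, fun h => h ▸ ⟨_, mem_cs.2 rfl, nk_inf _ b⟩⟩

theorem cs_mo (β : BCs fun j => d.e (ty j)) (b : Bool) (c) :
    (d.cs ty i).mo β i b c = (d.e (ty i)).nk.mo b (En3.L (β i b)) c := by
  rw [Pz.mo, cs_self]; rfl

theorem cs_core (r : ℝ) : (d.cs ty i).core r = {x | ∀ b, M.pm b * x.2 ≤ r} := by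
  ext x
  constructor
  · intro h b
    by_contra hb
    exact h i b _ (mem_cs.2 rfl) (nk_inf _ b) ⟨x, ⟨trivial, ⟨nofun, nofun⟩, not_le.1 hb⟩, rfl⟩
  · intro h j b K hK _
    obtain rfl := cs_eq hK
    obtain rfl := mem_cs.1 hK
    rintro ⟨y, hy, rfl⟩
    exact (h b).not_gt hy.2.2

theorem cs_ok (he : ∀ j, (d.e (ty j)).OK) : (d.cs ty i).OK := by
  refine ⟨(he i).cyl, (he i).cyl.G.vol, inferInstanceAs (ConnectedSpace (_ × ℝ)), he,
    fun j j' h K hK K' hK' => (h ((cs_eq hK).trans (cs_eq hK').symm)).elim, fun r => ?_⟩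
  rw [cs_core]
  refine (isCompact_univ.prod (isCompact_Icc (a := -r) (b := r))).of_isClosed_subset ?_
    fun x hx => ⟨trivial, ?_, ?_⟩
  · rw [ofPred_forall]
    exact isClosed_iInter fun b => isClosed_le (continuous_const.mul continuous_snd) continuous_const
  · have := hx false
    simp only [M.pm] at this
    norm_num at this; linarith
  · simpa [M.pm] using hx true

theorem cf_ok (he : ∀ j, (d.e (ty j)).OK) (hw : 0 < (d.e (ty i)).w) : (d.cf ty i T).OK := by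
  have hs := cs_ok (i := i) he
  obtain ⟨C, hC⟩ := hs.bg.tame
  have hP := fun x a b => (hs.bg.B.pr x).idem a b
  have h0 : (d.cs ty i).bg.F.Cb fun _ => (0 : F2 κ) := Cb_const _
  refine ⟨hs, fun j K hK => ?_, hw, isOpen_univ, isPreconnected_univ, univ_nonempty,
    fun t _ => ⟨hs, fun _ => contMDiff_const, fun _ => HasCompactSupport.zero,
      fun _ _ => map_zero _, fun _ j => j.elim0⟩, fun _ _ => rfl, fun _ _ => rfl, fun _ _ => rfl,
    fun _ _ a x => ((d.cs ty i).bg.F.P_e a x).symm, fun _ _ => hP, fun _ _ => hP, fun _ _ => hP,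
    fun _ _ => hP, fun _ _ => hP, fun _ _ => hP, fun a b => SB.fixed ⟨C, hC.P a b⟩,
    fun a b => SB.fixed ⟨C, hC.P a b⟩, fun a b k => SB.fixed ⟨C, hC.c a b k⟩,
    fun a => SB.fixed ⟨C, hC.dv a⟩, ⟨fun _ _ => 1, SB.fixed (Cb_const 1), fun _ _ =>
      ⟨fun _ => one_pos, ?_⟩⟩, fun a => SB.fixed (hs.bg.cA a), SB.fixed hs.bg.cms,
    SB.fixed hs.bg.com, fun _ => SB.fixed h0, fun _ => ⟨0, fun _ _ _ _ => rfl⟩,
    fun _ _ _ K hK => ⟨K, hK, rfl⟩, fun _ _ j hj => Or.inl (.of_forall fun _ K hK => ?_),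
    fun _ _ _ _ j => j.elim0, fun j => j.elim0, fun _ j => j.elim0⟩
  · obtain rfl := cs_eq hK
    obtain rfl := mem_cs.1 hK
    exact ⟨true, nk_inf _ _⟩
  · simp only [ENNReal.ofReal_one]; exact withDensity_one.symm
  · exact absurd (hj.symm.trans hK) (by simp)

theorem cs_gd {β : BCs fun j => d.e (ty j)} (h : ∀ b, En3.Gd (β i b)) : (d.cs ty i).Gd β :=
  fun _ b hj => cs_inf.1 hj ▸ h b

/-- MS-CC -/
theorem ccOK : Map77.S.CcOK d ty T := fun _ _ he hw hg =>
  ⟨cf_ok he hw, cs_gd hg, fun j => j.elim0⟩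

theorem Fn.sub {X : Mf 4} {nc nr : ℕ} {s : Pz X 0 fun i => d.e (ty i)} {σ : Cel s nc nr T}
    {g g' : T → Cfg X.M κ ν → ℝ} (h : σ.Fn g) (h' : σ.Fn g') : σ.Fn fun t c => g t c - g' t c :=
  ⟨fun k hk => (h.1 k hk).elim fun f hf => (h'.1 k hk).elim fun f' hf' =>
    ⟨fun v => f v - f' v, hf.1.sub hf'.1, fun y => congrArg₂ (· - ·) (hf.2 y) (hf'.2 y)⟩,
    fun y y' e e' => congrArg₂ (· - ·) (h.2 y y' e e') (h'.2 y y' e e')⟩

/-- centred trajectories -/
theorem cc_ok {nr : ℕ} (hM : MapStmt d ty (d.e (ty i)).Z 0 nr T) {β : BCs fun j => d.e (ty j)}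
    (he : ∀ j, (d.e (ty j)).OK) (hw : 0 < (d.e (ty i)).w) (hg : ∀ b, En3.Gd (β i b)) :
    (d.cc ty i T nr β).OK := by
  have h := fun b => (hM.mo _ (d.cc ty i T nr β) (cf_ok he hw) (cs_gd hg)).1 i b (cs_inf.2 rfl)
  refine ⟨cf_ok he hw, cs_gd hg, fun j => ?_⟩
  have := Fn.sub (h false) (h true)
  simp only [cs_mo] at this
  exact this

end Crest.Agent.X212.Sw21
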