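import Crest.Agent.X212.Sw.Lv
import Crest.Agent.X212.Sob92.Ev

/-!
# Row 212, SW-FACET (helper21): hyperplane sections of cells

Uniqueness of representing maps (`rep_eqOn`, `repR_eqOn`), restriction along affine maps.
-/

set_option autoImplicit false
set_option linter.unusedSectionVars false
noncomputable section
open scoped Manifold ContDiff Topology InnerProductSpace
open MeasureTheory Set Function Filter

namespace Crest.Agent.X212.Sw21
open An Prm93 Sob92 Sw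
open M (Mf)

variable {κ lam ν : Type} [Fintype κ] [Fintype lam] [Fintype ν] [DecidableEq ν]
  {d : Dt κ lam ν} {N : Type} [Fintype N] {ty : N → d.𝓔} {X : Mf 4} {nc nr : ℕ}
  {T : Type} [NormedAddCommGroup T] [NormedSpace ℝ T] [FiniteDimensional ℝ T]
  {T' : Type} [NormedAddCommGroup T'] [NormedSpace ℝ T'] [FiniteDimensional ℝ T']
  {s : Pz X 0 fun i => d.e (ty i)} {σ : Cel s nc nr T}

theorem cr_of_gd {β : BCs fun i => d.e (ty i)} (h : s.Gd β) : s.Cr β := fun i b hi => (h i b hi).crit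

theorem isOpen_U (h : σ.toFam.OK) (k : ℕ) : IsOpen (σ.U k) := h.opn.preimage (by fun_prop)

theorem pt_mem (k : ℕ) (y : σ.Pnt) : σ.pt k y ∈ σ.U k := y.2.1

theorem U_nhds (h : σ.toFam.OK) (k : ℕ) (y : σ.Pnt) : σ.U k ∈ 𝓝 (σ.pt k y) :=
  (isOpen_U h k).mem_nhds (pt_mem k y)

/-- continuous maps are determined by their values at smooth points -/
theorem eqOn_of_pt {Z : Type} [TopologicalSpace Z] [T2Space Z] {k : ℕ}
    (hd : closure (range (σ.pt k)) ⊇ σ.U k) {f f' : σ.C k → Z} (hf : ContinuousOn f (σ.U k))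
    (hf' : ContinuousOn f' (σ.U k)) (e : ∀ y, f (σ.pt k y) = f' (σ.pt k y)) :
    EqOn f f' (σ.U k) := by
  refine EqOn.of_subset_closure (s := range (σ.pt k)) ?_ hf hf' ?_ hd
  · rintro _ ⟨y, rfl⟩; exact e y
  · rintro _ ⟨y, rfl⟩; exact pt_mem k y

theorem rep_eqOn {k j : ℕ} (h : σ.toFam.OK) (hd : closure (range (σ.pt k)) ⊇ σ.U k) (hj : 4 ≤ j)
    {E : T → Cfg X.M κ ν → Ev κ ν X nc nr} {f f' : σ.C k → σ.Y j} (hf : σ.Rep E f)
    (hf' : σ.Rep E f') : EqOn f f' (σ.U k) := by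
  obtain ⟨C, hC⟩ := h.site.bg.tame
  refine eqOn_of_pt hd hf.1.continuousOn hf'.1.continuousOn fun y => ?_
  have e := (hf.2 y).trans (hf'.2 y).symm
  exact Prod.ext (val_injective (Sup.of_tame hC) hj (congrArg (·.1) e))
    (Prod.ext (val_injective (Sup.of_tame hC) hj (congrArg (·.2.1) e)) (congrArg (·.2.2) e))

theorem repR_eqOn {k : ℕ} (hd : closure (range (σ.pt k)) ⊇ σ.U k)
    {g : T → Cfg X.M κ ν → ℝ} {f f' : σ.C k → ℝ} (hf : σ.RepR g f) (hf' : σ.RepR g f') :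
    EqOn f f' (σ.U k) :=
  eqOn_of_pt hd hf.1.continuousOn hf'.1.continuousOn fun y => (hf.2 y).trans (hf'.2 y).symm

theorem rep_rp {k : ℕ} {E : T → Cfg X.M κ ν → Ev κ ν X nc nr} {f : σ.C k → σ.Y k}
    (hf : σ.Rep E f) : σ.Rep E (σ.rp k E) := by
  have h : ∃ f : σ.C k → σ.Y k, σ.Rep E f := ⟨f, hf⟩
  rw [Cel.rp, dif_pos h]; exact h.choose_spec

theorem repR_rr {k : ℕ} {g : T → Cfg X.M κ ν → ℝ} {f : σ.C k → ℝ} (hf : σ.RepR g f) :
    σ.RepR g (σ.rr k g) := by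
  have h : ∃ f : σ.C k → ℝ, σ.RepR g f := ⟨f, hf⟩
  rw [Cel.rr, dif_pos h]; exact h.choose_spec

section res
variable (σ) (j : T' →ᴬ[ℝ] T)

/-- the inclusion of the Banach models -/
def iC (k : ℕ) (v : (σ.res j).C k) : σ.C k := (v.1, v.2.1, j v.2.2)

/-- its linear part -/
def iL (k : ℕ) : (σ.res j).C k →L[ℝ] σ.C k :=
  (ContinuousLinearMap.id ℝ _).prodMap ((ContinuousLinearMap.id ℝ _).prodMap j.contLinear)

theorem iC_pt (k : ℕ) (y : (σ.res j).Pnt) : iC σ j k ((σ.res j).pt k y) = σ.pt k (σ.inc j y) := rfl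

theorem iC_smooth (k : ℕ) : ContDiff ℝ ∞ (iC σ j k) :=
  contDiff_fst.prodMk ((contDiff_fst.comp contDiff_snd).prodMk
    (j.contDiff.comp (contDiff_snd.comp contDiff_snd)))

theorem iC_deriv (k : ℕ) (v : (σ.res j).C k) : HasFDerivAt (iC σ j k) (iL σ j k) v :=
  (hasFDerivAt_id v.1).prodMap v ((hasFDerivAt_id v.2.1).prodMap v.2 j.hasFDerivAt)

theorem iC_maps (k : ℕ) : MapsTo (iC σ j k) ((σ.res j).U k) (σ.U k) := fun _ h => h

variable {σ j}

theorem rep_res {k l : ℕ} {E : T → Cfg X.M κ ν → Ev κ ν X nc nr} {f : σ.C k → σ.Y l}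
    (hf : σ.Rep E f) : (σ.res j).Rep (fun t => E (j t)) (f ∘ iC σ j k) :=
  ⟨hf.1.comp (iC_smooth σ j k).contDiffOn (iC_maps σ j k), fun y => hf.2 (σ.inc j y)⟩

theorem repR_res {k : ℕ} {g : T → Cfg X.M κ ν → ℝ} {f : σ.C k → ℝ}
    (hf : σ.RepR g f) : (σ.res j).RepR (fun t => g (j t)) (f ∘ iC σ j k) :=
  ⟨hf.1.comp (iC_smooth σ j k).contDiffOn (iC_maps σ j k), fun y => hf.2 (σ.inc j y)⟩

theorem fn_res {g : T → Cfg X.M κ ν → ℝ} (hg : σ.Fn g) : (σ.res j).Fn fun t => g (j t) :=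
  ⟨fun k hk => (hg.1 k hk).elim fun _ hf => ⟨_, repR_res hf⟩,
    fun y y' e h => hg.2 (σ.inc j y) (σ.inc j y') (congrArg j e) h⟩

theorem jc_res {f : T → R4 → Eu ν} {Q : Set T} (h : JC Q f) : JC (j ⁻¹' Q) fun t => f (j t) :=
  ⟨h.1.comp ((j.contDiff.comp contDiff_fst).prodMk contDiff_snd).contDiffOn
      fun _ hx => ⟨hx.1, trivial⟩,
    h.2.imp fun _ hK => ⟨hK.1, fun t ht => hK.2 (j t) ht⟩⟩

theorem famOK_res (h : σ.toFam.OK) (hc : IsPreconnected (j ⁻¹' σ.Q)) (hn : (j ⁻¹' σ.Q).Nonempty) :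
    (σ.res j).toFam.OK := by
  have hj : ContDiffOn ℝ ∞ j (j ⁻¹' σ.Q) := j.contDiff.contDiffOn
  have hm : MapsTo j (j ⁻¹' σ.Q) σ.Q := fun _ h => h
  refine ⟨h.site, h.ends, h.w0, h.opn.preimage j.continuous, hc, hn, fun t ht => h.ok _ ht,
    fun t ht => h.B _ ht, fun t ht => h.m _ ht, fun t ht => h.w _ ht, fun t ht => h.mix _ ht,
    fun t ht => h.PS _ ht, fun t ht => h.SP _ ht, fun t ht => h.PSi _ ht, fun t ht => h.SiP _ ht,
    fun t ht => h.SSi _ ht, fun t ht => h.SiS _ ht, fun a b => (h.sS a b).reparam hj hm,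
    fun a b => (h.sSi a b).reparam hj hm, fun a b c => (h.sc a b c).reparam hj hm,
    fun a => (h.sdv a).reparam hj hm, ?_, fun a => (h.sA a).reparam hj hm, h.sms.reparam hj hm,
    h.som.reparam hj hm, fun w => (h.sfo w).reparam hj hm,
    fun w => (h.cfo w).imp fun _ hr t ht => hr _ ht, fun t ht => h.en _ ht, fun t ht i hi => ?_,
    fun t ht t' ht' => h.ct _ ht _ ht', fun i => jc_res (h.η0 i), fun w i => jc_res (h.η w i)⟩
  · obtain ⟨g, hg, hg'⟩ := h.dens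
    exact ⟨fun t => g (j t), hg.reparam hj hm, fun t ht => hg' _ ht⟩
  · rcases h.nk _ ht i hi with h1 | ⟨K₀, hK₀, a, b, ha, hb, ℓ, V, hV, hℓ, hV'⟩
    · exact Or.inl (j.continuous.continuousAt.eventually h1)
    · exact Or.inr ⟨K₀, hK₀, a, b, ha, hb, fun x => ℓ (j x.1, x.2), j ⁻¹' V,
        j.continuous.continuousAt hV,
        hℓ.comp ((j.contDiff.comp contDiff_fst).prodMk contDiff_snd).contDiffOn
          fun _ hx => ⟨hx.1, trivial⟩, fun t' ht' => hV' _ ht'⟩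

theorem ok_res (h : σ.OK) (hc : IsPreconnected (j ⁻¹' σ.Q)) (hn : (j ⁻¹' σ.Q).Nonempty) :
    (σ.res j).OK := ⟨famOK_res h.toOK hc hn, h.gd, fun i => fn_res (h.R i)⟩

end res

theorem F_smooth (hR : RepStmt d ty X nc nr T) (h : σ.OK) {k : ℕ} (hk : 7 ≤ k) (q : d.W →₀ ℝ) :
    ContDiffOn ℝ ∞ (σ.F k q) (σ.U k) :=
  (hR s σ h k hk).1.1.add (ContDiffOn.sum fun w _ => ((hR s σ h k hk).2.1 w).1.const_smul (q w))

theorem F_diff (hR : RepStmt d ty X nc nr T) (h : σ.OK) {k : ℕ} (hk : 7 ≤ k) (q : d.W →₀ ℝ)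
    (y : σ.Pnt) : DifferentiableAt ℝ (σ.F k q) (σ.pt k y) :=
  ((F_smooth hR h hk q).contDiffAt (U_nhds h.toOK k y)).differentiableAt (by simp)

/-- the map of the restriction -/
theorem F_res (hP : PtStmt d ty X nc nr T') (hR : RepStmt d ty X nc nr T) (h : σ.OK)
    {j : T' →ᴬ[ℝ] T} (h' : (σ.res j).OK) {k : ℕ} (hk : 7 ≤ k) (q : d.W →₀ ℝ) :
    EqOn ((σ.res j).F k q) (σ.F k q ∘ iC σ j k) ((σ.res j).U k) := by
  have hd := ((hP s _ h'.toOK (cr_of_gd h'.gd)).2 k (by omega)).1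
  obtain ⟨h0, h1, -⟩ := hR s σ h k hk
  intro v hv
  have e0 := rep_eqOn h'.toOK hd (by omega) (rep_rp (rep_res (j := j) h0)) (rep_res h0) hv
  have e1 := fun w => rep_eqOn h'.toOK hd (by omega) (rep_rp (rep_res (j := j) (h1 w)))
    (rep_res (h1 w)) hv
  exact congrArg₂ (· + ·) e0 (Finsupp.sum_congr fun w _ => congrArg (q w • ·) (e1 w))

theorem fderiv_res (hP : PtStmt d ty X nc nr T') (hR : RepStmt d ty X nc nr T) (h : σ.OK)
    {j : T' →ᴬ[ℝ] T} (h' : (σ.res j).OK) {k : ℕ} (hk : 7 ≤ k) (q : d.W →₀ ℝ) (y : (σ.res j).Pnt) :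
    fderiv ℝ ((σ.res j).F k q) ((σ.res j).pt k y) =
      (fderiv ℝ (σ.F k q) (σ.pt k (σ.inc j y))).comp (iL σ j k) :=
  ((HasFDerivAt.comp (f := iC σ j k) ((σ.res j).pt k y) (F_diff hR h hk q (σ.inc j y)).hasFDerivAt
    (iC_deriv σ j k _)).congr_of_eventuallyEq ((F_res hP hR h h' hk q).eventuallyEq_of_mem (U_nhds h'.toOK k y))).fderiv

theorem fderiv_par (hP : PtStmt d ty X nc nr T) (h : σ.OK) (g : T →ᴬ[ℝ] ℝ) {k : ℕ} (hk : 4 ≤ k)
    (y : σ.Pnt) (v : σ.C k) :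
    fderiv ℝ (σ.rr k fun t _ => g t) (σ.pt k y) v = g.contLinear v.2.2 := by
  have hd := ((hP s _ h.toOK (cr_of_gd h.gd)).2 k hk).1
  have h0 : σ.RepR (fun t _ => g t) fun v : σ.C k => g v.2.2 :=
    ⟨(g.contDiff.comp (contDiff_snd.comp contDiff_snd)).contDiffOn, fun _ => rfl⟩
  have h1 : HasFDerivAt (fun v : σ.C k => g v.2.2) _ (σ.pt k y) :=
    g.hasFDerivAt.comp _ (hasFDerivAt_snd.comp _ hasFDerivAt_snd)
  rw [(h1.congr_of_eventuallyEq ((repR_eqOn hd (repR_rr h0) h0).eventuallyEq_of_mem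
    (U_nhds h.toOK k y))).fderiv]
  rfl

theorem lin_eq (j : T' →ᴬ[ℝ] T) (u : T') : j.contLinear u = j u - j 0 := by
  rw [← vsub_eq_sub, ← j.contLinear_map_vsub, vsub_eq_sub, sub_zero]

theorem range_lin {j : T' →ᴬ[ℝ] T} {g : T →ᴬ[ℝ] ℝ} (hr : range j = g ⁻¹' {0}) :
    LinearMap.range (j.contLinear : T' →ₗ[ℝ] T) = LinearMap.ker (g.contLinear : T →ₗ[ℝ] ℝ) := by
  have h0 : ∀ u, g (j u) = 0 := fun u => (hr ▸ mem_range_self u : j u ∈ g ⁻¹' {0})
  ext v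
  constructor
  · rintro ⟨u, rfl⟩
    change g.contLinear (j.contLinear u) = 0
    rw [lin_eq j, ← vsub_eq_sub, g.contLinear_map_vsub, h0, h0, vsub_self]
  · intro hv
    have hv' : g.contLinear v = 0 := hv
    have : v + j 0 ∈ range j := by
      rw [hr]; change g (v +ᵥ j 0) = 0
      rw [g.map_vadd, hv', h0, vadd_eq_add, add_zero]
    obtain ⟨u, hu⟩ := this
    exact ⟨u, by change j.contLinear u = v; rw [lin_eq j, hu, add_sub_cancel_right]⟩

theorem surj_lin {g : T →ᴬ[ℝ] ℝ} (hg : g.contLinear ≠ 0) : Surjective g.contLinear := by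
  obtain ⟨t, ht⟩ : ∃ t, g.contLinear t ≠ 0 := by
    by_contra! h; exact hg (ContinuousLinearMap.ext h)
  exact fun c => ⟨(c / g.contLinear t) • t, by rw [map_smul, smul_eq_mul, div_mul_cancel₀ _ ht]⟩

theorem fr_iL {j : T' →ᴬ[ℝ] T} {g : T →ᴬ[ℝ] ℝ} (hi : Injective j) (hr : range j = g ⁻¹' {0})
    (hg : g.contLinear ≠ 0) (k : ℕ) : Fred93.Fr (iL σ j k) (-1) := by
  have h1 : Injective (j.contLinear : T' →ₗ[ℝ] T) := j.toAffineMap.linear_injective_iff.2 hi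
  have h2 := LinearMap.finrank_range_of_inj h1
  have h3 := (g.contLinear : T →ₗ[ℝ] ℝ).finrank_range_add_finrank_ker
  rw [LinearMap.range_eq_top.2 (surj_lin hg), finrank_top, Module.finrank_self,
    ← range_lin hr, h2] at h3
  have : CompleteSpace T := FiniteDimensional.complete ℝ T
  have : CompleteSpace T' := FiniteDimensional.complete ℝ T'
  exact (Fred93.Fr.id_prodMap (Fred93.Fr.id_prodMap (Fred93.Fr.fin j.contLinear))).cast (by omega)

/-- SW-FACET -/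
theorem fac (hP : ∀ (T : Type) [NormedAddCommGroup T] [NormedSpace ℝ T] [FiniteDimensional ℝ T],
    PtStmt d ty X nc nr T) (hR : RepStmt d ty X nc nr T) : FacStmt d ty X nc nr T := by
  intro s σ h T' _ _ _ j g hi hr hg hc hn
  have h' := ok_res h hc hn
  have : CompleteSpace T := FiniteDimensional.complete ℝ T
  have : CompleteSpace T' := FiniteDimensional.complete ℝ T'
  refine ⟨h', fun n hn k hk q y => ?_, fun k hk q y hy => ?_⟩
  · obtain ⟨r, hr1, hr2⟩ := hn k hk q (σ.inc j y)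
    refine ⟨r.comp (iL σ j k), fun v => hr1 (iL σ j k v), ?_⟩
    rw [fderiv_res (hP T') hR h h' hk]
    exact ((hr2.comp (fr_iL hi hr hg k)).cast (by ring)).congr fun _ => rfl
  · rintro ⟨f, c⟩
    obtain ⟨t₀, ht₀⟩ := surj_lin hg c
    have hy' : Surjective _ := hy
    rw [fderiv_res (hP T') hR h h' hk] at hy'
    obtain ⟨u, hu⟩ := hy' (f - fderiv ℝ (σ.F k q) (σ.pt k (σ.inc j y)) (0, 0, t₀))
    refine ⟨iL σ j k u + (0, 0, t₀), Prod.ext ?_ ?_⟩
    · change fderiv ℝ (σ.F k q) (σ.pt k (σ.inc j y)) _ = f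
      rw [map_add]; exact eq_sub_iff_add_eq.1 hu
    · change fderiv ℝ (σ.rr k fun t _ => g t) (σ.pt k (σ.inc j y)) _ = c
      rw [fderiv_par (hP T) h g (by omega)]
      have : g.contLinear (j.contLinear u.2.2) = 0 :=
        (range_lin hr ▸ LinearMap.mem_range_self _ u.2.2 :
          (j.contLinear : T' →ₗ[ℝ] T) u.2.2 ∈ LinearMap.ker (g.contLinear : T →ₗ[ℝ] ℝ))
      change g.contLinear (j.contLinear u.2.2 + t₀) = c
      rw [map_add, this, ht₀, zero_add]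

end Crest.Agent.X212.Sw21
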