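import Crest.Agent.X212.Map77.S1
import Crest.Agent.X212.Dl23.Ten

/-!
# Row 212, MS-CYL-A (helper21): `ν (∂_t + L + finite rank)` on a cylinder

`sv g u` : the slice integral of `⟪g, u⟫`; `SH` : on `H k`, all `k`; `bij_cyl`, `cylA`.
-/

set_option autoImplicit false
set_option linter.unusedSectionVars false
noncomputable section
open scoped Manifold ContDiff Topology InnerProductSpace
open MeasureTheory Set Function Filter

namespace Crest.Agent.X212.Sw21
open An An.Pre Sob92 Cyf70 Ell97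

variable {E : Type} [NormedAddCommGroup E] [NormedSpace ℝ E] [FiniteDimensional ℝ E]
  [MeasurableSpace E] [BorelSpace E]
  {HM : Type} [TopologicalSpace HM] {I : ModelWithCorners ℝ E HM} [I.Boundaryless]
  {Y : Type} [TopologicalSpace Y] [ChartedSpace HM Y] [IsManifold I ∞ Y] [T2Space Y]
  [MeasurableSpace Y] [BorelSpace Y] [SecondCountableTopology Y] [CompactSpace Y]
  {ι : Type} [Fintype ι]
  {V W : Type} [NormedAddCommGroup V] [InnerProductSpace ℝ V] [NormedAddCommGroup W]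
  [InnerProductSpace ℝ W]

section sv
variable (F : Pre I Y ι) {g : Y → V} {u : Y × ℝ → V}

/-- the slice integral -/
def sv (g : Y → V) (u : Y × ℝ → V) (x : Y × ℝ) : ℝ := ∫ z, ⟪g z, u (z, x.2)⟫_ℝ ∂F.μ

theorem sm_in (hg : Sm I g) (hu : Sm (IC I) u) : Sm (IC I) fun x : Y × ℝ => ⟪g x.1, u x⟫_ℝ :=
  smooth_bil (innerSL ℝ (E := V)) (sm_fst hg) hu

theorem cd_sv (hg : Sm I g) (hu : Sm (IC I) u) :
    ContDiff ℝ ∞ fun t => ∫ z, ⟪g z, u (z, t)⟫_ℝ ∂F.μ := Dl23.contDiff_int F (sm_in hg hu)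

theorem sm_sv (hg : Sm I g) (hu : Sm (IC I) u) : Sm (IC I) (sv F g u) := sm_snd (cd_sv F hg hu)

theorem hcs_sv (hc : HasCompactSupport u) : HasCompactSupport (sv F g u) :=
  HasCompactSupport.intro (isCompact_univ.prod (hc.isCompact.image continuous_snd)) fun x hx => by
    have : ∀ z, u (z, x.2) = 0 := fun z =>
      image_eq_zero_of_notMem_tsupport fun h => hx ⟨trivial, _, h, rfl⟩
    simp [sv, this]

theorem D_none_sv (hg : Sm I g) (hu : Sm (IC I) u) :
    (cylP F).D none (sv F g u) = sv F g ((cylP F).D none u) :=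
  (D_none_snd F (cd_sv F hg hu)).trans (funext fun x => (Dl23.hasDerivAt_int' F (sm_in hg hu)
    fun y => (innerSL ℝ (g y)).hasFDerivAt.comp_hasDerivAt x.2 (hasDerivAt_slice F hu y x.2)).deriv)

theorem D_some_sv (hg : Sm I g) (hu : Sm (IC I) u) (a : ι) :
    (cylP F).D (some a) (sv F g u) = 0 := D_some_snd F (cd_sv F hg hu) a

theorem ip_zero {M' : Type} [TopologicalSpace M'] [MeasurableSpace M'] {E' : Type}
    [NormedAddCommGroup E'] [NormedSpace ℝ E'] [FiniteDimensional ℝ E'] [MeasurableSpace E']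
    [BorelSpace E'] {H' : Type} [TopologicalSpace H'] {I' : ModelWithCorners ℝ E' H'}
    [ChartedSpace H' M'] [IsManifold I' ∞ M'] {ι' : Type} [Fintype ι'] (F' : Pre I' M' ι') (k : ℕ) :
    F'.ip k (0 : M' → V) 0 = 0 := by
  induction k with
  | zero => simp [ip]
  | succ k ih => simp [ip, D_def, ih]

theorem ip_sv (hg : Sm I g) (k : ℕ) : ∀ {u : Y × ℝ → V}, Sm (IC I) u → HasCompactSupport u →
    (cylP F).ip k (sv F g u) (sv F g u) ≤ F.μ.real univ * F.ip 0 g g * (cylP F).ip k u u := by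
  have hC : 0 ≤ F.μ.real univ * F.ip 0 g g := mul_nonneg measureReal_nonneg (F.ip_nonneg _ _)
  have h0 : ∀ {u : Y × ℝ → V}, Sm (IC I) u → HasCompactSupport u →
      (cylP F).ip 0 (sv F g u) (sv F g u) ≤ F.μ.real univ * F.ip 0 g g * (cylP F).ip 0 u u := by
    intro u hu hc
    rw [← ip_slc_zero (sm_sv F hg hu) (hcs_sv F hc) (sm_sv F hg hu), ← ip_slc_zero hu hc hu,
      ← integral_const_mul]
    refine integral_mono (int_ip (sm_sv F hg hu) (hcs_sv F hc)) ((int_ip hu hc).const_mul _)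
      fun t => ?_
    let G : Sec I (triv Y V) := ⟨g, mem_triv hg (.of_compactSpace _)⟩
    let U : Sec I (triv Y V) := ⟨fun y => u (y, t), mem_triv (sm_slice_fst hu t) (.of_compactSpace _)⟩
    have h1 := real_inner_mul_inner_self_le (F.toH 0 _ G) (F.toH 0 _ U)
    rw [inner_toH, inner_toH, inner_toH] at h1
    calc _ = F.μ.real univ * (F.ip 0 G.1 U.1 * F.ip 0 G.1 U.1) := by simp [ip, sv, G, U, sq]
      _ ≤ _ := by rw [mul_assoc]; exact mul_le_mul_of_nonneg_left h1 measureReal_nonneg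
  induction k with
  | zero => exact h0
  | succ k ih =>
    intro u hu hc
    have h1 := ih ((cylP F).sm_D hu none) ((cylP F).hcs_D hc none)
    have h2 := h0 hu hc
    have h3 : 0 ≤ ∑ a, (cylP F).ip k ((cylP F).D (some a) u) ((cylP F).D (some a) u) :=
      Finset.sum_nonneg fun a _ => (cylP F).ip_nonneg _ _
    simp only [ip, Fintype.sum_option, D_none_sv F hg hu, D_some_sv F hg hu, ip_zero,
      Finset.sum_const_zero] at h1 h2 hC ⊢
    nlinarith [mul_nonneg hC h3]

/-- the slice integral on Sobolev spaces -/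
def SH (k : ℕ) (p : Y × ℝ → V →L[ℝ] V) (g : Y → V) :
    (cylP F).H k p →L[ℝ] (cylP F).H k (triv (Y × ℝ) ℝ) := (cylP F).lift k k p _ (sv F g)

theorem rep_SH (hg : Sm I g) (k : ℕ) (p : Y × ℝ → V →L[ℝ] V) :
    (cylP F).Rep (SH F k p g) (sv F g) := by
  have i : ∀ {u : Y × ℝ → V}, Sm (IC I) u → ∀ t, Integrable (fun z => ⟪g z, u (z, t)⟫_ℝ) F.μ :=
    fun hu t => (sm_slice_fst (sm_in hg hu) t).continuous.integrable_of_hasCompactSupport
      (.of_compactSpace _)
  refine (rep_liftT (fun u hu => mem_triv (sm_sv F hg hu.1) (hcs_sv F hu.2.1))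
    (fun u hu v hv => funext fun x => ?_) (fun c u _ => funext fun x => ?_)
    (Real.sqrt_nonneg (F.μ.real univ * F.ip 0 g g)) fun u hu => ?_).1
  · simp only [sv, Pi.add_apply, inner_add_right]
    exact integral_add (i hu.1 _) (i hv.1 _)
  · simp only [sv, Pi.smul_apply, real_inner_smul_right, smul_eq_mul, integral_const_mul]
  · rw [nrm, nrm, ← Real.sqrt_mul (mul_nonneg measureReal_nonneg (F.ip_nonneg _ _))]
    exact Real.sqrt_le_sqrt (ip_sv F hg k hu.1 hu.2.1)

end sv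

variable [FiniteDimensional ℝ V] [FiniteDimensional ℝ W] {F : Fr I Y ι} {A : Op Y (Option ι) V W}
  {α : Type} [Fintype α] (g : α → Sec I A.p) (c : α → ℝ)

variable (F) in
/-- the term of finite rank on the cylinder -/
def KH (k : ℕ) : (cylP F.toPre).H k (pc A.p) →L[ℝ] (cylP F.toPre).H k (pc A.q) :=
  ∑ j, c j • ((cylP F.toPre).mulH k _ _ (fun x => (ContinuousLinearMap.id ℝ ℝ).smulRight
    (A.σ none x.1 ((g j).1 x.1))) ∘L SH F.toPre k _ (g j).1)

theorem rep_KH (h : CyO F A) (k : ℕ) : (cylP F.toPre).Rep (KH F g c k) fun u x =>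
    ∑ j, (c j * ∫ z, ⟪(g j).1 z, u (z, x.2)⟫_ℝ ∂F.μ) • A.σ none x.1 ((g j).1 x.1) := by
  refine RepT_congr (RepT_sum _ fun j _ => RepT_smul (c j) (RepT_comp (rep_mulH ?_ ?_)
    (rep_SH F.toPre (g j).2.1 k _))) fun u => funext fun x => ?_
  · exact Cb_clm (ContinuousLinearMap.smulRightL ℝ ℝ W (ContinuousLinearMap.id ℝ ℝ))
      (Cb_app (h.cb_σ none) (Cht98.Cb_fst _ (Cb_of_compact (g j).2.1)))
  · exact Maps.of_left fun x r => by
      simp only [ContinuousLinearMap.smulRight_apply, map_smul]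
      exact congrArg _ (h.good.choose_spec.qσ none x _)
  · simp [sv, mul_smul]

variable (F) in
/-- the term of finite rank on the cross-section -/
def aH : F.H 0 A.p →L[ℝ] F.H 0 A.p :=
  ∑ j, c j • (innerSL ℝ (F.toH 0 _ (g j))).smulRight (F.toH 0 _ (g j))

theorem aH_apply (x : F.H 0 A.p) :
    aH F g c x = ∑ j, (c j * ⟪F.toH 0 _ (g j), x⟫_ℝ) • F.toH 0 _ (g j) := by
  simp [aH, mul_smul]

theorem bij_sl (h : CyO F A) (hk : ∀ u : Sec I A.p, (∀ y, (sop A).app F u.1 y +
      ∑ j, (c j * ∫ z, ⟪(g j).1 z, u.1 z⟫_ℝ ∂F.μ) • (g j).1 y = 0) → u = 0) :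
    Bijective (Cyf70.LH F A 0 + aH F g c ∘L F.incl 1 0 A.p) := by
  obtain ⟨C, hC⟩ := h.good_sop
  obtain ⟨C', t⟩ := h.tameY
  have hi : Injective (Cyf70.LH F A 0 + aH F g c ∘L F.incl 1 0 A.p) := by
    refine (injective_iff_map_eq_zero _).2 fun x hx => ?_
    obtain ⟨u, rfl, hu⟩ := sec_of_eq t hC h.cliffL (k := 0) (x := x)
      (w := -∑ j, (c j * ⟪F.toH 0 _ (g j), F.incl 1 0 A.p x⟫_ℝ) • g j) (by
        rw [map_neg, map_sum, eq_neg_iff_add_eq_zero, ← hx]
        simp only [map_smul, ← aH_apply]; rfl)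
    rw [hk u fun y => ?_, map_zero]
    rw [hu, show F.incl 1 0 A.p (F.toH (0 + 1) (sop A).p u) = _ from incl_toH zero_le_one u]
    simp [inner_toH, ip]
  exact ⟨hi, ((h.frL 0).add_compact
    ((Cht98.rellich zero_lt_one).clm_comp (aH F g c))).surj_of_inj hi⟩

theorem bij_zero (h : CyO F A) (hk : ∀ u : Sec I A.p, (∀ y, (sop A).app F u.1 y +
      ∑ j, (c j * ∫ z, ⟪(g j).1 z, u.1 z⟫_ℝ ∂F.μ) • (g j).1 y = 0) → u = 0) :
    Bijective (AH F A 0 + KH F g c 0 ∘L (cylP F.toPre).incl 1 0 (pc A.p) :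
      (cylP F.toPre).H 1 (pc A.p) →L[ℝ] (cylP F.toPre).H 0 (pc A.q)) := by
  have e : h.KL (KH F g c 0) = cp (aH F g c) := by
    refine ContinuousLinearMap.ext fun x => ?_
    obtain ⟨x, rfl⟩ := Ψ_surj x
    rw [h.KL_Ψ, h.U_apply]
    induction x using H_ind with
    | hP => exact isClosed_eq (by fun_prop) (by fun_prop)
    | h u =>
      rw [RepT_toH (rep_KH g c h 0), RepT_toH h.rep_NH]
      refine (R_Ψ _).ext' ((R_Ψ u).ma 1 _) fun t => ?_
      rw [BoundedContinuousFunction.coe_one, Pi.one_apply, one_smul, aH_apply]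
      simp only [← map_smul, ← map_sum]
      refine congrArg _ (Subtype.ext (funext fun y => ?_))
      simp [slc, inner_toH, ip, h.nu_σ, (g _).2.2.2 y]
  rw [h.bij_iff, e]
  refine h.cylD.bij_cp (fun x y => ?_) (bij_sl g c h hk)
  simp only [aH_apply, sum_inner, inner_sum, real_inner_smul_left, real_inner_smul_right]
  exact Finset.sum_congr rfl fun j _ => by rw [real_inner_comm x]; ring

/-- bijectivity on all levels -/
theorem bij_cyl (h : CyO F A) (hk : ∀ u : Sec I A.p, (∀ y, (sop A).app F u.1 y +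
      ∑ j, (c j * ∫ z, ⟪(g j).1 z, u.1 z⟫_ℝ ∂F.μ) • (g j).1 y = 0) → u = 0) (k : ℕ) :
    Bijective (AH F A k + KH F g c k ∘L (cylP F.toPre).incl (k + 1) k (pc A.p) :
      (cylP F.toPre).H (k + 1) (pc A.p) →L[ℝ] (cylP F.toPre).H k (pc A.q)) := by
  have h0 := bij_zero g c h hk
  have r := fun k => RepT_add (h.rep_AH (k := k))
    (RepT_comp (rep_KH g c h k) (rep_incl (p := pc A.p) k.le_succ))
  have e := Rep_incl (r k) (r 0) (by omega) k.zero_le
  refine ⟨fun x y hxy => incl_inj (cyl F) (by omega : 1 ≤ k + 1) _ (h0.1 ?_), fun f => ?_⟩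
  · exact (e x).symm.trans ((congrArg _ hxy).trans (e y))
  obtain ⟨u, hu⟩ := h0.2 ((cylP F.toPre).incl k 0 _ f)
  have key : ∀ m ≤ k, ∃ y : (cylP F.toPre).H (m + 1) (pc A.p),
      (cylP F.toPre).incl (m + 1) 1 _ y = u := fun m => by
    induction m with
    | zero => exact fun _ => ⟨u, incl_self u⟩
    | succ m ih =>
      intro hm
      obtain ⟨y, hy⟩ := ih (by omega)
      obtain ⟨z, hz, -⟩ := reg_up h.tameZ.choose_spec h.good.choose_spec h.cl.1 (k := 0)
        (m + 1).zero_le (x := u) (w := (cylP F.toPre).incl k (m + 1) _ f - KH F g c (m + 1) y) (by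
          change AH F A 0 u = (cylP F.toPre).incl _ _ _ _
          rw [map_sub, incl_incl hm (by omega), Rep_incl (rep_KH g c h _) (rep_KH g c h 0)
            (by omega) (by omega), ← incl_incl (by omega : 1 ≤ m + 1) zero_le_one, hy, ← hu]
          exact (add_sub_cancel_right _ _).symm)
      exact ⟨z, hz⟩
  obtain ⟨y, hy⟩ := key k le_rfl
  exact ⟨y, incl_inj (cyl F) k.zero_le _ ((e y).trans (hy ▸ hu))⟩

/-- MS-CYL-A -/
theorem cylA : Map77.S.CylA := by
  intro Y _ ι V W _ _ _ _ _ _ _ F A h n g c hk k h4 L hL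
  have := FiniteDimensional.complete ℝ W
  have hS := Sup.of_tame h.tameZ.choose_spec
  have r := RepT_add (h.rep_AH (k := k))
    (RepT_comp (rep_KH g c h k) (rep_incl (p := pc A.p) k.le_succ))
  have e : L = AH F A k + KH F g c k ∘L (cylP F.toPre).incl (k + 1) k (pc A.p) := by
    refine ContinuousLinearMap.ext fun x => ?_
    induction x using H_ind with
    | hP => exact isClosed_eq (by fun_prop) (by fun_prop)
    | h u =>
      refine val_injective hS h4 (funext fun x => (hL u x).trans ?_)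
      exact (congrFun ((congrArg _ (RepT_toH r u)).trans (val_toH hS h4 _)) x).symm
  rw [e]; exact bij_cyl g c h hk k

end Crest.Agent.X212.Sw21
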