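import Crest.Agent.X212.Gls64.Ch
import Crest.Agent.X212.Sw21.Fac
import Crest.Agent.X212.Pb50.Pt

/-!
# Row 212, GL-C1 and GL-FR (helper21): derivatives of the equations in the gluing chart
-/

set_option autoImplicit false
set_option linter.unusedSectionVars false
noncomputable section
open scoped Manifold ContDiff Topology InnerProductSpace
open MeasureTheory Set Function Filter

namespace Crest.Agent.X212.Sw21
open An Prm93 Sob92 Sw Gls64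
open M (Mf)

/-- the partial derivative of a smooth map is continuous -/
theorem par_c1 {P E F : Type} [NormedAddCommGroup P] [NormedSpace ℝ P] [NormedAddCommGroup E]
    [NormedSpace ℝ E] [NormedAddCommGroup F] [NormedSpace ℝ F] {G : P → E → F} {p₀ : P}
    (h : ContDiffAt ℝ 1 (fun x : P × E => G x.1 x.2) (p₀, 0)) {ε : ℝ} (hε : 0 < ε) :
    ∃ r > 0, ∀ᶠ p in 𝓝 p₀, ∀ v, ‖v‖ ≤ r →
      DifferentiableAt ℝ (G p) v ∧ ‖fderiv ℝ (G p) v - fderiv ℝ (G p₀) 0‖ ≤ ε := by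
  have h1 : ContDiffAt ℝ 0 (fun x : P × E => fderiv ℝ (G x.1) x.2) (p₀, 0) :=
    ContDiffAt.fderiv (f := fun (x : P × E) v => G x.1 v) (g := fun x => x.2) (n := 1)
      (ContDiffAt.comp (g := fun x : P × E => G x.1 x.2) (f := fun y : (P × E) × E => (y.1.1, y.2))
        ((p₀, 0), 0) h (by fun_prop)) contDiffAt_snd (by simp)
  have h2 : ∀ᶠ x : P × E in 𝓝 (p₀, 0), DifferentiableAt ℝ (G x.1) x.2 ∧
      ‖fderiv ℝ (G x.1) x.2 - fderiv ℝ (G p₀) 0‖ ≤ ε := by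
    refine ((h.eventually (by simp)).mono fun x hx => ?_).and ?_
    · exact DifferentiableAt.comp (g := fun x : P × E => G x.1 x.2) (f := fun v => (x.1, v)) x.2
        (hx.differentiableAt one_ne_zero) (by fun_prop)
    · simpa only [dist_eq_norm] using
        (Metric.tendsto_nhds.1 h1.continuousAt ε hε).mono fun _ hx => hx.le
  rw [nhds_prod_eq, eventually_prod_iff] at h2
  obtain ⟨a, ha, b, hb, hab⟩ := h2
  obtain ⟨r, hr, hb'⟩ := Metric.nhds_basis_closedBall.eventually_iff.1 hb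
  exact ⟨r, hr, ha.mono fun p hp v hv => hab hp (hb' (mem_closedBall_zero_iff.2 hv))⟩

theorem has_pair {E E' F F' G : Type} [NormedAddCommGroup E] [NormedSpace ℝ E]
    [NormedAddCommGroup E'] [NormedSpace ℝ E'] [NormedAddCommGroup F] [NormedSpace ℝ F]
    [NormedAddCommGroup F'] [NormedSpace ℝ F'] [NormedAddCommGroup G] [NormedSpace ℝ G]
    (L : F × F' →L[ℝ] G) {f : E → F} {g : E' → F'} {a : E} {b : E'} (hf : DifferentiableAt ℝ f a)
    (hg : DifferentiableAt ℝ g b) (c : G) :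
    HasFDerivAt (fun v : E × E' => L (f (a + v.1), g (b + v.2)) + c)
      (L ∘L (fderiv ℝ f a).prodMap (fderiv ℝ g b)) 0 :=
  (L.hasFDerivAt.comp (0 : E × E') (HasFDerivAt.prodMap (f := fun v => f (a + v))
    (f₂ := fun v => g (b + v)) 0 ((hasFDerivAt_comp_add_left _).2 (by simpa using hf.hasFDerivAt))
    ((hasFDerivAt_comp_add_left _).2 (by simpa using hg.hasFDerivAt)))).add_const c

variable {κ lam ν : Type} [Fintype κ] [Fintype lam] [Fintype ν] [DecidableEq ν]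
  {d : Dt κ lam ν} {N : Type} [Fintype N] {ty : N → d.𝓔} {X X₁ X₂ : Mf 4}
  {nc nr n₁ r₁ n₂ r₂ m : ℕ}
  {T T₁ T₂ : Type} [NormedAddCommGroup T] [NormedSpace ℝ T] [FiniteDimensional ℝ T]
  [NormedAddCommGroup T₁] [NormedSpace ℝ T₁] [FiniteDimensional ℝ T₁]
  [NormedAddCommGroup T₂] [NormedSpace ℝ T₂] [FiniteDimensional ℝ T₂]
  {s : Pz X 0 fun i => d.e (ty i)} {σ : Cel s nc nr T} {k : ℕ}

section one
variable (hR : Sw.RepStmt d ty X nc nr T) (hW : RowStmt d ty X nc nr T) (h : σ.OK) (hk : 7 ≤ k)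
include h hk

theorem rr_at {g : T → Cfg X.M κ ν → ℝ} (hg : σ.Fn g) {v : σ.C k} (hv : v ∈ σ.U k) :
    ContDiffAt ℝ ∞ (σ.rr k g) v :=
  (hg.1 k hk).elim fun _ hf => (repR_rr hf).1.contDiffAt ((isOpen_U h.toOK k).mem_nhds hv)

include hW in
theorem gm_at {v : σ.C k} (hv : v ∈ σ.U k) : ContDiffAt ℝ ∞ (gm σ k) v :=
  (row_gm hW h hk).1.contDiffAt ((isOpen_U h.toOK k).mem_nhds hv)

include hW in
theorem gm_val (y : σ.Pnt) (v : σ.C k) : s.bg.F.val k _ (gm σ k (σ.pt k y) v) =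
    σ.gro y.1.1 y.1.2 (s.bg.F.val _ _ v.1) (s.bg.F.val _ _ v.2.1) := by
  rw [(row_gm hW h hk).2 _ (pt_mem k y), Pb50.val_Φ h.toOK (cr_of_gd h.gd) (by omega),
    add_sub_cancel]
  rfl

include hW in
theorem gr_at {p : σ.C k × σ.C k} (hp : p.2 ∈ σ.U k) :
    ContDiffAt ℝ ∞ (fun p : σ.C k × σ.C k => gr σ k p.1 p.2) p :=
  (ContDiffAt.comp (f := fun p : σ.C k × σ.C k => (p.1.1, p.1.2.1, p.2.2.2)) p
    (gm_at hW h hk hp) (by fun_prop)).clm_apply (by fun_prop)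

include hW in
theorem gr_diag {b : σ.C k} (hb : b ∈ σ.U k) : fderiv ℝ (gr σ k b) b = gm σ k b := by
  have h1 : DifferentiableAt ℝ (fun v : σ.C k => gm σ k (b.1, b.2.1, v.2.2)) b :=
    DifferentiableAt.comp (f := fun v : σ.C k => (b.1, b.2.1, v.2.2)) b
      ((gm_at hW h hk hb).differentiableAt (by simp)) (by fun_prop)
  have h2 := (h1.hasFDerivAt.clm_apply ((hasFDerivAt_id b).sub_const b)).fderiv
  exact h2.trans (by simp)

include hR hW in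
theorem Φ_has (q : d.W →₀ ℝ) {μ : T → Cfg X.M κ ν → Fin m → ℝ}
    (hμ : ∀ j, σ.Fn fun t c => μ t c j) (b : σ.C k) {v : σ.C k} (hv : v ∈ σ.U k) :
    HasFDerivAt (Φ σ k q μ b) ((fderiv ℝ (σ.F k q) v).prod ((fderiv ℝ (gr σ k b) v).prod
      (.pi fun j => fderiv ℝ (σ.rr k fun t c => μ t c j) v))) v :=
  (((F_smooth hR h hk q).contDiffAt ((isOpen_U h.toOK k).mem_nhds hv)).differentiableAt
    (by simp)).hasFDerivAt.prodMk ((DifferentiableAt.comp (g := fun p : σ.C k × σ.C k =>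
      gr σ k p.1 p.2) (f := fun v => (b, v)) v ((gr_at hW h hk (p := (b, v)) hv).differentiableAt
        (by simp)) (by fun_prop)).hasFDerivAt.prodMk
      (hasFDerivAt_pi.2 fun j => ((rr_at h hk (hμ j) hv).differentiableAt (by simp)).hasFDerivAt))

variable (σ k) in
/-- the equations with the coefficients as parameters -/
def Ψ (q₀ : d.W →₀ ℝ) (μ : T → Cfg X.M κ ν → Fin m → ℝ) (J : Finset d.W)
    (p : (J → ℝ) × σ.C k × σ.C k) : Z σ k m :=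
  (σ.F k q₀ p.2.2 + ∑ w : J, p.1 w • σ.rp k (σ.eτ w) p.2.2, gr σ k p.2.1 p.2.2, rv σ k μ p.2.2)

include hR hW in
theorem Ψ_at (q₀ : d.W →₀ ℝ) {μ : T → Cfg X.M κ ν → Fin m → ℝ}
    (hμ : ∀ j, σ.Fn fun t c => μ t c j) (J : Finset d.W) {p : (J → ℝ) × σ.C k × σ.C k}
    (hp : p.2.2 ∈ σ.U k) : ContDiffAt ℝ ∞ (Ψ σ k q₀ μ J) p := by
  have hU := (isOpen_U h.toOK k).mem_nhds hp
  have h2 : ContDiffAt ℝ ∞ (fun p : (J → ℝ) × σ.C k × σ.C k => p.2.2) p := by fun_prop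
  exact ((((F_smooth hR h hk q₀).contDiffAt hU).comp p h2).add (ContDiffAt.sum fun w _ =>
    ContDiffAt.smul (f := fun p : (J → ℝ) × σ.C k × σ.C k => p.1 w) (by fun_prop)
      ((((hR s σ h k hk).2.1 w).1.contDiffAt hU).comp p h2))).prodMk
    (((gr_at hW h hk hp).comp p contDiffAt_snd).prodMk
      (contDiffAt_pi.2 fun j => (rr_at h hk (hμ j) hp).comp p h2))

omit h hk in
theorem Φ_eq {q q₀ : d.W →₀ ℝ} {J : Finset d.W} (e : ∀ w, w ∉ J → q w = q₀ w)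
    (μ : T → Cfg X.M κ ν → Fin m → ℝ) (b v : σ.C k) :
    Φ σ k q μ b v = Ψ σ k q₀ μ J (fun w => q w - q₀ w, b, v) := by
  refine Prod.ext ?_ rfl
  have h1 : (q - q₀).support ⊆ J := fun w hw => by
    by_contra hn; exact Finsupp.mem_support_iff.1 hw (by rw [Finsupp.sub_apply, e w hn, sub_self])
  have h2 : q = q₀ + (q - q₀) := (add_sub_cancel _ _).symm
  change σ.F k q v = σ.F k q₀ v + ∑ w : J, (q w - q₀ w) • σ.rp k (σ.eτ w) v
  rw [Finset.sum_coe_sort J fun w => (q w - q₀ w) • σ.rp k (σ.eτ w) v, Cel.F, Cel.F, add_assoc]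
  conv_lhs => rw [h2]
  rw [Finsupp.sum_add_index' (by simp) (by simp [add_smul]),
    Finsupp.sum_of_support_subset _ h1 _ (by simp)]
  rfl

end one

/-- **GL-FR** -/
theorem frStmt (hR : Sw.RepStmt d ty X nc nr T) (hW : RowStmt d ty X nc nr T) :
    FrStmt d ty X nc nr T T₁ T₂ := by
  intro s σ h k hk θ q m ρ c hρ
  have H : ∀ u, σ.pt k c + lA σ k θ u ∈ σ.U k → HasFDerivAt (Hf σ k θ q ρ c) _ u := fun u hu =>
    HasFDerivAt.comp (f := fun u => σ.pt k c + lA σ k θ u) u (Φ_has hR hW h hk q hρ (σ.pt k c) hu)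
      ((lA σ k θ).hasFDerivAt.const_add _)
  refine ⟨fun u hu => ⟨(H u hu).differentiableAt, fun w => by
    rw [(H u hu).fderiv]; exact ⟨rfl, fun _ => rfl⟩⟩, fun hI hn => ?_⟩
  have : CompleteSpace T := FiniteDimensional.complete ℝ T
  have : CompleteSpace T₁ := FiniteDimensional.complete ℝ T₁
  have : CompleteSpace T₂ := FiniteDimensional.complete ℝ T₂
  obtain ⟨r, hr, hF⟩ := hI k hk q c
  obtain ⟨C, hC⟩ := h.site.bg.tame
  obtain rfl : r = gm σ k (σ.pt k c) := ContinuousLinearMap.ext fun v =>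
    val_injective (Sup.of_tame hC) (by omega) ((hr v).trans (gm_val hW h hk c v).symm)
  have h0 := H 0 (by rw [map_zero, add_zero]; exact pt_mem k c)
  rw [map_zero, add_zero, gr_diag hW h hk (pt_mem k c)] at h0
  have hl : Fred93.Fr (lA σ k θ) _ :=
    Fred93.Fr.id_prodMap (Fred93.Fr.id_prodMap (Fred93.Fr.fin θ.contLinear))
  rw [h0.fderiv]
  refine ((((Fred93.Fr.equiv (ContinuousLinearEquiv.prodAssoc ℝ _ _ _)).comp (hF.prod
    (.pi fun j => fderiv ℝ (σ.rr k fun t c => ρ t c j) (σ.pt k c)))).comp hl).cast ?_).congr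
      fun _ => rfl
  simp only [Module.finrank_prod, Module.finrank_fin_fun]
  omega

set_option maxHeartbeats 600000 in
/-- **GL-C1** -/
theorem c1Stmt (hR₁ : Sw.RepStmt d ty X₁ n₁ r₁ T₁) (hW₁ : RowStmt d ty X₁ n₁ r₁ T₁)
    (hR₂ : Sw.RepStmt d ty X₂ n₂ r₂ T₂) (hW₂ : RowStmt d ty X₂ n₂ r₂ T₂) :
    C1Stmt d ty X₁ X₂ n₁ r₁ n₂ r₂ T₁ T₂ := by
  intro s₁ s₂ σ₁ σ₂ h₁ h₂ k hk μ q₀ x z hμ hx hz ix iz
  have h0 : ∀ j : Fin 0, σ₂.Fn fun t c => (0 : T₂ → Cfg X₂.M κ ν → Fin 0 → ℝ) t c j := (·.elim0)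
  have H₁ := Φ_has hR₁ hW₁ h₁ hk q₀ hμ (σ₁.pt k x) (pt_mem k x)
  have H₂ := Φ_has hR₂ hW₂ h₂ hk q₀ h0 (σ₂.pt k z) (pt_mem k z)
  rw [gr_diag hW₁ h₁ hk (pt_mem k x)] at H₁
  rw [gr_diag hW₂ h₂ hk (pt_mem k z)] at H₂
  have b₁ := ix _ (gm_val hW₁ h₁ hk x)
  have b₂ := iz _ (gm_val hW₂ h₂ hk z)
  refine ⟨?_, fun ι l q b o ⟨J, hJ, hq⟩ hb ho => ?_⟩
  · rw [Lf, H₁.fderiv, H₂.fderiv]
    refine ⟨(injective_iff_map_eq_zero _).2 fun v hv => ?_, fun f => ?_⟩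
    · have e1 : v.1 = 0 := (injective_iff_map_eq_zero _).1 b₁.1 _ (congrArg (·.1) hv)
      obtain ⟨v₁, v₂⟩ := v
      obtain rfl : v₁ = 0 := e1
      have e2 := congrArg (·.2) hv
      simp only [ContinuousLinearMap.comp_apply, mx_apply, ContinuousLinearMap.coe_prodMap',
        Prod.map, map_zero, Prod.snd_zero, add_zero] at e2
      exact Prod.ext rfl ((injective_iff_map_eq_zero _).1 b₂.1 _ e2)
    · obtain ⟨v₁, e₁⟩ := b₁.2 f.1
      obtain ⟨v₂, e₂⟩ := b₂.2 (f.2 - (ro σ₂ k fun j =>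
        fderiv ℝ (σ₁.rr k fun t c => μ t c j) (σ₁.pt k x) v₁, 0))
      exact ⟨(v₁, v₂), Prod.ext e₁ (Prod.ext (eq_sub_iff_add_eq.1 (congrArg (·.1) e₂))
        ((congrArg (·.2) e₂).trans (sub_zero _)))⟩
  · let G : (J → ℝ) × E0 σ₁ σ₂ k × (Fin r₁ → ℝ) × (Fin r₂ → ℝ) → E0 σ₁ σ₂ k → F0 σ₁ σ₂ k :=
      fun p v => mx σ₁ σ₂ k (Ψ σ₁ k q₀ μ J (p.1, p.2.1.1, p.2.1.1 + v.1),
        Ψ σ₂ k q₀ 0 J (p.1, p.2.1.2, p.2.1.2 + v.2)) +
        ((ro σ₁ k p.2.2.1, 0), (ro σ₂ k p.2.2.2, 0))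
    have e : ∀ q' : d.W →₀ ℝ, (∀ w, w ∉ J → q' w = q₀ w) → ∀ b o,
        Sf σ₁ σ₂ k q' μ b o = G (fun w => q' w - q₀ w, b, o) := fun q' e b o => funext fun v => by
      rw [Sf, Φ_eq e, Φ_eq e]
    have hG : ContDiffAt ℝ ∞ (fun x => G x.1 x.2 : _ × _ → _)
        ((fun w => q₀ w - q₀ w, (σ₁.pt k x, σ₂.pt k z), (0, -μ x.1.1 x.1.2)), 0) :=
      ((mx σ₁ σ₂ k).contDiff.contDiffAt.comp _
        ((ContDiffAt.comp _ (Ψ_at hR₁ hW₁ h₁ hk q₀ hμ J (by simpa using pt_mem k x))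
          (by fun_prop)).prodMk (ContDiffAt.comp _ (Ψ_at hR₂ hW₂ h₂ hk q₀ h0 J
            (by simpa using pt_mem k z)) (by fun_prop)))).add (by fun_prop)
    clear_value G
    have hp : Tendsto (fun i => ((fun w : J => q i w - q₀ w), b i, o i)) l (𝓝
        (fun w => q₀ w - q₀ w, (σ₁.pt k x, σ₂.pt k z), (0, -μ x.1.1 x.1.2))) :=
      (tendsto_pi_nhds.2 fun w : J => (hq w).sub_const _).prodMk_nhds (hb.prodMk_nhds ho)
    have e₀ := e q₀ (fun _ _ => rfl) (σ₁.pt k x, σ₂.pt k z) (0, -μ x.1.1 x.1.2)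
    simp only [fun i => e (q i) (hJ i)]
    refine ⟨?_, fun ε hε => ?_⟩
    · refine (hG.continuousAt.tendsto.comp (hp.prodMk_nhds tendsto_const_nhds)).trans_eq
        (congrArg 𝓝 (?_ : G _ 0 = 0))
      have e3 : rv σ₁ k μ (σ₁.pt k x) = μ x.1.1 x.1.2 := funext fun j =>
        ((hμ j).1 k hk).elim fun _ hf => (repR_rr hf).2 x
      rw [← e₀, Sf, mx_apply]
      simp [Φ, gr, (((hR₁ _ _ h₁ k hk).2.2.1 q₀ x).1 hx).2, (((hR₂ _ _ h₂ k hk).2.2.1 q₀ z).1 hz).2,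
        e3]
    · obtain ⟨r, hr, H⟩ := par_c1 (G := G) (hG.of_le (by simp)) hε
      refine ⟨r, hr, (hp.eventually H).mono fun i hi => ?_⟩
      have a : HasFDerivAt (Sf σ₁ σ₂ k q₀ μ (σ₁.pt k x, σ₂.pt k z) (0, -μ x.1.1 x.1.2))
          (Lf σ₁ σ₂ k q₀ μ (σ₁.pt k x, σ₂.pt k z)) 0 :=
        has_pair (mx σ₁ σ₂ k) H₁.differentiableAt H₂.differentiableAt _
      rw [← e₀, a.fderiv] at hi
      exact hi

end Crest.Agent.X212.Sw21
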