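import Crest.Agent.X212.Cht98.Pch
import Crest.Agent.X212.Sw21.Cc
import Crest.Agent.X212.Pb50.Pt
import Crest.Agent.X212.Sw88.Wz

/-!
# Row 212, MS-FR0 (helper21): the linearisation at the base points is Fredholm

`Lz` : the linearisation on a neck at function level, `Lz.uq` : locality, `lz_tc`, `fr0`.
-/

set_option autoImplicit false
set_option linter.unusedSectionVars false
noncomputable section
open scoped Manifold ContDiff Topology InnerProductSpace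
open MeasureTheory Set Function Filter

namespace Crest.Agent.X212.Sw21
open An An.Pre Prm93 Sob92 Sw Sw.En3 Map77 Map77.S Pb50
open M (Mf pm)

variable {κ lam ν : Type} [Fintype κ] [Fintype lam] [Fintype ν] [DecidableEq ν]

section cyl
variable {e : En3 κ lam ν} {W : Type} {τ : W → Option e.YT} {q : W →₀ ℝ} {c c' : e.ZC}
  {u u' : e.Y.M × ℝ → S.Cf κ ν} {x : e.Y.M × ℝ} {z z' : S.Ef κ ν}

/-- agreement within the time `1` -/
def St (c c' : e.ZC) (x : e.Y.M × ℝ) : Prop :=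
  ∀ x' : e.Y.M × ℝ, |x'.2 - x.2| < 1 → (∀ a, c.a a x' = c'.a a x') ∧ c.Φ x' = c'.Φ x'

theorem ev_st (x : e.Y.M × ℝ) : ∀ᶠ x' in 𝓝 x, |x'.2 - x.2| < 1 :=
  (isOpen_lt (by fun_prop) continuous_const).mem_nhds (by simp)

theorem St.sl (h : St c c' x) {t : ℝ} (ht : |t - x.2| < 1) : sl c t = sl c' t :=
  YC.ext (funext fun k => funext fun y => (h (y, t) ht).1 (some k)) (funext fun y => (h (y, t) ht).2)

theorem St.eq (h : St c c' x) :
    e.cyl.eD c x - (pt τ q).D c x = e.cyl.eD c' x - (pt τ q).D c' x ∧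
    e.cyl.eC c x - (pt τ q).C c x = e.cyl.eC c' x - (pt τ q).C c' x := by
  have ha : ∀ i, c.a i =ᶠ[𝓝 x] c'.a i := fun i => (ev_st x).mono fun y hy => (h y hy).1 i
  have hΦ : c.Φ =ᶠ[𝓝 x] c'.Φ := (ev_st x).mono fun y hy => (h y hy).2
  have h1 := h.sl (t := x.2) (by simp)
  have h2 : lb c x.2 = lb c' x.2 := lb_congr fun t ht =>
    congrArg L (h.sl (abs_lt.2 ⟨by linarith [ht.1], by linarith [ht.2]⟩))
  simp only [En3.pt, tau, h1, h2, hΦ.self_of_nhds, Sw88.eD_congr ha hΦ, Sw88.eC_congr ha hΦ,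
    and_self]

variable (τ q c u x z) in
/-- `z` is the value at `x` of the linearisation at `c` in the direction `u` -/
structure Lz : Prop where
  D : HasDerivAt (fun r => e.cyl.eD (vr c u r) x - (pt τ q).D (vr c u r) x) (f2 _ _ (f2 _ _ z)) 0
  C : HasDerivAt (fun r => e.cyl.eC (vr c u r) x - (pt τ q).C (vr c u r) x) (s2 _ _ (f2 _ _ z)) 0
  G : s2 _ _ z = lG e.cyl c u x

theorem Lz.uq (h : Lz τ q c u x z) (h' : Lz τ q c' u' x z') (hc : St c c' x)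
    (hu : ∀ x' : e.Y.M × ℝ, |x'.2 - x.2| < 1 → u x' = u' x') : z = z' := by
  have k : ∀ r, St (vr c u r) (vr c' u' r) x := fun r y hy =>
    ⟨fun a => by simp only [vr, (hc y hy).1 a, hu y hy], by simp only [vr, (hc y hy).2, hu y hy]⟩
  refine ext2 (ext2 (h.D.unique (h'.D.congr_of_eventuallyEq (.of_forall fun r => (k r).eq.1)))
    (h.C.unique (h'.C.congr_of_eventuallyEq (.of_forall fun r => (k r).eq.2)))) ?_
  have h1 : ∀ a b, e.cyl.F.D a (fun y => co b (u y)) x = e.cyl.F.D a (fun y => co b (u' y)) x :=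
    fun a b => dv_congr ((ev_st x).mono fun y hy => congrArg _ (hu y hy))
  rw [h.G, h'.G]
  simp only [lG, h1, hu x (by simp), (hc x (by simp)).2]

end cyl

variable {d : Dt κ lam ν} {N : Type} [Fintype N] {ty : N → d.𝓔} {X : Mf 4} {nc nr : ℕ}
  {T : Type} [NormedAddCommGroup T] [NormedSpace ℝ T] [FiniteDimensional ℝ T]
  {s : Pz X 0 fun i => d.e (ty i)} {σ : Cel s nc nr T} {k : ℕ}

theorem ofV_sec (h : s.OK) (hk : 4 ≤ k) {V : Type} [NormedAddCommGroup V] [InnerProductSpace ℝ V]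
    [CompleteSpace V] {p : X.M → V →L[ℝ] V} (u : Sec X.I p) :
    u.1 ∈ Mod61.Hs s.bg.F.toPre p ∧ Mod61.ofV s.bg.F.toPre k p u.1 = s.bg.F.toH k p u :=
  have hS := Sup.of_tame h.bg.tame.choose_spec
  ⟨Mod61.Hs_sec hS u, Mod61.ofV_eq hS hk (val_toH hS hk u)⟩

/-- the linearisation on a neck -/
theorem lz_tc (h : Md σ) (hk : 7 ≤ k) (q : d.W →₀ ℝ) (y : σ.Pnt) {i : N}
    {K : Nk (d.e (ty i)) (σ.P y.1.1).bg} (hK : K ∈ (σ.P y.1.1).nk i) {x : (d.e (ty i)).Y.M × ℝ}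
    (hx : x.2 ∈ K.deep 2) (h0 : ∀ w ∈ q.support, (σ.P y.1.1).fo w (K.ψ x) = 0)
    (u : Sec X.I (pC s.bg)) : Lz (fun w => d.yt w (ty i)) q (K.pb y.1.2) (fun x => u.1 (K.ψ x)) x
      (s.bg.F.val k _ (Tc σ k q (σ.pt k y) (s.bg.F.toH _ _ u)) (K.ψ x)) := by
  obtain ⟨h1, h2⟩ := ofV_sec h.ok.site (by omega : 4 ≤ k + 1) u
  rw [← h2]
  obtain ⟨a, b, c⟩ := (h.pw k hk q y u.1 h1).2.2 (K.ψ x) _ rfl
  generalize s.bg.F.val k (pE s.bg) _ (K.ψ x) = z at a b c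
  have hP := (h.ok.ok _ y.2.1).toOK
  have hs := K.mem_src.2 (deep_J K two_pos hx)
  refine ⟨a.congr_of_eventuallyEq (.of_forall fun r => ?_),
    b.congr_of_eventuallyEq (.of_forall fun r => ?_), c.trans ?_⟩
  · exact (congrArg₂ (· - ·) (eD_ψ K hs (vr y.1.2 u.1 r)) (pt_ψ hP q (vr y.1.2 u.1 r) hK hx h0).1).symm
  · exact (congrArg₂ (· - ·) (eC_ψ K hs (vr y.1.2 u.1 r)) (pt_ψ hP q (vr y.1.2 u.1 r) hK hx h0).2).symm
  · simp only [lG, D_ψ K hs, ← K.rel.dv hs (hP.en i).cyl.G.vol hP.vol, K.hw, K.hJ]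
    rfl

theorem ev_deep {e : En3 κ lam ν} {b : Bg X.I X.M κ lam ν nc} (K : Nk e b) {o : Bool}
    (h : K.Inf o) (r : ℝ) : ∀ᶠ x in nd e.Y.M o, x.2 ∈ K.deep r := by
  cases o
  · have hp : K.p = none := h
    refine nd_basis.eventually_iff.2 ⟨r - K.q.getD 0, trivial, fun x hx =>
      ⟨by simp [hp], fun a ha => ?_⟩⟩
    obtain ⟨a', h1, rfl⟩ := Option.mem_map.1 ha
    have : r - a' < -x.2 := by simpa [pm, Option.mem_def.1 h1] using hx
    linarith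
  · have hq : K.q = none := h
    refine nd_basis.eventually_iff.2 ⟨K.p.getD 0 + r, trivial, fun x hx =>
      ⟨fun a ha => ?_, by simp [hq]⟩⟩
    obtain ⟨a', h1, rfl⟩ := Option.mem_map.1 ha
    simpa [pm, Option.mem_def.1 h1] using hx

/-- far out the base configuration is static -/
theorem bs_ev (h : σ.toFam.OK) (hβ : s.Cr σ.β) {t : T} (ht : t ∈ σ.Q) {i : N} {o : Bool}
    {K : Nk (d.e (ty i)) s.bg} (hK : K ∈ s.nk i) (ho : K.Inf o) : ∀ᶠ x in nd (d.e (ty i)).Y.M o,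
      (∀ a, (σ.bs t).a a (K.ψ x) = (fz (σ.β i o)).a a x) ∧
        (σ.bs t).Φ (K.ψ x) = (fz (σ.β i o)).Φ x := by
  filter_upwards [ev_ψ K ho, eventually_all.2 fun a =>
    base_ev h.site (g := fun i s => (fz (σ.β i s)).a a) hK ho,
    base_ev h.site (g := fun i s => (fz (σ.β i s)).Φ) hK ho] with x h1 h2 h3
  refine ⟨fun a => ?_, h3⟩
  simp only [Cel.bs, S_nk h ht hK h1]
  exact ((adm_base hβ).pa a _).trans (h2 a)

theorem st_of_nd {Y : Type} {o : Bool} {p : Y × ℝ → Prop} (h : ∀ᶠ x in nd Y o, p x) :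
    ∀ᶠ R in atTop, ∀ x : Y × ℝ, R < pm o * x.2 → ∀ x' : Y × ℝ, |x'.2 - x.2| < 1 → p x' := by
  obtain ⟨R, -, hR⟩ := (atTop_basis_Ioi.comap _).eventually_iff.1 h
  filter_upwards [eventually_ge_atTop (R + 1)] with R' h1 x h2 x' h3
  refine hR (?_ : R < _)
  obtain ⟨h4, h5⟩ := abs_lt.1 h3
  cases o <;> simp only [pm, if_true, Bool.false_eq_true, if_false] at h2 ⊢ <;> linarith

/-- the operator on an end -/
theorem exists_end (hB : CylB d ty T) {i : N} (hM : MdStmt d ty (d.e (ty i)).Z 0 0 T)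
    (he : ∀ j, (d.e (ty j)).OK) (hw : 0 < (d.e (ty i)).w) (β : BCs fun j => d.e (ty j))
    {v : (d.e (ty i)).YC} (hv : En3.Gd v) (hk : 7 ≤ k) (q : d.W →₀ ℝ) :
    ∃ L : (d.e (ty i)).D.Z.H (k + 1) (pC (d.e (ty i)).cyl) →L[ℝ]
      (d.e (ty i)).D.Z.H k (pE (d.e (ty i)).cyl),
      Nc (d.e (ty i)).D.Z.toPre (d.e (ty i)).D.Z.P (full (d.e (ty i)).cyl (fz v)) ∧
      (∃ n, L = LH (d.e (ty i)).D.Z.toPre (d.e (ty i)).D.Z.toPre k _ _
        (full (d.e (ty i)).cyl (fz v)) + (d.e (ty i)).D.Z.incl (k + 1) k _ ∘L n) ∧ Bijective L ∧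
      ∀ (u : Sec _ (pC (d.e (ty i)).cyl)) x, Lz (fun w => d.yt w (ty i)) q (fz v) u.1 x
        ((d.e (ty i)).D.Z.val k _ (L ((d.e (ty i)).D.Z.toH _ _ u)) x) := by
  classical
  have e : ∀ o, update β i (fun _ => v) i o = v := fun o => by rw [update_self]
  generalize update β i (fun _ => v) = β' at e
  have h := hM _ _ (ccOK (T := T) i β' he hw fun o => (e o).symm ▸ hv)
  let y : (d.cc ty i T 0 β').Pnt := ⟨(0, fz v), trivial, hv.crit.1, fun j o K hK _ => by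
    obtain rfl := cs_eq hK
    obtain rfl := mem_cs.1 hK
    have z : ∀ {V : Type} [NormedAddCommGroup V] [NormedSpace ℝ V] (O) (f : _ → V),
        Hh (d.e (ty j)).D.Z.toPre O fun x => f x - f x := fun O f => by
      simp only [sub_self]; exact (Hi.zero (F := (d.e (ty j)).D.Z.toPre)).hh O
    change Nk.Asy _ o (β' j o) _
    rw [e]
    exact ⟨0, fun a => z _ _, z _ _⟩⟩
  exact ⟨Tc _ k q (Cel.pt _ k y), (h.op y).2, h.gainL k hk q y,
    hB i β' ((e _).trans (e _).symm) h k hk q y (congrArg fz (e _).symm), fun u x =>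
      lz_tc h hk q y (K := (d.e (ty i)).nk) (mem_cs.2 rfl) ⟨nofun, nofun⟩ (fun _ _ => rfl) u⟩

/-- **MS-FR0** -/
theorem fr0 (hB : CylB d ty T) (hM : ∀ i, MdStmt d ty (d.e (ty i)).Z 0 0 T) :
    Fr0 d ty X nc nr T := by
  intro s σ h k hk t ht
  have key := fun i o (ho : s.Inf i o) => exists_end hB (hM i) h.ok.site.en
    (ho.elim fun K _ => K.hw ▸ h.ok.w0) σ.β (h.OK.gd i o ho) hk 0
  choose! L h1 h2 h3 h4 using key
  have hR : ∀ᶠ R in atTop, ∀ i o, ∀ K ∈ s.nk i, K.Inf o → ∀ x : (d.e (ty i)).Y.M × ℝ,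
      R < pm o * x.2 → ∀ x' : (d.e (ty i)).Y.M × ℝ, |x'.2 - x.2| < 1 → x'.2 ∈ K.deep 2 ∧
      (∀ a, (σ.bs t).a a (K.ψ x') = (fz (σ.β i o)).a a x') ∧
        (σ.bs t).Φ (K.ψ x') = (fz (σ.β i o)).Φ x' := by
    refine eventually_all.2 fun i => eventually_all.2 fun o => ?_
    by_cases hK : ∃ K ∈ s.nk i, K.Inf o
    · obtain ⟨K, hK, ho⟩ := hK
      refine (st_of_nd ((ev_deep K ho 2).and (bs_ev h.ok h.cr ht hK ho))).mono fun R hR K' hK' _ => ?_
      obtain rfl := Option.mem_unique hK hK'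
      exact hR
    · exact .of_forall fun _ K a b => (hK ⟨K, a, b⟩).elim
  refine Cht98.pchStmt X N _ s _ _ k (bg σ t).F (full (bg σ t) (σ.bs t)) _
    (fun i o => full (d.e (ty i)).cyl (fz (σ.β i o))) L ⟨h.ok.site, by omega, h.tw t ht,
      (h.op (h.toHy.y0 ht)).2, (h.op (h.toHy.y0 ht)).1.cl, h.gainL k hk 0 (h.toHy.y0 ht),
      fun i K hK x hx a => ((h.en t ht i K hK x hx).2.1 a).1, h1, h2, h3,
      fun i o K _ _ x hx => ?_, fun i o ho u x hu => ?_, hR.exists.imp fun R hR i o K hK ho u u' x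
        hx hu => ?_⟩
  · have e1 : s.bg.p1 (K.ψ x) = (d.e (ty i)).cyl.p1 x := by
      simp only [Bg.p1, K.P _ _ x hx]; rfl
    have e2 : s.bg.pm (K.ψ x) = (d.e (ty i)).cyl.pm x := by
      rw [Bg.pm, vol_ψ K hx, K.hp x hx]; rfl
    have e3 : pC s.bg (K.ψ x) = pC (d.e (ty i)).cyl x := by simp only [ps, e1, pp_ψ K hx]
    have e4 : pE s.bg (K.ψ x) = pE (d.e (ty i)).cyl x := by
      simp only [ps, e2, p2_ψ K hx]
    refine ⟨e3, e4, fun a => ?_⟩
    change pE s.bg (K.ψ x) ∘L σF s.bg a (K.ψ x) ∘L pC s.bg (K.ψ x) = _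
    simp only [e3, e4, σF, K.P _ _ x hx, K.hρ a x hx]
    rfl
  · refine ((h4 i o ho u x).uq (h4 i o ho 0 x) (fun _ _ => ⟨fun _ => rfl, rfl⟩) hu).trans ?_
    rw [map_zero, map_zero, val_zero, Pi.zero_apply]
  · obtain ⟨K', hK', e⟩ := h.ok.en t ht i K hK
    have a := lz_tc h hk 0 (h.toHy.y0 ht) hK' (x := x) (by
      simpa only [Nk.deep, ng_p e, ng_q e] using (hR i o K hK ho x hx.2 x (by simp)).1)
      (by simp) u
    simp only [Nk.pb, ng_ψ e] at a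
    exact a.uq (h4 i o ⟨K, hK, ho⟩ u' x) (fun x' h => (hR i o K hK ho x hx.2 x' h).2) hu

end Crest.Agent.X212.Sw21
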