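import Crest.Agent.X212.Sw21.IxA
import Crest.Agent.X212.Ix82.Defs
import Crest.Agent.X212.Cht98.Pch
import Crest.Agent.X212.Cht98.Dp
import Crest.Agent.X212.Pb50.End

/-!
# Row 212, IX-REP, IX-FRED, IX-CYL (helper21): `ixRep`, `ixFred`, `ixCyl`
-/

set_option autoImplicit false
set_option linter.unusedSectionVars false
noncomputable section
open scoped Manifold ContDiff Topology InnerProductSpace BoundedContinuousFunction
open MeasureTheory Set Function Filter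

namespace Crest.Agent.X212.Sw21
open An An.Pre Sob92 Cyf70 Sw Cht98 Pb50
open M (Mf pm)

section iso
variable {X X' : Mf 4} {ι V W : Type} [Fintype ι] [NormedAddCommGroup V] [InnerProductSpace ℝ V]
  [FiniteDimensional ℝ V] [NormedAddCommGroup W] [InnerProductSpace ℝ W] [FiniteDimensional ℝ W]
  {F : Pre X.I X.M ι} {F' : Pre X'.I X'.M ι} {φ : OpenPartialHomeomorph X.M X'.M} (h : Iso F F' φ)
  (h1 : ∀ x, x ∈ φ.source) (h2 : ∀ x, x ∈ φ.target) {p : X.M → V →L[ℝ] V} {p' : X'.M → V →L[ℝ] V}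
  (hp : ∀ x, p' (φ x) = p x)
include h h1 h2 hp

theorem rep_one (k : ℕ) : F'.RepT F (tc F F' φ k p' p fun _ => 1) fun u x => u (φ x) :=
  RepT_congr (TD.rep ⟨h, Cb_const 1, fun x _ => h2 x⟩ (fun x _ => (hp x).symm) k) fun _ =>
    funext fun x => (pull_of_mem (h1 x) _).trans (one_smul _ _)

theorem rep_one' (k : ℕ) : F.RepT F' (tc F' F φ.symm k p p' fun _ => 1) fun u x => u (φ.symm x) :=
  rep_one (iso_symm h) h2 h1 (fun x => by rw [← hp, φ.right_inv (h2 x)]) k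

/-- transport by a global isomorphism -/
def eqv (k : ℕ) : F'.H k p' ≃L[ℝ] F.H k p :=
  .equivOfInverse (tc F F' φ k p' p fun _ => 1) (tc F' F φ.symm k p p' fun _ => 1)
    (DFunLike.congr_fun (RepT_eq (RepT_comp (rep_one' h h1 h2 hp k) (rep_one h h1 h2 hp k)) Rep_id
      fun u => funext fun x => congrArg u.1 (φ.right_inv (h2 x))))
    (DFunLike.congr_fun (RepT_eq (RepT_comp (rep_one h h1 h2 hp k) (rep_one' h h1 h2 hp k)) Rep_id
      fun u => funext fun x => congrArg u.1 (φ.left_inv (h1 x))))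

theorem fr_iso {q : X.M → W →L[ℝ] W} {q' : X'.M → W →L[ℝ] W} (hq : ∀ x, q' (φ x) = q x) {k j : ℕ}
    {L : F.H k p →L[ℝ] F.H j q} {L' : F'.H k p' →L[ℝ] F'.H j q'} {T T'} (hL : F.Rep L T)
    (hL' : F'.Rep L' T') (e : ∀ u x, T' u (φ x) = T (fun y => u (φ y)) x) {n : ℤ}
    (H : Fred93.Fr L n) : Fred93.Fr L' n :=
  (H.conj (eqv h h1 h2 hp k) (eqv h h1 h2 hq j).symm).congr (DFunLike.congr_fun (RepT_eq hL'
    (RepT_comp (rep_one' h h1 h2 hq j) (RepT_comp hL (rep_one h h1 h2 hp k))) fun _ =>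
      funext fun x => (congrArg _ (φ.right_inv (h2 x)).symm).trans (e _ _)))

end iso

variable {κ lam ν : Type} [Fintype κ] [Fintype lam] [Fintype ν] [DecidableEq ν]

section en
variable {e : En3 κ lam ν} {a : e.T} {u u' : e.Y.M × ℝ → Map77.S.Cf κ ν} {x : e.Y.M × ℝ}

/-- the sections of a term -/
def gs (h : e.TOK a) (j : Bool) : Sec e.Y.I e.A0.p := ⟨a.ξ j, h.ξ j⟩

theorem aH_eq (h : e.TOK a) : e.aH a = aY e.D.F a.B (gs h) a.c :=
  (rep_aY (gs h) a.c h.sB h.pB).liftT_eq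

variable (a u x) in
/-- the term on the cylinder -/
def tz : Map77.S.Ef κ ν := e.A0.σ none x.1 (e.ap a (fun y => u (y, x.2)) x.1)

/-- with a weight, on Sobolev spaces -/
def KB (h : e.TOK a) (b : ℝ →ᵇ ℝ) (k : ℕ) : e.D.Z.H k (pc e.A0.p) →L[ℝ] e.D.Z.H k (pc e.A0.q) :=
  smulH _ k _ (fun x => b x.2) ∘L KZ e.D.F a.B (gs h) a.c k

theorem rep_KB (hS : CyO e.D.F e.A0) (h : e.TOK a) {b : ℝ →ᵇ ℝ} (hb : e.D.Z.Cb fun x => b x.2)
    (k : ℕ) : e.D.Z.Rep (KB h b k) fun u x => b x.2 • tz a u x :=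
  RepT_comp (rep_smulH hb) (rep_KZ (gs h) a.c h.sB hS k)

theorem KL_KB (hS : CyO e.D.F e.A0) (h : e.TOK a) {b : ℝ →ᵇ ℝ} (hb : e.D.Z.Cb fun x => b x.2) :
    hS.KL (KB h b 0) = ma b (e.aH a) := aH_eq h ▸ KL_KZ (gs h) a.c h.sB hS h.pB hb

theorem sym_aH (h : e.TOK a) : e.aH a ∈ SymA e.H0 := aH_eq h ▸ sym_aY (gs h) a.c h.sB h.pB h.sym

theorem cz_congr (hu : ∀ x' : e.Y.M × ℝ, |x'.2 - x.2| < 1 → u x' = u' x') :
    (cyo e.A0).app e.D.Z u x + tz a u x = (cyo e.A0).app e.D.Z u' x + tz a u' x := by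
  have h1 : ∀ i, e.D.Z.D i u x = e.D.Z.D i u' x := fun i => dv_congr (mem_of_superset
    ((isOpen_lt (f := fun x' : e.Y.M × ℝ => |x'.2 - x.2|) (by fun_prop) continuous_const).mem_nhds
      (by simp)) hu)
  simp only [Op.app, Pre.op, tz, h1, hu x (by simp), funext fun y => hu (y, x.2) (by simp)]

theorem exists_cz (hS : CyO e.D.F e.A0) (h : e.TInv a) (k : ℕ) :
    ∃ L : e.D.Z.H (k + 1) (pc e.A0.p) →L[ℝ] e.D.Z.H k (pc e.A0.q),
      (∃ n, L = AH e.D.F e.A0 k + e.D.Z.incl (k + 1) k _ ∘L n) ∧ Bijective L ∧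
      e.D.Z.Rep L fun u x => (cyo e.A0).app e.D.Z u x + tz a u x := by
  have r := rep_KB hS h.toTOK (b := 1) (Cb_const 1)
  refine ⟨_, ⟨_, congrArg _ (gain_lev (A := cyo e.A0) r k)⟩, bij_lev (A := cyo e.A0)
    hS.tameZ.choose_spec hS.good.choose_spec hS.cl.1 r ((hS.bij_iff _).2 ?_) k,
    RepT_congr (rep_lev (A := cyo e.A0) hS.good.choose_spec r k) fun u => funext fun x => by simp⟩
  rw [KL_KB hS h.toTOK (Cb_const 1)]
  exact hS.cylD.bij_cp (sym_aH h.toTOK) h.bij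

/-- the weights of the two sides -/
def sb (s : Bool) : ℝ →ᵇ ℝ := .ofNormedAddCommGroup (stp s 1)
  (bd_stp s 1).choose_spec.1.continuous _ ((bd_stp s 1).choose_spec.2 0 0 le_rfl)

theorem exists_two (hS : CyO e.D.F e.A0) {a : Bool → e.T} (h : ∀ s, e.TInv (a s)) (k : ℕ) :
    ∃ L : e.D.Z.H (k + 1) (pc e.A0.p) →L[ℝ] e.D.Z.H k (pc e.A0.q),
      Fred93.Fr L (e.sf (a false) (a true)) ∧
      e.D.Z.Rep L fun u x => (cyo e.A0).app e.D.Z u x + ∑ s, stp s 1 x.2 • tz (a s) u x := by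
  have c : ∀ s, e.D.Z.Cb fun x => sb s x.2 := fun s => ⟨_, (bd_stp s 1).choose_spec.cyl _⟩
  have r := fun k => RepT_add (rep_KB hS (h false).toTOK (c false) k)
    (rep_KB hS (h true).toTOK (c true) k)
  refine ⟨_, fr_lev (A := cyo e.A0) hS.tameZ.choose_spec hS.good.choose_spec hS.cl.1 r
    ((hS.fr_iff _).2 ?_) k, RepT_congr (rep_lev (A := cyo e.A0) hS.good.choose_spec r k)
      fun u => funext fun x => ?_⟩
  · have ad : ∀ A B, hS.KL (A + B) = hS.KL A + hS.KL B := fun A B => by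
      simp only [CyO.KL, ContinuousLinearMap.comp_add, ContinuousLinearMap.add_comp]
    exact (fr_two hS.cylD exists_stp.choose_spec.choose_spec (sym_aH (h _).toTOK)
      (sym_aH (h _).toTOK) (h _).bij (h _).bij (bd_stp false 1).choose_spec.1
      (bd_stp true 1).choose_spec.1 one_le_two
      (fun t ht => ⟨stp_one (by simp [pm]; linarith), stp_zero (by simp [pm]; linarith)⟩)
      fun t ht => ⟨stp_zero (by simp [pm]; linarith), stp_one (by simp [pm]; linarith)⟩).congr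
      fun x => congrArg (fun K => Dz _ _ _ _ K x) ((ad _ _).trans (congrArg₂ (· + ·)
        (KL_KB hS (h false).toTOK (c false)) (KL_KB hS (h true).toTOK (c true))))
  · rw [Fintype.sum_bool, add_comm (_ • _)]; rfl

end en

variable {X : Mf 4} {nc : ℕ}

section nk
variable {e : En3 κ lam ν} {b : Bg X.I X.M κ lam ν nc} (K : Sw.Nk e b) {s : Bool} {a : e.T}

/-- the operator is literal on the neck -/
def NA : Prop := ∀ x ∈ K.ψ.source, b.A0.p (K.ψ x) = e.A0.p x.1 ∧ b.A0.q (K.ψ x) = e.A0.q x.1 ∧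
  (∀ a, b.A0.σ a (K.ψ x) = e.A0.σ a x.1) ∧ b.A0.B (K.ψ x) = e.A0.B x.1

theorem na (hO : IxOp κ lam ν) (he : e.OK) (hb : b.OK) : NA K := fun x hx => by
  have := hO.lit e.Z X 0 nc e.cyl b K.ψ he.cyl hb
    ⟨K.iso, K.P, K.o, K.hJ, K.hw, K.hp, K.hρ, K.hA, K.hms, K.hom⟩ x hx
  rwa [← hO.cy e he] at this

theorem dpe (ho : K.Inf s) : Dpe K s (|K.p.getD 0| + |K.q.getD 0| + 1) := fun t ht => by
  have a1 := abs_nonneg (K.p.getD 0)
  have a2 := abs_nonneg (K.q.getD 0)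
  cases s
  · refine ⟨by simp [show K.p = none from ho], fun c hc => ?_⟩
    rw [Option.mem_def.1 hc] at ht
    simp only [pm, Bool.false_eq_true, if_false, Option.getD_some] at ht
    linarith [neg_abs_le c]
  · refine ⟨fun c hc => ?_, by simp [show K.q = none from ho]⟩
    rw [Option.mem_def.1 hc] at ht
    simp only [pm, if_true, Option.getD_some] at ht
    linarith [le_abs_self c]

variable {K}

theorem et_ψ (h : NA K) (u : X.M → Map77.S.Cf κ ν) {z : e.Y.M × ℝ} (hz : z ∈ K.ψ.source) :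
    K.et s a u (K.ψ z) = K.bw s (K.ψ z) • tz a (fun y => u (K.ψ y)) z := by
  rw [Nk.et, K.tm_ψ z hz, K.ψ.left_inv hz, (h z hz).2.2.1, tz]

theorem exists_et (h : NA K) (hS : CyO e.D.F e.A0) (ha : K.Inf s → e.TOK a) :
    ∃ E : ∀ k, b.F.H k b.A0.p →L[ℝ] b.F.H k b.A0.q, ∀ k, b.F.Rep (E k) (K.et s a) := by
  by_cases ho : K.Inf s
  swap
  · exact ⟨0, fun k => RepT_congr RepT_zero fun u => funext fun x => by simp [Nk.et, Nk.bw, ho]⟩
  have hd := dpe K ho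
  obtain ⟨C, hC⟩ := CBs_cu e.D.F.toPre one_half_pos
  have sp : support (fun x => cu K.p K.q (1 / 2) (K.tm x)) ⊆ K.dp (1 / 2) :=
    fun x hx => by_contra fun h0 => hx (cu_zero one_half_pos h0)
  have td : TD e.D.Z.toPre b.F.toPre K.ψ fun x => cu K.p K.q (1 / 2) (K.tm x) :=
    ⟨K.iso, ⟨_, (nck K.toNk).CBs_tm (isClosed_Jc _ _ _) (Jc_subset one_half_pos)
      (fun _ => cu_zero one_half_pos) (hC _ _)⟩,
      (closure_minimal sp K.isClosed_dp).trans (K.dp_sub one_half_pos)⟩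
  have r := fun k => RepT_comp (hd.tde.rep (p' := pc e.A0.q) (pq_symm fun x hx => (h x hx).2.1) k)
    (RepT_comp (rep_KZ (gs (ha ho)) a.c (ha ho).sB hS k)
      (td.rep (p := pc e.A0.p) (fun x hx => (h x hx).1.symm) k))
  refine ⟨_, fun k => RepT_congr (r k) fun u => funext fun x => ?_⟩
  have e0 : K.bw s x = stp s _ (K.tm x) := if_pos ho
  rw [push_eq hd, ← e0]
  by_cases h0 : K.bw s x = 0
  · rw [Nk.et, h0, zero_smul, zero_smul]
  have h1 := (bw_dp K h0).2.2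
  obtain ⟨z, hz, rfl⟩ : ∃ z ∈ K.ψ.source, K.ψ z = x :=
    ⟨_, K.ψ.map_target (K.dp_sub one_pos h1), K.ψ.right_inv (K.dp_sub one_pos h1)⟩
  have h2 : ∀ y, pull K.ψ (fun y => cu K.p K.q (1 / 2) (K.tm y) • u.1 y) (y, z.2) =
      u.1 (K.ψ (y, z.2)) := fun y => by
    have h2 : (y, z.2) ∈ K.ψ.source := src K (K.mem_src.1 hz) y
    rw [pull_of_mem h2, K.tm_ψ _ h2, cu_one one_half_pos, one_smul]
    rw [← K.tm_ψ z hz, mul_one_div_cancel two_ne_zero]
    exact h1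
  rw [et_ψ h _ hz, K.ψ.left_inv hz, funext h2]
  rfl

end nk

variable {N : Type} [Fintype N] {e : N → En3 κ lam ν} {P : Pz X nc e} {a : TCs e}

/-- the piece without cuts -/
def nz (P : Pz X nc e) : Pz X 0 e := ⟨{ P.bg with ct := Fin.elim0 }, fun i => (P.nk i).map fun K =>
  ⟨K.toNk, K.hJ, K.hw, K.hp, K.hρ, K.hA, K.hms, K.hom⟩⟩

theorem nz_inf {i : N} {s : Bool} : (nz P).Inf i s ↔ P.Inf i s :=
  ⟨fun ⟨_, h, h'⟩ => by obtain ⟨K, h1, rfl⟩ := Option.mem_map.1 h; exact ⟨K, h1, h'⟩,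
    fun ⟨K, h, h'⟩ => ⟨_, Option.mem_map.2 ⟨K, h, rfl⟩, h'⟩⟩

theorem nz_ok (h : P.OK) : (nz P).OK :=
  have b := h.bg
  ⟨⟨b.B, b.G, b.tame, b.m, b.cc, b.sk, b.AJ, b.co, b.cp, b.cρ, b.cA, b.cms, b.com, b.msJ, b.msp,
    b.omp, b.w, fun j => j.elim0⟩, h.vol, h.con, h.en, fun i j hij _ h1 _ h2 => by
      obtain ⟨K, k1, rfl⟩ := Option.mem_map.1 h1
      obtain ⟨K', k2, rfl⟩ := Option.mem_map.1 h2
      exact h.dj hij K k1 K' k2, fun T => by
    convert h.cpt T using 1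
    ext x
    exact ⟨fun H i s K hK => H i s _ (Option.mem_map.2 ⟨K, hK, rfl⟩), fun H i s _ hK => by
      obtain ⟨K, h1, rfl⟩ := Option.mem_map.1 hK
      exact H i s K h1⟩⟩

theorem nz_st : (nz P).st a = P.st a := funext₂ fun u x =>
  congrArg (_ + ·) (Finset.sum_congr rfl fun i _ => Finset.sum_congr rfl fun s _ => by
    simp only [nz]; cases P.nk i <;> rfl)

variable (hO : IxOp κ lam ν) (hS : IxSym κ lam ν) (hP : P.OK)
include hO hP

theorem st_ψ {i : N} {K : Sw.Nk (e i) P.bg} (hK : K ∈ P.nk i) (u : X.M → Map77.S.Cf κ ν)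
    {z : (e i).Y.M × ℝ} (hz : z ∈ K.ψ.source) :
    P.st a u (K.ψ z) = (cyo (e i).A0).app (e i).D.Z (fun y => u (K.ψ y)) z +
      ∑ s, K.bw s (K.ψ z) • tz (a i s) (fun y => u (K.ψ y)) z := by
  have h := na K hO (hP.en i) hP.bg
  rw [Pz.st, Finset.sum_comm]
  refine congrArg₂ (· + ·) ?_ (Finset.sum_congr rfl fun s _ => (sum_nk hP hK (K.ψ.map_source hz)
    (fun j K' => K'.et s (a j s) u (K.ψ z)) fun j K' h0 => ?_).trans (et_ψ h u hz))
  · simp only [Op.app, Pre.op, D_ψ K hz, (h z hz).2.2.1, (h z hz).2.2.2]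
  · rw [Nk.et, by_contra fun h1 => h0 (bw_dp K' h1).2.2, zero_smul]

include hS

theorem rep_st (ha : P.TOK a) :
    P.bg.F.Rep (P.stH a) (P.st a) ∧ Add68.Sy P.bg.F P.bg.A0 7 (P.stH a) := by
  have key : ∀ i s, ∃ E : ∀ k, P.bg.F.H k P.bg.A0.p →L[ℝ] P.bg.F.H k P.bg.A0.q, ∀ k,
      P.bg.F.Rep (E k) fun u x => (P.nk i).elim 0 fun K => K.et s (a i s) u x := fun i s => by
    cases hK : P.nk i with
    | none => exact ⟨0, fun k => RepT_zero⟩
    | some K =>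
      exact exists_et (na K hO (hP.en i) hP.bg) (hS.cyo _ (hP.en i)) fun ho => ha i s ⟨K, hK, ho⟩
  choose E hE using key
  have r := fun k => RepT_sum Finset.univ fun i _ => RepT_sum Finset.univ fun s _ => hE i s k
  obtain ⟨C, hC⟩ := (hO.good X nc _ hP.bg).1
  have r7 : P.bg.F.Rep _ (P.st a) := rep_lev hC r 7
  rw [Pz.stH, Pre.lift, r7.liftT_eq]
  exact ⟨r7, hP.bg.tame, ⟨C, hC⟩, _, congrArg _ (gain_lev r 7)⟩

omit hP

/-- **IX-REP** -/
theorem ixRep : IxRep κ lam ν :=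
  ⟨fun _ _ a h => ⟨aH_eq h ▸ rep_aY (gs h) a.c h.sB h.pB, sym_aH h⟩,
    fun _ _ _ _ _ _ hP _ => rep_st hO hS hP⟩

/-- **IX-CYL** -/
theorem ixCyl : IxCyl κ lam ν := by
  rintro X nc N _ e P hP a ha i ⟨K, hK, h0⟩ ⟨K', hK', h1⟩
  obtain rfl := Option.mem_unique hK hK'
  have hs : ∀ s, K.Inf s := fun s => by cases s <;> assumption
  have e0 : K.p = none := h0
  have e1 : K.q = none := h1
  have hJ : ∀ t, t ∈ K.J := fun t => ⟨by simp [e0], by simp [e1]⟩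
  have h2 : ∀ z, z ∈ K.ψ.source := fun z => K.mem_src.2 (hJ _)
  have h := fun z => na K hO (hP.en i) hP.bg z (h2 z)
  obtain ⟨L, h3, h4⟩ := exists_two (hS.cyo _ (hP.en i)) (fun s => ha i s ⟨K, hK, hs s⟩) 7
  refine fr_iso (X := (e i).Z) K.iso h2 (fun x => K.tgt ▸ hJ _) (fun z => (h z).1)
    (fun z => (h z).2.1) h4 (rep_st hO hS hP fun i s k => (ha i s k).toTOK).1 (fun u z => ?_) h3
  rw [st_ψ hO hP hK u (h2 z)]
  simp [Nk.bw, hs, e0, e1, stp, K.tm_ψ z (h2 z)]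

theorem fred0 {P : Pz X 0 e} (hP : P.OK) (ha : P.TInv a) : (P.stH a).IsFredholm := by
  obtain ⟨r, hy⟩ := rep_st hO hS hP fun i s k => (ha i s k).toTOK
  choose! L h1 h2 h3 using fun i s (ho : P.Inf i s) => exists_cz (hS.cyo _ (hP.en i)) (ha i s ho) 7
  have h4 := fun i s (ho : P.Inf i s) (u : Sec _ (pc (e i).A0.p)) => (congrArg _
    (RepT_toH (h3 i s ho) u)).trans (val_toH (Sup.of_tame (hS.cyo _ (hP.en i)).tameZ.choose_spec)
      (by norm_num : 4 ≤ 7) _)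
  have nc : ∀ {X : Mf 4} {F : Fr X.I X.M (Option κ)} {A : Op X.M (Option κ) (Map77.S.Cf κ ν)
      (Map77.S.Ef κ ν)}, (∃ C, A.Good F C) → Map77.Nc F.toPre F.P A := fun ⟨_, h⟩ =>
    ⟨⟨_, h.p.cb⟩, ⟨_, h.q.cb⟩, fun a => ⟨_, h.σ a⟩, ⟨_, h.B⟩, .of_good h⟩
  have d : Prm93.Dom P.bg.F.toPre P.bg.F.toPre := ⟨⟨P.bg.F.P, fun a x => (P.bg.F.P_e a x).symm,
    fun a b => ⟨_, hy.tame.choose_spec.P a b⟩⟩, 1, by simp⟩
  obtain ⟨R, hR⟩ := Finite.exists_le fun i => (P.nk i).elim 0 fun K =>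
    |K.p.getD 0| + |K.q.getD 0| + 2
  refine pchStmt X N e P _ _ 7 P.bg.F P.bg.A0 _ (fun i _ => cyo (e i).A0) L ⟨hP, by norm_num,
    ⟨hy.tame, hy.tame, d, d⟩, nc hy.good, (hO.good X 0 _ hP.bg).2, hy.gain, fun _ _ _ _ _ _ => rfl,
    fun i _ _ => nc (X := (e i).Z) (hS.cyo _ (hP.en i)).good, h1, h2, fun i o K _ _ x hx =>
      (na K hO (hP.en i) hP.bg x hx).imp_right (.imp_right And.left), fun i o ho u x hu => ?_,
    R, fun i o K hK ho u u' x hx hu => ?_⟩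
  · refine (congrFun (h4 i o ho u) x).trans ((cz_congr (u' := (0 : Sec _ (pc (e i).A0.p)).1)
      hu).trans ((congrFun (h4 i o ho 0) x).symm.trans ?_))
    rw [map_zero, map_zero, val_zero, Pi.zero_apply]
  · have hz := K.mem_src.2 hx.1
    have h5 := hR i
    have h6 : R < pm o * x.2 := hx.2
    rw [Option.mem_def.1 hK, Option.elim_some] at h5
    rw [RepT_toH r, val_toH (Sup.of_tame hy.tame.choose_spec) (by norm_num)]
    refine (st_ψ hO hP hK u.1 hz).trans (.trans ?_ ((cz_congr hu).trans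
      (congrFun (h4 i o ⟨K, hK, ho⟩ u') x).symm))
    rw [Finset.sum_eq_single o (fun s _ hs => ?_) (by simp), Nk.bw, if_pos ho, K.tm_ψ x hz,
      Real.smoothTransition.one_of_one_le (by linarith), one_smul]
    rw [by_contra fun k : ¬K.bw s (K.ψ x) = 0 => ?_, zero_smul]
    have := (bw_dp K k).2.1
    rw [K.tm_ψ x hz, pm_ne hs] at this
    linarith [abs_nonneg (K.p.getD 0), abs_nonneg (K.q.getD 0)]

/-- **IX-FRED** -/
theorem ixFred : IxFred κ lam ν := fun _ _ _ _ _ P hP a ha =>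
  ⟨_, .of (by
    have := fred0 hO hS (nz_ok hP) (a := a) fun i s k => ha i s (nz_inf.1 k)
    rwa [Pz.stH, nz_st] at this)⟩

end Crest.Agent.X212.Sw21
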