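import Crest.Agent.X212.Qab60.Lh
import Crest.Agent.X212.Line51.Ic

/-! X212 (helper21): the fluxes through the inner cuts (`H-FLX`). -/

set_option autoImplicit false
set_option linter.unusedSectionVars false
noncomputable section
open scoped Manifold ContDiff Topology InnerProductSpace Real
open Set Function Filter
open Crest.Agent.R208.F (Ext)

namespace Crest.Agent.X212.Sw21
open An Prm93 Num57 M Nd18 Rf65 G75 Ins26 Cyf70 Qab60
open Dr59 (Cs dM pm)
open Hol14 (flux gm gm_mem dns)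
open Fin37 (Pm)
open Csm97 (Dat)

section gen
variable {E : Type} [NormedAddCommGroup E] [NormedSpace ℝ E] [FiniteDimensional ℝ E]
  [MeasurableSpace E] [BorelSpace E]
  {H : Type} [TopologicalSpace H] {I : ModelWithCorners ℝ E H} [I.Boundaryless]
  {M : Type} [TopologicalSpace M] [ChartedSpace H M] [IsManifold I ∞ M] [T2Space M]
  [MeasurableSpace M] [BorelSpace M] [SecondCountableTopology M]
  {E' : Type} [NormedAddCommGroup E'] [NormedSpace ℝ E'] [FiniteDimensional ℝ E']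
  [MeasurableSpace E'] [BorelSpace E']
  {H' : Type} [TopologicalSpace H'] {J : ModelWithCorners ℝ E' H'} [J.Boundaryless]
  {N : Type} [TopologicalSpace N] [ChartedSpace H' N] [IsManifold J ∞ N] [T2Space N]
  [MeasurableSpace N] [BorelSpace N] [SecondCountableTopology N]
  {μ μ' ι : Type} [Fintype μ] [Fintype μ'] [Fintype ι] {k : An.Cut M μ} {k' : An.Cut N μ'}

/-- the flux of a pull-back -/
theorem flux_pm (hd : Dat I k) {f : M → N} (hf : ∀ x ∈ k.supp, MDifferentiableAt I J f x)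
    (e : ∀ θ s, k'.γ θ s = f (k.γ θ s)) (w : N → Ext E') : flux I k (pm I J f w) = flux J k' w := by
  have e' : gm k' = f ∘ gm k := funext fun y => e _ _
  have : ∀ y, dns I (gm k) (pm I J f w) y = dns J (gm k') w y := fun y => by
    rw [e', dns, dns, mfderiv_comp y (hf _ (gm_mem y)) ((hd.sm y).mdifferentiableAt (by simp)),
      Dr59.pm_apply, Qab60.e2_pb]
    rfl
  simp only [flux, this]

theorem flux_sum (F : An.Fr I M ι) (hd : Dat I k) {α : Type} (s : Finset α) {w : α → M → Ext E}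
    (hw : ∀ a, Dr59.Sm I k.supp (w a)) :
    Dr59.Sm I k.supp (∑ a ∈ s, w a) ∧ flux I k (∑ a ∈ s, w a) = ∑ a ∈ s, flux I k (w a) := by
  classical
  induction s using Finset.induction_on with
  | empty => exact ⟨.zero, by simpa using Hol14.flux_smul (I := I) (k := k) (w := 0) 0⟩
  | insert a s ha ih =>
    rw [Finset.sum_insert ha, Finset.sum_insert ha, Hol14.flux_add F hd (hw a) ih.1, ih.2]
    exact ⟨(hw a).add ih.1, rfl⟩

end gen

variable {κ lam : Type} [Fintype κ] [Fintype lam] [DecidableEq lam] {Lm : LM κ lam}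

attribute [local instance] QD.dι

section
variable {S : Scene Lm} {D : S.Dat} {i : S.L} {Wi : Type} {r n : ℕ}
  {J : Job Wi (D.Λ i) (S.A ⊕ Unit) S.ls r n} {c : S.M.Cl} {R : S.A} {e : Bool → S.A} {Q : QD S R e}
  {E : Finset S.A} {b z j : ℕ} {n₀ : ℤ} {T : ℝ} (hQ : Q.OK i) (H : JR J R E b z j n₀ T)
include hQ H

theorem inn_iff (l : S.ls) : Inn J R l ↔ l.1 ∈ lsI S R := by
  classical
  rw [Inn, U_hp, H.gx.nb, lsI, Finset.mem_filter]
  refine ⟨fun k => ⟨l.2, union_subset k ?_⟩, fun k => subset_union_left.trans k.2⟩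
  obtain ⟨s, t⟩ := Wall.exists_side (hQ.cmp l l.2)
  cases s
  · exact t
  · obtain ⟨x, hx⟩ := (S.M.sys.w l).ne false
    exact ((S.M.sys.w R).not_mem_sd (k hx.2) (t hx.1)).elim

theorem flx_of (h1 : c.1 = {R}) {l : S.ls} (hl : Inn J R l)
    (hd : Dat (D.W.Z c).I (⟨(J.cut c l).γ, [], []⟩ : An.Cut _ (lam ⊕ lam))) (v : Q.ι → ℝ) (a)
    (hv : ∀ k ∉ Q.Z, v k = 0) (ha : Fo (D.W.Z c).I 1 a) :
    flux (D.W.Z c).I (J.cut c l) ((qt D.W c Q).fv v + dM (D.W.Z c).I a) = -∑ k ∈ Q.Z, v k * Q.a k := by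
  have o : Dfl49.Only S.M c.1 R false := fun a ha => .inl (h1.le ha)
  have hs := o.src D.W.toCaps
  have u : ∀ θ s, (J.ct l).γ θ s ∈ (S.M.sys.w R).sd false := fun θ s =>
    U_hp (M := S.M) (R := R) false ▸ hl ((H.gx.ok.nb l).2.sub ⟨(θ, s), rfl⟩)
  have cε := fun k => Qt4.cs_pu (D.W.φ c) hs ((Qt4.cs_le (hQ.le k)).smul (2 * π)⁻¹)
  have F := (J.G c 0).F
  have f := flux_sum F hd Finset.univ (w := fun k => (-v k) • (qt D.W c Q).ε k)
    fun k => (((cε k).on _).sm).smul _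
  have g : ∀ k ∈ Q.Z, flux (D.W.Z c).I (J.cut c l) ((qt D.W c Q).ε k) = Q.a k := fun k hk => by
    rw [← hQ.cut l ((inn_iff hQ H l).1 hl) k hk, ← flux_pm hd (f := (D.W.φ c).symm)
      (k' := S.cut l i) ?_ fun θ s => ?_]
    · exact Hol14.flux_congr (k := J.cut c l) (by
        rintro _ ⟨y, rfl⟩; exact indicator_of_mem (mem_image_of_mem _ (u _ _)) _)
    · rintro _ ⟨y, rfl⟩
      exact ((Dr59.pd_mp_symm _ hs).sm _ (mem_image_of_mem _ (u _ _))).mdifferentiableAt (by simp)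
    · rw [← H.gx.sc.ct_γ l i, ← H.gx.ct]
      exact ((D.W.φ c).left_inv (hs (u θ s))).symm
  refine (Hol14.flux_add F hd f.1 fun x _ => (ha.sm x).dM).trans ?_
  rw [Hol14.flux_dM F hd (fun x _ => ha.sm x) fun x _ => .of_forall ha.dg, add_zero, f.2,
    ← Finset.sum_neg_distrib, ← Finset.sum_subset (Finset.subset_univ Q.Z) fun k _ hk => by
      rw [Hol14.flux_smul, hv k hk, neg_zero, zero_mul]]
  exact Finset.sum_congr rfl fun k hk => by
    rw [Hol14.flux_smul, neg_mul]; exact congrArg (fun t => -(v k * t)) (g k hk)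

end

variable (Lm)

/-- `HFlx` over a point of the job -/
def HFlx' : Prop := AllR Lm fun {S D _ _ _ _} J c R _ Q => (∀ l, Inn J R l ↔ l.1 ∈ lsI S R) ∧
  ∀ s, Pm J c s → ∀ l, Inn J R l → ∀ (v : Q.ι → ℝ) a, (∀ k ∉ Q.Z, v k = 0) → Fo (D.W.Z c).I 1 a →
    flux (D.W.Z c).I (J.cut c l) ((qt D.W c Q).fv v + dM (D.W.Z c).I a) = -∑ k ∈ Q.Z, v k * Q.a k

/-- **H-FLX** over a point of the job -/
theorem hflx' : HFlx' Lm := fun S D i _ _ _ J c R _ _ _ _ _ hQ H h1 _ =>
  ⟨inn_iff hQ H, fun s ⟨σ, p1, p2, p3⟩ l hl => by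
    have o : Dfl49.Only S.M c.1 R false := fun a ha => .inl (h1.le ha)
    have k := Csm97.dat (H.gx.ok.ct σ p1 s (J.cl_dom p2) c p3 l (disjoint_left.2 fun x hx =>
      o.off (U_hp (M := S.M) (R := R) false ▸ hl hx)))
    exact flx_of hQ H h1 hl ⟨k.sm, k.h0, k.h1, by simp, by simp⟩⟩

/-- **H-FLX** -/
theorem hflx (hc : CutOK Lm) : HFlx Lm := fun S D i _ _ _ J c R _ _ _ _ _ hQ H h1 _ =>
  ⟨inn_iff hQ H, fun l hl => by
    have o : Dfl49.Only S.M c.1 R false := fun a ha => .inl (h1.le ha)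
    have hs := o.src D.W.toCaps
    obtain ⟨K, -, k⟩ := H.gx.sc.ct_mok l hc i
    rw [← H.gx.ct] at k
    refine flx_of hQ H h1 hl ⟨fun y => ((Dr59.pd_mp _ hs).sm _ ?_).comp y (k.sm y),
      fun θ s t => congrArg (D.W.φ c) (k.h0 θ s t), fun θ s t => congrArg (D.W.φ c) (k.h1 θ s t),
      by simp, by simp⟩
    exact U_hp (M := S.M) (R := R) false ▸ hl ((H.gx.ok.nb l).2.sub ⟨(y.1, y.2), rfl⟩)⟩

end Crest.Agent.X212.Sw21
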