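import Crest.Agent.X212.Sw21.KrB
import Crest.Agent.X212.Mp86.St

/-!
# Row 212, KILL-R (helper21): `Rf65.KrStmt`
-/

set_option autoImplicit false
set_option linter.unusedSectionVars false
noncomputable section
open scoped Manifold ContDiff Topology
open MeasureTheory Set Function Filter Classical

namespace Crest.Agent.X212.Sw21
open An M Nd18 Rdc90 Rf65 Cyl58 G75 Ins26 Kl48
open An.Job (Sol SolOn)

variable {κ lam : Type} [Fintype κ] [Fintype lam] [DecidableEq lam] {Lm : LM κ lam} {S : Scene Lm}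
  {D : S.Dat} {i : S.L} {Wi : Type} {r n : ℕ} {J : Job Wi (D.Λ i) (S.A ⊕ Unit) S.ls r n} {c : S.M.Cl}
  {δ ε K₀ T : ℝ} {Adm : (Wi →₀ ℝ) → Prop} {R : S.A} {E : Finset S.A} {b z j : ℕ} {n₀ : ℤ}
  {τ σ : Finset S.A} {o : Option Bool} {q : Wi →₀ ℝ} {y : J.Obc c} {a e x : S.A} {ι ρ π : Reg S.A}
  {P : Set (Reg S.A)}

theorem F_pos (t : y.TF π) : y.F (insert π P) = insert π (y.F P) :=
  Set.ext fun _ => ⟨fun k => k.1.imp_right (⟨·, k.2⟩), fun k => k.elim (fun e => ⟨.inl e, e ▸ t⟩)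
    fun k => ⟨.inr k.1, k.2⟩⟩

theorem F_neg (t : ¬y.TF π) : y.F (insert π P) = y.F P :=
  Set.ext fun _ => and_congr_left fun k => or_iff_right fun e => t (e ▸ k)

theorem q_le {k : ℝ} (hz : z ≤ 2) (h : 0 ≤ k) (m : ∃ m : ℤ, k = z / 4 + m) : z / 4 ≤ k := by
  obtain ⟨m, rfl⟩ := m
  have : (z : ℝ) ≤ 2 := by exact_mod_cast hz
  have : (0 : ℝ) ≤ m := by exact_mod_cast (show (-1 : ℤ) < m by
    rw [← Int.cast_lt (R := ℝ)]; push_cast; linarith : (0 : ℤ) ≤ m)
  linarith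

namespace Cr
variable (H : Cr J c δ ε K₀ T Adm R E b z j n₀ τ σ o) (hy : Sol (cel τ o) q y)
include H

theorem z2 : z ≤ 2 := by rcases H.ri.bz with k | k <;> omega

theorem mem_lv {s : S.A ⊕ Unit} : s ∈ J.lv ∅ (cel τ o) c {π} ↔
    ∃ x ∈ τ, x ∉ c.1 ∧ x ∈ S.M.sys.inn π ∧ .inl x = s := by
  rcases s with a | u
  · by_cases k : a ∈ τ
    · simp [Job.lv, H.gx.hd, k, show a ∈ hard S {R} from H.hd k]
    · simp [Job.lv, k]
  · simp [Job.lv, H.gx.hd]

include hy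

theorem dz1 (s : Bool) : 1 ≤ dz (J.xs R).D (y.β R s) := by have := (H.dzR hy s).2; omega

theorem card1 : (τ ∩ E).card ≤ 1 := H.one τ o H.an.mem (H.c_sub hy H.mem)

theorem inE (h : S.M.sys.U π ⊆ (S.M.sys.w R).sd false) (hx : x ∈ τ) (k : x ∉ c.1)
    (m : x ∈ S.M.sys.inn π) : x ∈ E :=
  ((H.out hy hx).resolve_left fun e => k (e ▸ H.mem)).resolve_right (not_both · (m.2.1.trans h))

/-! ### no pinch wall inside `R` is broken -/

section A
variable (hA : ∀ e ∈ E, e ∉ c.1)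
include hA

theorem lfA : hp R false ∈ Pc c ∧
    ∀ ρ ∈ Pc c, S.M.sys.U ρ ⊆ (S.M.sys.w R).sd false → ρ = hp R false :=
  lf1 c.2 H.mem fun a ha e => ((H.out hy (H.c_sub hy ha)).resolve_left e).resolve_left (hA a · ha)

theorem cpA : Cp c R = ∅ := eq_empty_of_forall_notMem fun ρ k =>
  k.2.2 ((H.lfA hy hA).2 ρ k.1 k.2.1 ▸ hp_self)

theorem inA (ha : Adm q) : (ia δ y (hp R false) : ℝ) = 8 * y.kap (D.W.pc c (hp R false)) - 3 * b ∧
    (idr δ y (hp R false) : ℝ) = -2 * y.kap (D.W.pc c (hp R false)) + z / 2 ∧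
    (¬y.TF (hp R false) → z / 4 ≤ y.kap (D.W.pc c (hp R false))) := by
  have := H.inn q y ha hy _ (H.lfA hy hA).1 U_hp.le
  simp only [Rf65.zc, if_neg (show ¬∃ e ∈ E, e ∈ c.1 from fun ⟨e, k, k'⟩ => hA e k k'), ite_self] at this
  exact ⟨this.1, this.2.1, fun t => q_le H.z2 (H.eps' ha hy (H.lfA hy hA).1 t).2.1 this.2.2⟩

theorem lvA : (J.lv ∅ (cel τ o) c {hp R false}).ncard = (τ ∩ E).card := by
  rw [← ncard_coe_finset, ← ncard_image_of_injective (↑(τ ∩ E) : Set S.A) (Sum.inl_injective (β := Unit))]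
  refine congrArg _ (Set.ext fun s => H.mem_lv.trans (exists_congr fun x => ?_))
  rw [Finset.mem_coe, Finset.mem_inter, and_assoc, ← and_assoc (a := x ∉ _)]
  exact and_congr_right fun hx => and_congr_left' ⟨fun k => H.inE hy U_hp.le hx k.1 k.2, fun k =>
    have m := H.ri.pin x k
    ⟨hA x k, inn_hp (fun e => H.Rc.2 (e ▸ m.1)) (subset_union_right.trans m.2.2) m.2.1.symm⟩⟩

theorem csA (hP : P ⊆ Rl (some R) c) : (J.cs (insert (hp R false) P) y.H).ncard + di y R =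
    (J.cs P y.H).ncard + (lsI S R).card := by
  have k0 : ∀ l : S.ls, l.1 ∈ lsI S R → S.nb l ⊆ (S.M.sys.w R).sd false := fun l k =>
    subset_union_left.trans (Finset.mem_filter.1 k).2
  have k1 : ⋃ π ∈ P, S.M.sys.U π ⊆ (S.M.sys.w R).sd true := iUnion₂_subset fun _ k => ou_R.1 (hP k).2.1
  have e1 : J.cs (insert (hp R false) P) y.H = J.cs P y.H ∪ {l ∈ y.H | l.1 ∈ lsI S R} := by
    ext l
    simp only [Job.cs, H.gx.nb, biUnion_insert, U_hp, mem_union, mem_ofPred_eq, ← and_or_left]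
    refine and_congr_right fun _ => ⟨fun k => or_iff_not_imp_right.2 fun m p hp => ?_, fun k => k.elim
      (·.trans subset_union_right) fun k => (k0 l k).trans subset_union_left⟩
    exact (k hp).resolve_left (Wall.not_mem_sd _ (ou_R.1 (by simpa [H.side] using m) hp))
  have e2 : {l ∈ J.unc c | l ∉ y.H ∧ ¬Ou (some R) (S.nb l)} = {l | l ∉ y.H ∧ l.1 ∈ lsI S R} := by
    ext l
    rw [mem_ofPred_eq, mem_ofPred_eq, ← H.side]
    refine and_iff_right_of_imp fun k => ?_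
    rw [Job.unc, H.gx.nb]
    refine disjoint_left.2 fun p hp m => ?_
    obtain ⟨a, ha, m⟩ := mem_iUnion₂.1 m
    rcases H.out hy (H.c_sub hy ha) with rfl | e | e
    exacts [m _ (k0 l k.2 hp), hA a e ha, Wall.not_mem_sd _ (e (Wall.core_subset _ m)) (k0 l k.2 hp)]
  rw [e1, di, e2, ncard_union_eq (disjoint_left.2 fun l k k' => not_tf (nb_ne l)
      ((H.gx.nb ▸ k.2).trans k1) (k0 l k'.2)), add_assoc,
    ← ncard_union_eq (disjoint_left.2 fun l k k' => k'.1 k.1), ← ncard_coe_finset,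
    ← ncard_image_of_injective (_ ∪ _ : Set S.ls) Subtype.val_injective]
  refine congrArg (HAdd.hAdd _) (congrArg _ <| Set.ext fun a => ⟨?_, fun k => ?_⟩)
  · rintro ⟨l, k | k, rfl⟩ <;> exact k.2
  · exact ⟨⟨a, (Finset.mem_filter.1 k).1⟩, (Classical.em _).imp (⟨·, k⟩) (⟨·, k⟩), rfl⟩

theorem insA (ha : Adm q) (hP : P ⊆ Rl (some R) c) :
    (xs δ y (J.prt (shX S {R}) (cel τ o) c (insert (hp R false) P) (insert (hp R false) P) y.H) : ℝ) =
      xs δ y (J.prt (shX S {R}) (cel τ o) c P P y.H) + 6 * (y.kap (D.W.pc c (hp R false)) - z / 4) +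
      (τ ∩ E).card - b + 2 * di y R + (uu y (insert (hp R false) P) - uu y P) -
      dz (J.xs R).D (y.β R false) := by
  obtain ⟨h1, h2, -⟩ := H.inA hy hA ha
  have h3 := congrArg (Nat.cast (R := ℝ)) (H.csA hy hA hP)
  have h4 := congrArg (Nat.cast (R := ℝ)) H.ri.card
  rw [xs_ins H.sh0 (fun _ k => (hP k).1) (H.lfA hy hA).1 fun k => (hP k).2.2 R H.Rc hp_self,
    H.lvA hy hA, H.stb_i hy (H.lfA hy hA).1 hp_self]
  push_cast at h3 h4 ⊢
  linarith

theorem uuA (hj : y.k R < 1) (hρ : ρ ∈ P) (k : ρ R = some true) :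
    uu y (insert (hp R false) P) = uu y P := by
  obtain ⟨h1, h2, -⟩ := (H.kR hy).2 hj
  refine uu_eq fun s hs m => ⟨(⟨R, H.Rc⟩, true), ⟨⟨ρ, hρ, k⟩, fun m' => m ?_⟩, ?_⟩ <;>
    obtain rfl : s = _ := (H.edp hy (H.lfA hy hA).1 hp_self).le hs
  · exact (congrArg (Rf65.Cn (J.xs R).D) h2).mpr m'
  · exact (if_pos ⟨H.Rc, h1⟩).trans (if_pos ⟨H.Rc, h1⟩).symm

theorem killA (ha : Adm q) (hF : (y.F (Pc c)).Nonempty → Ok δ y (pF J c (shX S {R}) (cel τ o) y))
    (hI : ∀ π ∈ y.I (Pc c), RT J c (cel τ o) π → Ok δ y.noz (pI J c (shX S {R}) (cel τ o) y π)) :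
    Fc J c (cel τ o) n₀ y R := by
  have p := (H.lfA hy hA).1
  have h0 : (0 : ℝ) ≤ (_ : ℤ) := Int.cast_nonneg (H.xs0 hy hF)
  have h1 := H.core hy p hp_self ha (fun ρ k => hI ρ ⟨k.1.1, k.2⟩) rfl rfl
  have h2 := H.kR hy
  have h3 : (0 : ℝ) ≤ di y R := Nat.cast_nonneg _
  obtain ⟨ρ, hρ, k⟩ := H.outer hy H.Rc
  rw [pF, H.F_eq hy p hp_self ha, H.rl0 hy, H.cpA hy hA, union_empty] at h0
  rw [H.cpA hy hA, finsum_mem_empty] at h1
  push_cast at h0 h1
  by_cases t : y.TF (hp R false)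
  · have h4 : ((τ ∩ E).card : ℝ) ≤ b := Nat.cast_le.2 (H.ri.bz.elim (fun k => by simp [k.2.2])
      fun k => k.1 ▸ H.card1 hy)
    have h5 : (1 : ℝ) ≤ dz (J.xs R).D (y.β R false) := by
      exact_mod_cast H.dz1 hy false
    have h6 : (uu y (insert (hp R false) (y.F (Rl (some R) c))) : ℝ) ≤ uu y (y.F (Rl (some R) c)) + 1 := by
      exact_mod_cast uu_le (H.edp hy p hp_self)
    rw [F_pos t, H.insA hy hA ha (P := y.F _) (sep_subset _ _)] at h0
    obtain ⟨-, k1, -, k2, -⟩ := h1 (by linarith)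
    rw [H.uuA hy hA (by linarith) (k1 hρ) k] at h0
    exact absurd h0 (by linarith)
  rw [F_neg t] at h0
  have h4 := (H.inA hy hA ha).2.2 t
  obtain ⟨k0, k1, -, k2, k3⟩ := h1 (by linarith)
  have e : c.1 = {R} := eq_singleton_iff_unique_mem.2 ⟨H.mem, fun a m => (k0 a m).resolve_right (hA a · m)⟩
  refine ⟨by have := H.num; have := Finset.card_le_card H.sub; rw [dim_cel]; omega, e, H.Rc.2,
    ⟨k3.trans (Nat.cast_eq_zero.1 (by linarith : (_ : ℝ) = 0)), fun a m =>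
      (show a = R from e.le m.1) ▸ (h2.2 (by linarith)).1⟩, ?_⟩
  have p' : S.M.sys.Piece c.1 ρ := hρ.1
  obtain rfl | rfl := Mp86.St.eq_hp (e ▸ p')
  exacts [(k1 hρ).2, (hρ.2.2 R H.Rc hp_self).elim]

end A

/-! ### a pinch wall inside `R` is broken -/

section B
variable (he : e ∈ E) (hc : e ∈ c.1)
include he hc

theorem uq (hx : x ∈ τ) (k : x ∈ E) : x = e :=
  Finset.card_le_one.1 (H.card1 hy) x (Finset.mem_inter.2 ⟨hx, k⟩) e
    (Finset.mem_inter.2 ⟨H.c_sub hy hc, he⟩)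

theorem geoB : ∃ ι ∈ Pc c, ι R = some false ∧ ι e = some true ∧
    S.M.sys.U ι = (S.M.sys.w R).sd false ∩ (S.M.sys.w e).sd true ∧ Cp c R = {hp e false} := by
  obtain ⟨m1, m2, m3⟩ := H.ri.pin e he
  have ne : e ≠ R := fun k => H.Rc.2 (k ▸ m1)
  have L := lfS (L := {e}) c.2 (by simpa) (by
    simp only [Finset.mem_singleton, forall_eq]
    intro a ha k
    obtain ⟨_ | _, m⟩ := Wall.exists_side (c.2 hc ha k.symm)
    · replace m := m.trans (subset_union_left.trans m3)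
      rcases H.out hy (H.c_sub hy ha) with rfl | i | i
      exacts [(not_self _ m).elim, (k (H.uq hy he hc (H.c_sub hy ha) i)).elim, (not_both i m).elim]
    · exact m)
  have p := (lf1 L.cell₀ (l := R) (by simpa [ne.symm] using H.mem) fun a ha k => by
    obtain ⟨ha, k'⟩ : a ∈ c.1 ∧ a ≠ e := by simpa using ha
    exact ((H.out hy (H.c_sub hy ha)).resolve_left k).resolve_left fun i =>
      k' (H.uq hy he hc (H.c_sub hy ha) i)).1
  have f : Kl48.fi S.M.sys {e} (hp R false) = {e} := Finset.filter_true_of_mem (by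
    simpa using inn_hp ne (subset_union_right.trans m3) m2.symm)
  have g : ou S.M.sys {e} (hp R false) R = some false := ou_some.2 (.inr hp_self)
  refine ⟨_, L.piece_ou p, g, ou_some.2 (.inl ⟨f.ge (Finset.mem_singleton_self _), rfl⟩),
    Set.ext fun x => by simp [mem_U_ou, f, U_hp], Set.ext fun ρ => ?_⟩
  have := L.in_iff (ρ := ρ) p
  simp only [f, U_hp, Finset.mem_singleton, exists_eq_left] at this
  refine ⟨fun k => ((this.1 ⟨k.1, k.2.1⟩).resolve_left fun i => k.2.2 (i ▸ g)).symm, fun k => ?_⟩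
  obtain rfl : ρ = _ := k
  exact ⟨(this.2 (.inr rfl)).1, (this.2 (.inr rfl)).2, hp_none.2 ne.symm ▸ nofun⟩

theorem lvB (h : S.M.sys.U π ⊆ (S.M.sys.w R).sd false) : J.lv ∅ (cel τ o) c {π} = ∅ :=
  eq_empty_of_forall_notMem fun _ k => let ⟨_, hx, k, m, _⟩ := H.mem_lv.1 k
    k (H.uq hy he hc hx (H.inE hy h hx k m) ▸ hc)

theorem killB (ha : Adm q) (hF : (y.F (Pc c)).Nonempty → Ok δ y (pF J c (shX S {R}) (cel τ o) y))
    (hI : ∀ π ∈ y.I (Pc c), RT J c (cel τ o) π → Ok δ y.noz (pI J c (shX S {R}) (cel τ o) y π)) :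
    False := by
  obtain ⟨ι, p, hR, g1, g2, g3⟩ := H.geoB hy he hc
  obtain ⟨p', g4, g5⟩ : hp e false ∈ Cp c R := g3.ge rfl
  have g6 : S.M.sys.U ι ⊆ (S.M.sys.w R).sd false := g2.le.trans inter_subset_left
  obtain rfl : b = 1 := H.ri.bz.elim (fun k => by simp [k.2.2] at he) And.left
  obtain ⟨a1, a2, m, a3⟩ := H.inn q y ha hy _ p g6
  obtain ⟨b1, b2, b3⟩ := H.inn q y ha hy _ p' g4
  simp only [Rf65.zc, if_pos hR, if_neg g5, if_pos (show ∃ e ∈ E, e ∈ c.1 from ⟨e, he, hc⟩)] at a2 a3 b2 b3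
  have h0 := H.xs0 hy hF
  have h2 := H.kR hy
  rw [pF, H.F_eq hy p hR ha] at h0
  by_cases t : ¬y.TF ι ∧ y.kap (D.W.pc c ι) = 0 ∧ y.k R < 1
  · obtain ⟨f, hf⟩ := H.exists_fl hy ha ι
    obtain ⟨e1, e2, e3⟩ := H.eps' ha hy p t.1
    obtain ⟨-, k2, k3⟩ := h2.2 t.2.2
    have go := anh_go H.an hy (singleton_subset_iff.2 p)
    obtain ⟨u, k4⟩ := H.flc H.an.ok δ y ι R false H.an.d0 p H.Rc hR (g2 ▸ H.ri.sc e he) go (e3 t.2.1)
    have k5 : du y R = 3 := ((H.duR hy).resolve_left fun k => by simp [← k2, k4] at k).1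
    have k6 : ia δ y ι = -3 ∧ idr δ y ι = 0 := by
      constructor <;> apply Int.cast_injective (α := ℝ) <;> push_cast at a1 ⊢ <;> linarith [t.2.1]
    have h1 := H.lev hy p hR hf
    rcases H.k0 y _ f y.l 0 (H.pre hy hf ha (by simp) (fun ρ k => hI ρ ⟨k.1.1, k.2⟩) (fun _ =>
      ⟨p, hR, fun l hl k => H.ri.crs l (Finset.mem_filter.2 ⟨hl, (H.gx.sc.hf_U ⟨l, hl⟩ k).trans g6⟩) e he
        ((H.gx.sc.hf_U ⟨l, hl⟩ k).trans (g2.le.trans inter_subset_right)), ⟨rfl, go, .inr (e3 t.2.1), e1, u, e2,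
          k2 ▸ eqv_refl (anh_bs H.an hy H.Rc _)⟩, by omega⟩) (by
      rw [show {a ∈ cylW c | a ∉ (none : Option S.A)} = ↑(LL c) from Set.ext fun _ => by simp [mem_LL],
        finsum_mem_coe_finset, ← Finset.add_sum_erase _ _ (mem_LL.2 H.Rc), hf.i, hf.z, hf.e]
      push_cast
      linarith) (le_trans (ncard_le_ncard fun l k => mem_sdiff_of_mem k.1 k.2.1) hy.drop)) with k | k
    · rw [F_neg t.1] at h0
      have : 0 ≤ ∑ᶠ a ∈ {a ∈ cylW c | ∃ ρ ∈ y.F (Rl none c), ρ a = some true}, cost δ none y f a :=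
        finsum_nonneg fun a => finsum_nonneg fun i => by
          by_cases e : a = R
          · simp [e, cost, hf.i, hf.z, hf.e, k5, k6, drp, H.nl]
          · exact zero_le_one.trans (H.cost_l hy hf (by simp) i.1 e)
      rw [mul_zero, add_zero, Int.cast_lt_zero] at k
      omega
    · exact k.1 e hc (H.ri.pin e he).1 ou_no
  have s1 : (xs δ y (J.prt (shX S {R}) (cel τ o) c (y.F (insert ι (Rl none c))) (y.F (insert ι (Rl none c)))
      y.H) : ℝ) ≤ xs δ y (J.prt (shX S {R}) (cel τ o) c (y.F (Rl none c)) (y.F (Rl none c)) y.H) +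
      6 * y.kap (D.W.pc c ι) + 6 * y.k R - 3 := by
    by_cases t' : y.TF ι
    · have h5 := H.dz1 hy false
      have h6 := uu_le (y := y) (P := y.F (Rl none c)) (H.edp hy p hR)
      have h7 := cs_le (J := J) (P := y.F (Rl none c)) (π := ι) (H := y.H)
      rw [← Nat.cast_le (α := ℝ)] at h5 h6 h7
      rw [F_pos t', xs_ins H.sh0 (fun _ k => k.1.1) p fun k => k.1.2.2 R H.Rc hR, H.lvB hy he hc g6,
        H.stb_i hy p hR, ncard_empty]
      push_cast at *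
      linarith
    · have h5 := (H.eps' ha hy p t').2.1
      rw [F_neg t']
      by_cases k : y.k R < 1
      · have : m ≠ 0 := fun i => t ⟨t', by simp [a3, i], k⟩
        have : (0 : ℤ) ≤ m := by rw [← Int.cast_le (R := ℝ)]; push_cast; linarith
        have : ((1 : ℤ) : ℝ) ≤ m := Int.cast_le.2 (by omega)
        push_cast at this
        linarith
      · linarith [not_lt.1 k]
  have s2 : (xs δ y (J.prt (shX S {R}) (cel τ o) c (y.F (Rl none c)) (y.F (Rl none c)) y.H) : ℝ) ≤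
      xs δ y (J.prt (shX S {R}) (cel τ o) c (y.F (Rl (some R) c)) (y.F (Rl (some R) c)) y.H) +
      6 * (y.kap (D.W.pc c (hp e false)) - z / 4) + 1 := by
    rw [H.rl0 hy, g3, union_singleton]
    by_cases t' : y.TF (hp e false)
    · have h5 : EdP c {hp e false} = ∅ := eq_empty_of_forall_notMem fun s ⟨_, k, k'⟩ =>
        s.1.2.2 ((hp_eq.1 (k ▸ k' :)).1 ▸ (H.ri.pin e he).1)
      have h6 := H.z2
      have h7 := cs_le (J := J) (P := y.F (Rl (some R) c)) (π := hp e false) (H := y.H)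
      rw [← Nat.cast_le (α := ℝ)] at h6 h7
      rw [F_pos t', xs_ins H.sh0 (fun _ k => k.1.1) p' fun k =>
        not_tf p'.toIsReg.nonempty (ou_R.1 k.1.2.1) g4, H.lvB hy he hc g4, uu_eq (h5 ▸ nofun),
        stb_eq ∅ fun a s => by simpa [hp_eq] using fun k m => (k.2 (m ▸ (H.ri.pin e he).1)).elim,
        ncard_empty, Finset.sum_empty]
      push_cast at *
      linarith
    · rw [F_neg t']
      linarith [q_le H.z2 (H.eps' ha hy p' t').2.1 b3]
  have h1 := H.core hy p hR ha (fun ρ k => hI ρ ⟨k.1.1, k.2⟩) rfl rfl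
  have h3 : (0 : ℝ) ≤ di y R := Nat.cast_nonneg _
  have h4 : (0 : ℝ) ≤ (_ : ℤ) := Int.cast_nonneg h0
  rw [g3, finsum_mem_singleton] at h1
  push_cast at h1 h4
  linarith [(h1 (by linarith)).2.2.2.1]

end B

omit hy in
/-- **KILL** -/
theorem kill : Kill J c δ (shX S {R}) (cel τ o) Adm n₀ := fun _ _ ha hy _ hF hI =>
  ⟨R, H.killA hy (fun _ he hc => H.killB hy he hc ha hF hI) ha hF hI⟩

/-- the numbers of a face object -/
theorem face (ha : Adm q) (hf : Fc J c (cel τ o) n₀ y x) : x = R ∧ J.unc c = univ ∧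
    ¬Ok δ y (pW J c (shX S {R}) (cel τ o) x) ∧ (¬y.TF (hp x false) →
      Ok δ y (pO J c (shX S {R}) (cel τ o) x) → (dz (J.xs x).D (y.β x true) = 1 ∧
      dmy δ y (pO J c (shX S {R}) (cel τ o) x) = 2 ∧
      dmy δ y (pW J c (shX S {R}) (cel τ o) x) = n₀ + Job.dim (cel τ o) + 1 ∧
      dmy δ y (pV J c (shX S {R}) (cel τ o) x) ≤ 2) ∧ y.kap (D.W.pc c (hp x false)) = z / 4 ∧
      n₀ + Job.dim (cel τ o) + b = 1 + (τ ∩ E).card) := by
  obtain rfl : R = x := hf.2.1.le H.mem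
  have mc : ∀ a ∈ c.1, a = R := hf.2.1.le
  have hA : ∀ e ∈ E, e ∉ c.1 := fun e k m => H.Rc.2 (mc e m ▸ (H.ri.pin e k).1)
  have un : J.unc c = univ := eq_univ_of_forall fun l => by
    rw [Job.unc, H.gx.nb]
    exact H.gx.sc.unc_of _ fun a k _ => mc a k ▸ H.cmp l.2
  have hH := (hy.H_eq hf.2.2.2.1.1).trans un
  obtain ⟨b1, b2⟩ := brk0 (hy.brk R H.Rc) (hf.2.2.2.1.2 R H.Rc)
  have s1 : stb y {hp R true} = dz (J.xs R).D (y.β R true) := by
    rw [stb_eq {(R, true)} fun a b => by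
      cases b <;> simpa [hp_eq] using fun k => k ▸ H.Rc, Finset.sum_singleton]
  have s2 : stb y {hp R true, hp R false} = 2 * dz (J.xs R).D (y.β R true) := by
    rw [stb_eq {(R, true), (R, false)} fun a b => by
      cases b <;> simpa [hp_eq] using fun k => k ▸ H.Rc, Finset.sum_pair (by simp), b1, two_mul]
  have d1 := H.fnw q y R hy hf un
  obtain ⟨o1, d2⟩ := H.ok (y := y) (pW J c (shX S {R}) (cel τ o) R)
  obtain ⟨o2, d3⟩ := H.ok (y := y) (pO J c (shX S {R}) (cel τ o) R)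
  have d4 := (H.ok (y := y) (pV J c (shX S {R}) (cel τ o) R)).2
  have d5 := H.duR hy
  have d6 := hf.1
  change _ = _ + (stb y {hp R true, hp R false} : ℤ) at d2 d4
  change _ = _ + (stb y {hp R true} : ℤ) at d3
  refine ⟨rfl, un, fun k => by have := o1.1 k; omega, fun t k => ?_⟩
  have rl : Rl (some R) c = {hp R true} := by
    have : Rl (some R) c ⊆ {hp R true} := fun ρ hρ => (Mp86.St.eq_hp (S := S.M.sys)
      (hf.2.1 ▸ (hρ.1 : S.M.sys.Piece c.1 ρ))).resolve_right fun e => hρ.2.2 R H.Rc (e ▸ hp_self)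
    obtain ⟨ρ, hρ, -⟩ := H.outer hy H.Rc
    exact this.antisymm (singleton_subset_iff.2 (this hρ ▸ hρ))
  have d0 : di y R = 0 := by simp [di, hH]
  obtain ⟨-, i1, i2⟩ := H.inA hy hA ha
  have h1 := H.core hy (H.lfA hy hA).1 hp_self ha (fun ρ k => (k.2.1 (rl.le k.1 ▸ hf.2.2.2.2)).elim) rfl rfl
  have h2 := H.insA hy hA ha rl.ge
  have h3 : (0 : ℝ) ≤ (_ : ℤ) := Int.cast_nonneg (o2.1 k)
  rw [H.uuA hy hA (b2 ▸ one_pos) (mem_singleton _) hp_self, pair_comm, hH, b1] at h2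
  rw [rl, show y.F {hp R true} = {hp R true} from sep_eq_self_iff_mem_true.2 fun _ e => e ▸ hf.2.2.2.2,
    hH, H.cpA hy hA, finsum_mem_empty] at h1
  simp only [d0, b2] at h1 h2
  push_cast at h1 h2 h3
  obtain ⟨-, -, k1, k2, -⟩ := h1 (by linarith [i2 t])
  have k3 : y.kap (D.W.pc c (hp R false)) = z / 4 := by linarith [i2 t]
  have k4 : 2 * j + xs δ y (pO J c (shX S {R}) (cel τ o) R) = 0 :=
    Int.cast_injective (α := ℝ) (by push_cast; linarith)
  have k5 : idr δ y (hp R false) = 0 := Int.cast_injective (α := ℝ) (by push_cast; linarith)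
  have k6 : xs δ y (pV J c (shX S {R}) (cel τ o) R) = xs δ y (pW J c (shX S {R}) (cel τ o) R) := by
    simp only [xs_eq, ix, finsum_mem_pair (show hp R true ≠ hp R false from fun k => by
      simpa [hp_self] using congrFun k R), k5, finsum_mem_singleton, add_zero]
  have k7 : xs δ y (pW J c (shX S {R}) (cel τ o) R) + b + dz (J.xs R).D (y.β R true) =
      xs δ y (pO J c (shX S {R}) (cel τ o) R) + (τ ∩ E).card :=
    Int.cast_injective (α := ℝ) (by push_cast; linarith)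
  refine ⟨⟨?_, ?_, ?_, ?_⟩, k3, ?_⟩ <;> omega

end Cr

/-- **KILL-R** -/
theorem kr : KrStmt Lm := fun S D i Wi r n J c δ σ' Adm R E b z j n₀ T H ε K₀ a1 a2 a3 a4 a5 a6 a7 a8 => by
  obtain ⟨τ, o, σ, rfl, h1, h2, -, h4, h5⟩ := H.gx.cell _ H.an.mem
  have C : Cr J c δ ε K₀ T Adm R E b z j n₀ τ σ o := ⟨H, h1, h2, h4, h5, a1, a2, a3, a4, a5, a6, a7, a8⟩
  refine ⟨C.rch, C.kill, fun q y x ha hy hf => ?_, fun q y x ha hy hf t k => ?_⟩ <;>
    obtain ⟨k1, k2, k3, k4⟩ := C.face hy ha hf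
  · exact ⟨k2, k3, fun t k => (k4 t k).1⟩
  · refine ⟨k1, (k4 t k).2.1, (k4 t k).2.2.trans ?_⟩
    congr 3
    ext e
    simp [and_comm]

end Crest.Agent.X212.Sw21
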