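import Crest.Agent.X212.Rad94.Leaf
import Crest.Agent.X212.Gap6.Main
import Crest.Agent.X212.Map77.IxO
import Crest.Agent.X212.Ulc97.Geo

/-!
# Row 212, RAD-DIR (helper21): the Dirac operator of a piece with two ends

`dop b a` : the Dirac operator as an `Op`; `gm_ok`; `even_ind`; `dirStmt`.
-/

set_option autoImplicit false
set_option linter.unusedSectionVars false
noncomputable section
open scoped Manifold ContDiff Topology InnerProductSpace
open MeasureTheory Set Function Filter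

namespace Crest.Agent.X212.Sw21
open An An.Pre Sob92 Ell97 Cyf70 Sw Sw.En3 Rad94
open Map77 (Cls)
open Map77.S (In inB inZ ptE_nk mulE)
open M (Mf pm)

theorem even_fr {V : Type*} [AddCommGroup V] [Module ℝ V] (J : V →ₗ[ℝ] V) (h : ∀ v, J (J v) = -v) :
    Even (Module.finrank ℝ V) := by
  have e : J ∘ₗ J = (-1 : ℝ) • LinearMap.id := LinearMap.ext fun v => by simp [h]
  have h1 := congrArg LinearMap.det e
  rw [LinearMap.det_comp, LinearMap.det_smul, LinearMap.det_id, mul_one] at h1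
  refine Nat.not_odd_iff_even.1 fun k => ?_
  rw [k.neg_one_pow] at h1
  linarith [mul_self_nonneg (LinearMap.det J)]

/-- the index of a complex linear operator is even -/
theorem even_ind {E F : Type*} [NormedAddCommGroup E] [NormedSpace ℝ E] [NormedAddCommGroup F]
    [NormedSpace ℝ F] {T : E →L[ℝ] F} {J : E →L[ℝ] E} {J' : F →L[ℝ] F} (h : ∀ v, J (J v) = -v)
    (h' : ∀ v, J' (J' v) = -v) (e : ∀ v, T (J v) = J' (T v)) : Even (Fred93.ind T) := by
  rw [Fred93.ind, LinearMap.index_eq_finrank_sub]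
  refine Even.sub (Even.natCast (even_fr ((J : E →ₗ[ℝ] E).restrict fun v hv => ?_) fun v =>
    Subtype.ext (h v))) (Even.natCast (even_fr (Submodule.mapQ _ _ (J' : F →ₗ[ℝ] F) ?_) fun v => ?_))
  · exact (e v).trans (by rw [show T v = 0 from hv, map_zero])
  · rintro _ ⟨v, rfl⟩
    exact ⟨J v, e v⟩
  · induction v using Submodule.Quotient.induction_on with
    | H v => exact congrArg Submodule.Quotient.mk (h' v)

variable {κ lam ν : Type} [Fintype κ] [Fintype lam] [Fintype ν] [DecidableEq ν]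

section bg
variable {E : Type} [NormedAddCommGroup E] [NormedSpace ℝ E] [FiniteDimensional ℝ E]
  [MeasurableSpace E] [BorelSpace E]
  {HM : Type} [TopologicalSpace HM] {I : ModelWithCorners ℝ E HM}
  {M : Type} [TopologicalSpace M] [ChartedSpace HM M] [IsManifold I ∞ M] [MeasurableSpace M]
  {nc : ℕ} {b : Bg I M κ lam ν nc} {a : Option κ → M → ℝ} {u : M → Eu ν}

variable (b a) in
/-- the Dirac operator with mass -/
def dop : Op M (Option κ) (Eu ν) (Eu ν) := ⟨b.pp, b.pm, fun i x => b.m.ρ i x * b.pp x,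
  fun x => ∑ i, b.m.ρ i x * b.pp x * b.W ⟨a, 0⟩ i x + b.ms x⟩

theorem in_dop {K : Cls fun _ : Unit => b.F.toPre} (H : In (b := fun _ => b) K)
    (ha : ∀ i, K.mem fun _ => a i) : K.op fun _ => dop b a :=
  ⟨H.pp, H.pm, fun i => mulE (H.ρ i) H.pp,
    K.add (Cls.sum fun i => mulE (mulE (H.ρ i) H.pp) (H.W (c := fun _ => ⟨a, 0⟩) ha i)) H.ms⟩

/-- operators that commute with `J` -/
theorem app_J {F : Fr I M (Option κ)} {A : Op M (Option κ) (Eu ν) (Eu ν)} {J : En ν}
    (hσ : ∀ i x, Commute J (A.σ i x)) (hB : ∀ x, Commute J (A.B x)) (hu : Sm I u) (x : M) :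
    A.app F (fun y => J (u y)) x = J (A.app F u x) := by
  have e : ∀ i, F.D i (fun y => J (u y)) x = J (F.D i u x) := fun i => dv_clm _ (md hu x)
  simp only [Op.app, Pre.op, e, map_add, map_sum, ← mul_apply_eq_comp, (hσ _ x).eq, (hB x).eq]

variable (hb : b.OK)
include hb

theorem alg_dop : Map77.Alg b.F.P (dop b a) :=
  ⟨Op40.prjp hb, Op40.prjm hb, fun i x v => congrArg (b.m.ρ i x) ((Op40.prjp hb).idem x v),
    fun i _ v => Op40.mp hb i v, fun x v => by
      simp [dop, Op40.mp hb, Op40.pm_ms hb, -Fintype.sum_option], fun i x => by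
      ext1 v
      simpa [dop, hb.G.P, -Fintype.sum_option] using (Op40.pc hb x).sum_ρ i (b.pp x v)⟩

theorem tr_dop (i : Option κ) (x : M) (v : Eu ν) :
    Op.tr ((dop b a).σ i x) v = -b.m.ρ i x (b.pm x v) := ext_inner_left ℝ fun w => by
  rw [inner_tr, inner_neg_right, ← Op40.pm hb, ← (Op40.prjp hb).symm, ← (Op40.pc hb x).ρs,
    ← (Op40.prjm hb).symm, Op40.mp hb]
  rfl

theorem cliff_dop : (dop b a).Cliff b.F := by
  refine ⟨fun i j x v w => ?_, fun i j x v w => ?_⟩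
  · refine (Op40.inner_ρρ hb (v := b.pp x v) (w := b.pp x w)
      ((Op40.pc hb x).p_of ((Op40.prjp hb).idem x w)) i j).trans ?_
    rw [← (Op40.prjp hb).symm, (Op40.prjp hb).idem, hb.G.P]; rfl
  · simp only [Op.adj, _root_.neg_apply, tr_dop hb, neg_neg]
    refine (Op40.inner_ρρ hb (congrArg (· w) (Op40.pc hb x).p_pm) i j).trans ?_
    rw [← (Op40.prjm hb).symm, (Op40.prjm hb).idem, hb.G.P]; rfl

theorem app_dop (hu : Sm I u) (hp : ∀ x, b.pp x (u x) = u x) :
    (dop b a).app b.F u = b.eD ⟨a, u⟩ := funext fun x => by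
  have e : ∀ i, b.m.ρ i x (Wz78.nab I b.F.e (b.W ⟨a, u⟩) i u x) =
      b.m.ρ i x (b.pp x (b.F.D i u x)) + b.m.ρ i x (b.pp x (b.W ⟨a, 0⟩ i x (u x))) := fun i => by
    rw [← Op40.pp_nab hb (hu x) (.of_forall hp), ← map_add, ← map_add]; rfl
  simp only [Op.app, Pre.op, dop, Bg.eD, Wz78.dir, e, Finset.sum_add_distrib, _root_.add_apply,
    _root_.sum_apply, mul_apply_eq_comp, add_assoc]

theorem J_σ (i : Option κ) (x : M) : Commute b.m.J ((dop b a).σ i x) :=
  Commute.mul_right ((Op40.pc hb x).Jρ i) (Op40.pc hb x).J_pp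

theorem J_B (x : M) : Commute b.m.J ((dop b a).B x) :=
  Commute.add_right (Commute.sum_right _ _ _ fun i _ => (J_σ (a := a) hb i x).mul_right
    (Commute.add_right (hb.AJ i x) (Commute.smul_right
      ((Commute.refl _).mul_right (Op40.pc hb x).Jp) _))) (hb.msJ x)

theorem JJ (v : Eu ν) : b.m.J (b.m.J v) = -v := congrArg (· v) hb.m.Jsq

end bg

section en
variable {e : En3 κ lam ν} (he : e.OK) {l : ℝ}

variable (e) in
/-- the operator at the end -/
abbrev dE : Op e.Y.M (Option κ) (Eu ν) (Eu ν) := Op78.sl0 (dop e.cyl 0)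

theorem fz0 (φ : e.Y.M → Eu ν) : fz (⟨0, φ⟩ : e.YC) = ⟨0, fun x => φ x.1⟩ :=
  Cfg.ext (funext fun i => by cases i <;> rfl) rfl

theorem ay0 : Dl42.Ay (⟨0, 0⟩ : e.YC) :=
  ⟨fun _ => contMDiff_const, contMDiff_const, by simp, by simp⟩

include he

theorem app_dE (u : Sec e.Y.I (dE e).p) : (sop (dE e)).app e.D.F u.1 = A0 e u.1 :=
  funext fun y => by
    have h := app_dop (a := 0) he.cyl (sm_fst u.2.1) fun x => u.2.2.2 x.1
    have a := alg_dop (a := 0) he.cyl
    rw [Op78.app_sop _ u.2.1, tr_dop he.cyl, Rad94.A0, fz0, ← h]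
    refine congrArg (fun v => -e.m.ρ none y v) ?_
    change (dop e.cyl 0).q _ _ = _
    simp only [Op.app, Pre.op, map_add, map_sum, a.qσ, a.qB]
    rfl

theorem cyO_dE : CyO e.D.F (dE e) := by
  have H := in_dop (b := e.cyl) (a := 0) (inZ he) fun _ => Cls.const _ (0 : ℝ)
  have a := alg_dop (a := 0) he.cyl
  refine ⟨e.Y.dim.le, ?_, ?_, fun u v => ?_⟩
  · rw [Op78.cyo_sl0 H]
    exact good_of_cb (Op78.Iv.cb _ H.p) (Op78.Iv.cb _ H.q) (fun i => Op78.Iv.cb _ (H.σ i))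
      (Op78.Iv.cb _ H.B) a.p.idem a.p.symm a.q.idem a.q.symm a.σp a.qσ a.qB a.Pσ
  · rw [Op78.cyo_sl0 H]
    exact cliff_dop he.cyl
  · have k := fun u => Gap6.app_eq he (Gap6.ay_sec ay0 u)
    rw [app_dE he, app_dE he]
    exact (congrArg (e.D.F.ip 0 · v.1) (k u).symm).trans
      ((Gap6.sy he ay0 u v).trans (congrArg (e.D.F.ip 0 u.1) (k v)))

/-- the eigenspace -/
theorem mem_eg {u : Sec e.Y.I (dE e).p} : u ∈ kerS e.D.F
    { sop (dE e) with B := fun y => (sop (dE e)).B y - l • (dE e).p y } ↔ A0 e u.1 = l • u.1 := by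
  rw [← app_dE he, ← sub_eq_zero]
  refine Eq.congr_left (funext fun y => ?_)
  simp only [Op.app, Pre.op, Pi.sub_apply, Pi.smul_apply, _root_.sub_apply, smul_apply, u.2.2.2 y,
    add_sub_assoc]

theorem A0_J (u : Sec e.Y.I (dE e).p) : A0 e (fun y => e.m.J (u.1 y)) = fun y => e.m.J (A0 e u.1 y) :=
  funext fun y => by
    have h := app_dop (a := 0) he.cyl (sm_fst u.2.1) fun x => u.2.2.2 x.1
    have h' := app_dop (a := 0) he.cyl (u := fun x : e.Y.M × ℝ => e.m.J (u.1 x.1))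
      (e.m.J.contMDiff.comp (sm_fst u.2.1)) fun x => (Op40.pc he.cyl x).pp_J (u.2.2.2 x.1)
    rw [Rad94.A0, Rad94.A0, fz0, fz0, ← h, ← h', map_neg]
    exact congrArg Neg.neg ((congrArg _ (app_J (J_σ he.cyl) (J_B he.cyl) (sm_fst u.2.1) _)).trans
      ((Op40.pc he.cyl (y, 0)).J_ρ none _).symm)

theorem mult_two (h : Smp e) (h0 : 0 ≤ l) (hl : Ev e l) : Module.finrank ℝ (kerS e.D.F
    { sop (dE e) with B := fun y => (sop (dE e)).B y - l • (dE e).p y }) = 2 := by
  obtain ⟨φ, h1, h2⟩ := hl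
  let u : Sec e.Y.I (dE e).p := Gap6.sec (Dl42.ay_of h1.1)
  let v : Sec e.Y.I (dE e).p := ⟨fun y => e.m.J (φ y), e.m.J.contMDiff.comp u.2.1,
    .of_compactSpace _, fun y => (Op40.pc he.cyl (y, 0)).pp_J (u.2.2.2 y)⟩
  have hv : A0 e v.1 = l • v.1 := (A0_J he u).trans (funext fun y =>
    (congrArg e.m.J (congrFun h1.2 y)).trans (map_smul e.m.J l (φ y)))
  rw [← Complex.finrank_real_complex]
  refine (LinearEquiv.ofBijective (Complex.reLm.smulRight ⟨u, (mem_eg he).2 h1.2⟩ +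
    Complex.imLm.smulRight ⟨v, (mem_eg he).2 hv⟩) ⟨(injective_iff_map_eq_zero _).2 fun z hz => ?_,
      fun w => ?_⟩).finrank_eq.symm
  · obtain ⟨y, hy⟩ := ne_iff.1 h2
    have a := congrArg (fun w => w.1.1 y) hz
    change z.re • φ y + z.im • e.m.J (φ y) = 0 at a
    have s : ⟪e.m.J (φ y), φ y⟫_ℝ = -⟪φ y, e.m.J (φ y)⟫_ℝ := he.cyl.m.Jsk _ _
    have b := congrArg (⟪φ y, ·⟫_ℝ) a
    rw [real_inner_comm] at s
    simp only [inner_add_right, real_inner_smul_right, inner_zero_right,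
      show ⟪φ y, e.m.J (φ y)⟫_ℝ = 0 by linarith, mul_zero, add_zero] at b
    have c := (mul_eq_zero.1 b).resolve_right (real_inner_self_pos.2 hy).ne'
    have d := congrArg e.m.J a
    rw [c, zero_smul, zero_add, map_smul, show e.m.J (e.m.J (φ y)) = -φ y from JJ he.cyl _,
      map_zero] at d
    exact Complex.ext c ((smul_eq_zero.1 d).resolve_right (neg_ne_zero.2 hy))
  · obtain ⟨z, hz⟩ := h l h0 φ w.1.1 h1 ⟨(Gap6.ay_sec ay0 w.1).adm, (mem_eg he).1 w.2⟩ h2
    exact ⟨z, Subtype.ext (Subtype.ext hz.symm)⟩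

end en

variable {X : Mf 4} {nc : ℕ} {e : Bool → En3 κ lam ν} {Z : Pz X nc e} (z : Two Z) (h : Z.OK)
include h

theorem gm_ok : z.gm.OK := by
  refine ⟨h.bg.B, h.bg.G, h.bg.tame, h.vol, h.con, fun s => ⟨(h.en s).cyl.B, (h.en s).cyl.G⟩,
    fun s => (e s).con, fun s s' k => h.dj k _ (z.hK s) _ (z.hK s'), fun T =>
      (h.cpt (|T| + 1 + (|z.o false| + |z.o true|))).of_isClosed_subset ?_ ?_⟩
  · simp only [Gm.cor, ofPred_forall]
    exact isClosed_iInter fun s => isClosed_le (Ulc97.cont_ht _ s) continuous_const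
  · rintro _ hx i s K hK ho ⟨y, hy, rfl⟩
    obtain rfl := Option.mem_unique hK (z.hK i)
    have h1 := hx i
    have h2 : |T| + 1 + (|z.o false| + |z.o true|) < pm s * y.2 := hy.2.2
    rw [Gm.ht, (z.K i).tm_ψ y ((z.K i).mem_src.2 hy.2.1)] at h1
    have := z.hp i
    have := z.hq i
    cases i <;> cases s <;> simp_all [Nk.Inf, pm] <;>
      linarith [le_abs_self T, abs_nonneg (z.o false), abs_nonneg (z.o true), le_abs_self (z.o true),
        neg_abs_le (z.o false)]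

omit z h in
variable (κ lam ν) in
/-- **RAD-DIR** -/
theorem dirStmt : DirStmt κ lam ν := by
  intro X nc e Z z a₀ h ha hd
  have hb := h.bg
  have H := in_dop (inB hb) fun i _ _ => ha.2 i
  have k := fun s τ y (hτ : -1 < τ) => ptE_nk (z.K s) (Ulc97.mem_src (g := z.gm) hτ y)
  refine ⟨⟨dop Z.bg a₀, fun s => dE (e s)⟩, ⟨gm_ok z h, (Map77.good_of hb.tame.choose_spec
    (H.p () trivial) (H.q () trivial) (fun a => H.σ a () trivial) (H.B () trivial)
    (alg_dop hb)).imp fun _ k => k.2, cliff_dop hb, fun s => cyO_dE (h.en s),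
    fun s τ y hτ => (k s τ y hτ).pp, fun s τ y hτ => (k s τ y hτ).pm, fun s τ y a hτ =>
      congrArg₂ (· * ·) ((k s τ y hτ).ρ a) (k s τ y hτ).pp, fun s δ hδ => ?_⟩, rfl, rfl,
    fun _ _ => rfl, fun u hu => app_dop hb hu.1 hu.2, fun _ _ => ⟨rfl, rfl, fun _ => rfl⟩,
    fun s => ⟨Classical.arbitrary _, Gap6.q_ne (h.en s) _⟩, fun s => app_dE (h.en s),
    fun s l => (Submodule.ne_bot_iff _).trans ⟨fun ⟨u, h1, h2⟩ => ⟨u.1,
      ⟨(Gap6.ay_sec ay0 u).adm, (mem_eg (h.en s)).1 h1⟩, fun k => h2 (Subtype.ext k)⟩,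
      fun ⟨φ, h1, h2⟩ => ⟨Gap6.sec (Dl42.ay_of h1.1), (mem_eg (h.en s)).2 h1.2,
        fun k => h2 (congrArg Subtype.val k)⟩⟩, fun s hs l => mult_two (h.en s) hs,
    fun s l γ hg φ hφ μ δ h1 h2 h3 => ?_, fun l _ => ?_, fun _ _ k => congr_arg_heq dE k⟩
  · choose C hC using fun i => mulE (mulE ((inB hb).ρ i) (inB hb).pp) (inB hb).jp () trivial
    obtain ⟨T, hT⟩ := hd s (δ / (∑ i, |C i 0| + 1)) (by positivity)
    refine ⟨max T 0, fun τ hτ y => ?_⟩
    have h1 : -1 < τ := by linarith [le_max_right T 0]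
    have h2 := Ulc97.mem_src (g := z.gm) (s := s) h1 y
    have h3 : Map77.S.PtE (e s).cyl (y, 0) Z.bg (z.gm.pt s τ y) := k s τ y h1
    have h4 : ∀ i, Z.bg.A i (z.gm.pt s τ y) = (e s).cyl.A i (y, 0) := fun i =>
      ((z.K s).hA i _ h2).trans (by cases i <;> rfl)
    have h5 : Z.bg.ms (z.gm.pt s τ y) = (e s).cyl.ms (y, 0) := (z.K s).hms _ h2
    calc _ = ‖∑ i, a₀ i (z.gm.pt s τ y) • (Z.bg.m.ρ i (z.gm.pt s τ y) * Z.bg.pp (z.gm.pt s τ y) *
            Z.bg.jp (z.gm.pt s τ y))‖ := by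
          simp only [dop, Op78.sl0, Bg.W, ← h3.ρ, ← h3.pp, ← h4, ← h5, Pi.zero_apply, zero_smul,
            add_zero, mul_add, Finset.sum_add_distrib, mul_smul_comm]
          congr 1
          abel
      _ ≤ ∑ i, δ / (∑ i, |C i 0| + 1) * |C i 0| := norm_sum_le_of_le _ fun i _ => by
          rw [norm_smul]
          exact mul_le_mul ((PiLp.norm_apply_le (vc a₀ _) i).trans (hT τ (le_of_max_le_left hτ) y))
            ((CB_zero.1 ((hC i).2 0) _).trans (le_abs_self _)) (norm_nonneg _) (by positivity)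
      _ ≤ δ := by
          rw [← Finset.mul_sum, div_mul_eq_mul_div, div_le_iff₀ (by positivity)]
          nlinarith
  · have := hg (Gap6.sec (Dl42.ay_of hφ)) μ δ h1 h2 h3
    rwa [app_dE (h.en s)] at this
  · have r : ∀ k {p : X.M → En ν}, (∀ x, Commute Z.bg.m.J (p x)) →
        Z.bg.F.Rep (Z.bg.F.mulH k p p fun _ => Z.bg.m.J) fun u x => Z.bg.m.J (u x) := fun k p hp =>
      rep_mulH (Cb_const _) fun x v hv => by rw [← mul_apply_eq_comp, ← (hp x).eq]; exact congrArg _ hv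
    have j : ∀ k {p : X.M → En ν} (hp : ∀ x, Commute Z.bg.m.J (p x)) v, Z.bg.F.mulH k p p
        (fun _ => Z.bg.m.J) (Z.bg.F.mulH k p p (fun _ => Z.bg.m.J) v) = -v := fun k p hp =>
      DFunLike.congr_fun (RepT_eq (RepT_comp (r k hp) (r k hp)) (RepT_neg Rep_id) fun u =>
        funext fun x => JJ hb _)
    have jp : ∀ x, Commute Z.bg.m.J (Z.bg.pp x) := fun x => (Op40.pc hb x).J_pp
    have jm : ∀ x, Commute Z.bg.m.J (Z.bg.pm x) := fun x =>
      (Commute.add_right (Op40.pc hb x).Jp (Op40.pc hb x).J_om).smul_right _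
    refine even_ind (j 1 jp) (j 0 jm) fun v => ?_
    unfold Lop.T Op.H Pre.opH Pre.lift Pre.liftT
    split_ifs with k
    · exact DFunLike.congr_fun (RepT_eq (RepT_comp k.choose_spec (r 1 jp))
        (RepT_comp (r 0 jm) k.choose_spec) fun u => funext (app_J (A := Lop.sh _ l) (J_σ (a := a₀) hb)
          (fun x => ((J_B (a := a₀) hb x).add_right (Commute.zero_right _)).sub_right
            ((J_σ (a := a₀) hb none x).smul_right _)) u.2.1)) v
    · exact (map_zero _).symm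

end Crest.Agent.X212.Sw21
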