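import Crest.Agent.X212.Sw21.CylA

/-!
# Row 212, IX-REP/FRED/CYL (helper21), generic part: terms of order zero on a cylinder

`fr_lev`, `bij_lev` : the level does not matter.  `aY`, `KZ` : local part plus finite rank on the
cross-section and on the cylinder.  `fr_two` : the index of `∂_t + L + β a + γ b`.
-/

set_option autoImplicit false
set_option linter.unusedSectionVars false
noncomputable section
open scoped Manifold ContDiff Topology InnerProductSpace BoundedContinuousFunction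
open MeasureTheory Set Function Filter

namespace Crest.Agent.X212.Sw21
open An An.Pre Sob92 Cyf70 Ell97
open Fred93 (Fr)

theorem fr_two {X₁ X₀ Z : Type*} [NormedAddCommGroup X₁] [NormedSpace ℝ X₁] [CompleteSpace X₁]
    [NormedAddCommGroup X₀] [InnerProductSpace ℝ X₀] [CompleteSpace X₀] [NormedAddCommGroup Z]
    [NormedSpace ℝ Z] [CompleteSpace Z] {i L : X₁ →L[ℝ] X₀} {J : Z →L[ℝ] Lam X₁}
    {T : Z →L[ℝ] Lam X₀} (h : CylD 1 i L J T) {σ σ' β γ : ℝ →ᵇ ℝ} {r R : ℝ} (hσ : Stp σ σ' r)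
    {a b : X₀ →L[ℝ] X₀} (ha : a ∈ SymA X₀) (hb : b ∈ SymA X₀) (ha' : Bijective (Crt72.Op i L a))
    (hb' : Bijective (Crt72.Op i L b)) (hβ : ContDiff ℝ ∞ β) (hγ : ContDiff ℝ ∞ γ) (hR : r ≤ R)
    (lo : ∀ t ≤ -R, β t = 1 ∧ γ t = 0) (hi : ∀ t ≥ R, β t = 0 ∧ γ t = 1) :
    Fr (Dz i L J T (ma β a + ma γ b)) (sf i L J T σ a b) := by
  obtain ⟨s, hs⟩ := h.exists_mul hσ.der
  have hf := fr_gl (h.lim_cp hσ (fun u => (hs u).1) ha ha') (h.lim_cp hσ (fun u => (hs u).1) hb hb')
  have c : ∀ f : ℝ →ᵇ ℝ, (∀ t ≤ -R, f t = 0) → (∀ t ≥ R, f t = 0) → HasCompactSupport f :=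
    fun f h1 h2 => HasCompactSupport.intro (isCompact_Icc (a := -R) (b := R)) fun t ht =>
      (not_and_or.1 ht).elim (fun k => h1 t (not_le.1 k).le) fun k => h2 t (not_le.1 k).le
  have c1 := h.cq_mt (b := β - 1 + σ) ((hβ.sub contDiff_const).add hσ.sm) (c _
    (fun t ht => by simp [(lo t ht).1, hσ.lo t (by linarith)])
    fun t ht => by simp [(hi t ht).1, hσ.hi t (by linarith)])
  have c2 := h.cq_mt (b := γ - σ) (hγ.sub hσ.sm) (c _
    (fun t ht => by simp [(lo t ht).2, hσ.lo t (by linarith)])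
    fun t ht => by simp [(hi t ht).2, hσ.hi t (by linarith)])
  rw [gl_Dz] at hf
  refine Cq.fr (((Cq.refl (Dz i L J T (cp a + Cyf70.mt X₀ σ ∘L (cp b - cp a)))).add
    ((c1.left (cp a)).add (c2.left (cp b)))).congr (fun u => ?_) fun u => by simp) hf
  simp only [Dz_apply, ContinuousLinearMap.comp_apply, _root_.add_apply, _root_.sub_apply, map_sub,
    map_add, ma_ma, ma_add, ma_sub, one_mul, mul_one, ContinuousLinearMap.id_comp]
  abel

section lev
variable {E : Type} [NormedAddCommGroup E] [NormedSpace ℝ E] [FiniteDimensional ℝ E]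
  [MeasurableSpace E] [BorelSpace E]
  {HM : Type} [TopologicalSpace HM] {I : ModelWithCorners ℝ E HM} [I.Boundaryless]
  {M : Type} [TopologicalSpace M] [ChartedSpace HM M] [IsManifold I ∞ M] [T2Space M]
  [MeasurableSpace M] [BorelSpace M] [SecondCountableTopology M] {ι : Type} [Fintype ι]
  {V W : Type} [NormedAddCommGroup V] [InnerProductSpace ℝ V] [NormedAddCommGroup W]
  [InnerProductSpace ℝ W] [FiniteDimensional ℝ V] [FiniteDimensional ℝ W]
  {G : Fr I M ι} {A : Op M ι V W} {C C' : ℕ → ℝ} (hG : G.Tame C) (hA : A.Good G C')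
  (hc : A.CliffL G) {K : ∀ k, G.H k A.p →L[ℝ] G.H k A.q} {f : (M → V) → M → W}
  (hK : ∀ k, G.Rep (K k) f)
include hA hK

theorem rep_lev (k : ℕ) :
    G.Rep (A.H G k + K k ∘L G.incl (k + 1) k A.p) fun u => A.app G u + f u :=
  RepT_add (rep_OpH hA k).1 (RepT_comp (hK k) (rep_incl k.le_succ))

omit hA in
theorem gain_lev (k : ℕ) : K k ∘L G.incl (k + 1) k A.p = G.incl (k + 1) k A.q ∘L K (k + 1) :=
  ContinuousLinearMap.ext fun u => (Rep_incl (hK (k + 1)) (hK k) k.le_succ k.le_succ u).symm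

include hG hc

theorem fr_lev {n : ℤ} (H : Fr (A.H G 0 + K 0 ∘L G.incl 1 0 A.p) n) (k : ℕ) :
    Fr (A.H G k + K k ∘L G.incl (k + 1) k A.p) n := by
  have := FiniteDimensional.complete ℝ V
  have := FiniteDimensional.complete ℝ W
  induction k with
  | zero => exact H
  | succ k ih =>
    have := transfer (incl_injective (k + 1).le_succ) (incl_injective k.le_succ)
      (denseRange_incl k.le_succ) (Rep_incl (rep_lev hA hK (k + 1)) (rep_lev hA hK k)
        (k + 1).le_succ k.le_succ) (fun u w e => (reg_up hG hA hc k.le_succ (w := w - K (k + 1) u)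
          (by rw [map_sub, ← e, gain_lev hK]; simp)).imp fun _ h => h.1)
      (fred_iff_isFredholm.2 ih.1)
    exact ⟨fred_iff_isFredholm.1 this.1, this.2.1.trans ih.2⟩

theorem bij_lev (H : Bijective (A.H G 0 + K 0 ∘L G.incl 1 0 A.p : G.H 1 A.p →L[ℝ] G.H 0 A.q))
    (k : ℕ) :
    Bijective (A.H G k + K k ∘L G.incl (k + 1) k A.p : G.H (k + 1) A.p →L[ℝ] G.H k A.q) := by
  have e := Rep_incl (rep_lev hA hK k) (rep_lev hA hK 0) (by omega) k.zero_le
  have h1 : Injective (A.H G k + K k ∘L G.incl (k + 1) k A.p : G.H (k + 1) A.p →L[ℝ] G.H k A.q) :=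
    fun x y hxy => incl_inj G (by omega : 1 ≤ k + 1) _
      (H.1 ((e x).symm.trans ((congrArg _ hxy).trans (e y))))
  exact ⟨h1, (fr_lev hG hA hc hK (.of_bijective H) k).surj_of_inj h1⟩

end lev

variable {E : Type} [NormedAddCommGroup E] [NormedSpace ℝ E] [FiniteDimensional ℝ E]
  [MeasurableSpace E] [BorelSpace E]
  {HM : Type} [TopologicalSpace HM] {I : ModelWithCorners ℝ E HM} [I.Boundaryless]
  {Y : Type} [TopologicalSpace Y] [ChartedSpace HM Y] [IsManifold I ∞ Y] [T2Space Y]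
  [MeasurableSpace Y] [BorelSpace Y] [SecondCountableTopology Y] [CompactSpace Y]
  {ι : Type} [Fintype ι]
  {V W : Type} [NormedAddCommGroup V] [InnerProductSpace ℝ V] [NormedAddCommGroup W]
  [InnerProductSpace ℝ W] [FiniteDimensional ℝ V] [FiniteDimensional ℝ W]
  (F : Fr I Y ι) {A : Op Y (Option ι) V W} {α : Type} [Fintype α] (B : Y → V →L[ℝ] V)
  (g : α → Sec I A.p) (c : α → ℝ)

/-- local part plus finite rank, on functions -/
def aF (u : Y → V) (y : Y) : V :=
  B y (u y) + ∑ j, (c j * ∫ z, ⟪(g j).1 z, u z⟫_ℝ ∂F.μ) • (g j).1 y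

/-- on `L²` of the cross-section -/
def aY : F.H 0 A.p →L[ℝ] F.H 0 A.p := F.mulH 0 _ _ B + aH F g c

/-- on the cylinder -/
def KZ (k : ℕ) : (cylP F.toPre).H k (pc A.p) →L[ℝ] (cylP F.toPre).H k (pc A.q) :=
  (cylP F.toPre).mulH k _ _ (fun x => A.σ none x.1 ∘L B x.1) + KH F g c k

variable {F B} (hB : Sm I B)
include hB

theorem rep_aY (hp : ∀ y u, A.p y (B y u) = B y u) : F.Rep (aY F B g c) (aF F B g c) :=
  RepT_add (rep_mulH (Cb_of_compact hB) (Maps.of_left hp)) (S := fun u y =>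
    ∑ j, (c j * ∫ z, ⟪(g j).1 z, u z⟫_ℝ ∂F.μ) • (g j).1 y) fun u =>
      ⟨∑ j, (c j * ∫ z, ⟪(g j).1 z, u.1 z⟫_ℝ ∂F.μ) • g j, funext fun y => by simp, by
        simp [aH_apply, inner_toH, ip]⟩

theorem sym_aY (hp : ∀ y u, A.p y (B y u) = B y u) (hs : ∀ y u v, ⟪B y u, v⟫_ℝ = ⟪u, B y v⟫_ℝ) :
    aY F B g c ∈ SymA (F.H 0 A.p) := by
  refine (SymA _).add_mem (fun x y => ?_) fun x y => ?_
  · have r := rep_mulH (F := F.toPre) (k := 0) (p := A.p) (Cb_of_compact hB) (Maps.of_left hp)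
    induction x, y using H_ind₂ with
    | hP => exact isClosed_eq (by fun_prop) (by fun_prop)
    | h u v =>
      rw [RepT_toH r, RepT_toH r, inner_toH, inner_toH]
      exact integral_congr_ae (ae_of_all _ fun x => hs _ _ _)
  · simp only [aH_apply, sum_inner, inner_sum, real_inner_smul_left, real_inner_smul_right]
    exact Finset.sum_congr rfl fun j _ => by rw [real_inner_comm x]; ring

theorem rep_KZ (h : CyO F A) (k : ℕ) : (cylP F.toPre).Rep (KZ F B g c k) fun u x =>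
    A.σ none x.1 (aF F B g c (fun y => u (y, x.2)) x.1) :=
  RepT_congr (RepT_add (rep_mulH (Cht98.Cb_fst _ (Cb_of_compact ((h.sm_σ none).clm_comp hB)))
    (Maps.of_left fun x _ => h.good.choose_spec.qσ none x _)) (rep_KH g c h k))
    fun u => funext fun x => by simp [aF]

theorem KL_KZ (h : CyO F A) (hp : ∀ y u, A.p y (B y u) = B y u) {b : ℝ →ᵇ ℝ}
    (hb : (cylP F.toPre).Cb fun x => b x.2) :
    h.KL (smulH _ 0 _ (fun x => b x.2) ∘L KZ F B g c 0) = ma b (aY F B g c) := by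
  refine ContinuousLinearMap.ext fun x => ?_
  obtain ⟨x, rfl⟩ := Ψ_surj x
  rw [h.KL_Ψ, h.U_apply]
  induction x using H_ind with
  | hP => exact isClosed_eq (by fun_prop) (by fun_prop)
  | h u =>
    rw [RepT_toH (RepT_comp (rep_smulH hb) (rep_KZ g c hB h 0)), RepT_toH h.rep_NH]
    refine (R_Ψ _).ext' ((R_Ψ u).ma b _) fun t => ?_
    rw [RepT_toH (rep_aY g c hB hp), ← map_smul]
    refine congrArg _ (Subtype.ext (funext fun y => ?_))
    exact (map_smul _ _ _).trans (congrArg (b t • ·) ((h.nu_σ _ _).trans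
      ((RepT_mem (rep_aY g c hB hp) (slc u t)).2.2 y)))

end Crest.Agent.X212.Sw21
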