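import Crest.Agent.X212.Kl48.Led
import Crest.Agent.X212.Rf65.Pr

/-!
# Row 212, KILL-R (helper21): the excess of a part, one piece at a time
-/

set_option autoImplicit false
set_option linter.unusedSectionVars false
noncomputable section
open scoped Manifold ContDiff Topology
open MeasureTheory Set Function Filter Classical

namespace Crest.Agent.X212.Sw21
open An M Nd18 Rdc90 Rf65 Cyl58 G75 Ins26 Kl48
open An.Job (Sol SolOn)

section geo
variable {X A : Type} [TopologicalSpace X] [PreconnectedSpace X] [Nonempty X] [Fintype A]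
  [DecidableEq A] {S : Sys X A} {c : Set A} {L : Finset A} {a l : A} {ρ : Reg A}

theorem lfS (hc : S.Cell c) (hL : ↑L ⊆ c)
    (h : ∀ l ∈ L, ∀ a ∈ c, a ≠ l → (S.w a).band ⊆ (S.w l).sd true) :
    Lf S c (Finset.univ.filter (· ∈ c \ L)) L :=
  ⟨hc, fun a => by
    rw [Finset.mem_filter]
    exact ⟨fun k => (Classical.em _).symm.imp (⟨Finset.mem_univ _, k, ·⟩) id, fun k => k.elim (·.2.1) (hL ·)⟩,
    fun _ k => (Finset.mem_filter.1 k).2.2, h⟩

theorem lf1 (hc : S.Cell c) (hl : l ∈ c) (h : ∀ a ∈ c, a ≠ l → (S.w a).band ⊆ (S.w l).sd true) :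
    S.Piece c (hp l false) ∧ ∀ ρ, S.Piece c ρ → S.U ρ ⊆ (S.w l).sd false → ρ = hp l false :=
  have k := lfS (L := {l}) hc (by simpa) (by simpa)
  ⟨k.piece_hp (Finset.mem_singleton_self _), fun _ => k.eq_hp (Finset.mem_singleton_self _)⟩

theorem not_self (b : Bool) : ¬(S.w a).band ⊆ (S.w a).sd b := fun h =>
  let ⟨_, k⟩ := (S.w a).ne (!b)
  (S.w a).not_mem_sd (h k.1) k.2

theorem not_tf {U : Set X} (h : U.Nonempty) (k : U ⊆ (S.w a).sd true) : ¬U ⊆ (S.w a).sd false :=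
  fun k' => let ⟨_, i⟩ := h; (S.w a).not_mem_sd (k i) (k' i)

theorem inn_hp {b : Bool} (e : a ≠ l) (h : (S.w a).band ⊆ (S.w l).sd b) (k : S.Cmp a l) :
    a ∈ S.inn (hp l b) :=
  ⟨hp_none.2 e, h.trans U_hp.ge, fun _ i => by_contra fun j => i (hp_none.2 fun m => j (m ▸ k))⟩

end geo

section job
variable {Wi : Type} {X : Mf 4} {A κ lam : Type} [Fintype A] [Fintype κ] [Fintype lam]
  [DecidableEq lam] {M : Mark X A κ} {W : World M} {N : ML M lam} {Λ : Lns W N}
  {A' h : Type} [Fintype A'] [DecidableEq A'] [Fintype h] {r n : ℕ}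
  {J : Job Wi Λ A' h r n} {c : M.Cl} {δ ε : ℝ} {y z : J.Obc c} {P : Set (Reg A)} {π : Reg A}
  {σ : Cel A'} {q : Wi →₀ ℝ} {sh : Set A'} {a : A}

theorem anh_go (H : AnH J c δ sh σ) (hy : Sol σ q y) (hP : P ⊆ Pc c) : Go δ y P :=
  go_mono (H.dec _ _ q y H.mem (H.loc.pok _ H.mem c _ _ y.H (fun _ => id) subset_rfl)
    (solOn hy subset_rfl fun _ k i => (i k).elim)).1 hP

theorem anh_bs (H : AnH J c δ sh σ) (hy : Sol σ q y) (ha : a ∈ cylW c) (b : Bool) :
    Bs (J.xs a).D (y.β a b) :=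
  have := M.con
  let ⟨ρ, k⟩ := (Sys.existsUnique_adj c.2 ha.1 b).exists
  (anh_go H hy subset_rfl).bs (⟨a, ha⟩, b) ⟨ρ, k⟩

theorem anh_brk (H : AnH J c δ sh σ) (hy : Sol σ q y) (ha : a ∈ cylW c) :
    (J.xs a).N.Brk (J.xs a).D 0 (y.β a false) (y.ζ a false) (y.β a true) (y.ζ a true) (y.k a) (y.j a) := by
  simpa [Xs.q, (H.pj.nil a ha).2] using hy.brk a ha

theorem fil_zero (h : Fil δ 0 y z a π) : Fil δ ε y z a π :=
  { h with ea := ⟨h.ea.int, h.ea.le.trans (mul_le_mul_of_nonneg_right (by simpa using sq_nonneg ε)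
      (integral_nonneg fun _ => sq_nonneg _))⟩ }

theorem du_nonneg : 0 ≤ du y a := by
  unfold du
  split_ifs with h
  · simp
  · have := (not_or.1 h).1
    omega

theorem xs_noz {H : Set h} : xs δ y.noz (J.prt sh σ c {π} ∅ H) = xs δ y (J.prt sh σ c {π} ∅ H) := by
  simp only [xs, Job.prt, ix, finsum_mem_singleton, finsum_mem_empty, ia_noz]
  rfl

/-- the number of moving limits -/
def uu (y : J.Obc c) (P : Set (Reg A)) : ℕ := (ky (jz y) '' (EdP c P \ cz y)).ncard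

theorem card_uu : Fintype.card (UU P (cz y) (jz y)) = uu y P := by
  rw [← Nat.card_eq_fintype_card]
  exact (Nat.card_coe_set_eq {u | ∃ i ∈ EdP c P, i ∉ cz y ∧ ky (jz y) i = u}).trans
    (congrArg ncard (Set.ext fun _ => exists_congr fun _ => and_assoc.symm))

theorem xs_eq {P' : Set (Reg A)} {H : Set h} : xs δ y (J.prt sh σ c P P' H) =
    ix δ y P P' + (J.lv sh σ c P).ncard + uu y P - 2 * (J.cs P H).ncard - stb y P := by
  rw [← card_uu]; rfl

theorem edp_ins : EdP c (insert π P) = EdP c P ∪ EdP c {π} := by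
  ext i; simp [EdP, or_comm]

theorem uu_le {i : Ed c} (h : EdP c {π} = {i}) : uu y (insert π P) ≤ uu y P + 1 := by
  refine (ncard_le_ncard ?_).trans (ncard_insert_le (ky (jz y) i) _)
  rintro _ ⟨j, ⟨k, k'⟩, rfl⟩
  rw [edp_ins, h] at k
  exact k.symm.imp (congrArg _) (mem_image_of_mem _ ⟨·, k'⟩)

theorem uu_eq (h : ∀ i ∈ EdP c {π}, i ∉ cz y → ∃ j ∈ EdP c P \ cz y, ky (jz y) j = ky (jz y) i) :
    uu y (insert π P) = uu y P := by
  refine congrArg ncard (Subset.antisymm ?_ (image_mono (sdiff_subset_sdiff_left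
    (subset_union_left.trans edp_ins.ge))))
  rintro _ ⟨j, ⟨k, k'⟩, rfl⟩
  exact (edp_ins.le k).elim (mem_image_of_mem _ ⟨·, k'⟩) (h j · k')

theorem cs_le {H : Set h} : (J.cs P H).ncard ≤ (J.cs (insert π P) H).ncard :=
  ncard_le_ncard fun _ k => ⟨k.1, k.2.trans (biUnion_subset_biUnion_left (subset_insert _ _))⟩

/-- **one more piece** -/
theorem xs_ins (hs : ∀ a ∈ sh, J.hd a = none) (hP : P ⊆ Pc c) (hπ : π ∈ Pc c) (k : π ∉ P) (H : Set h) :
    xs δ y (J.prt sh σ c (insert π P) (insert π P) H) = xs δ y (J.prt sh σ c P P H) +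
      ia δ y π + idr δ y π + (J.lv ∅ σ c {π}).ncard + (uu y (insert π P) - uu y P) -
      2 * ((J.cs (insert π P) H).ncard - (J.cs P H).ncard) - stb y {π} := by
  have := M.con
  have e1 : (J.lv sh σ c (insert π P)).ncard = (J.lv sh σ c P).ncard + (J.lv ∅ σ c {π}).ncard := by
    rw [← ncard_union_eq]
    · congr 1; ext a; simp only [Job.lv, mem_ofPred_eq, mem_union, mem_insert_iff, mem_singleton_iff,
        exists_eq_or_imp, exists_eq_left, mem_empty_iff_false, false_or, ← and_or_left, or_assoc]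
      rw [or_comm (a := ∃ x ∈ M.sys.inn π, _)]
    refine disjoint_left.2 ?_
    rintro a ⟨-, -, i⟩ ⟨-, -, i' | ⟨_, rfl, x, j, e⟩⟩
    · exact i'
    rcases i with i | ⟨ρ, i, x', j', e'⟩
    · cases (hs a i).symm.trans e
    · obtain rfl := Option.some.inj (e.symm.trans e')
      exact k (inn_uniq c.2 hπ (hP i) j j' ▸ i)
  have e2 : stb y (insert π P) = stb y P + stb y {π} := by
    change ∑ᶠ i ∈ EdP c (insert π P), _ = _
    rw [edp_ins]
    exact finsum_mem_union (disjoint_left.2 fun i ⟨ρ, j, e⟩ ⟨_, j', e'⟩ => k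
      ((Sys.existsUnique_adj c.2 i.1.2.1 i.2).unique ⟨hP j, e⟩ ⟨hπ, j' ▸ e'⟩ ▸ j)) (toFinite _) (toFinite _)
  simp only [xs_eq, ix, e1, e2, finsum_mem_insert _ k (toFinite _)]
  push_cast
  ring

theorem xs_empty (hn : ∀ i, (J.nb i).Nonempty) {H : Set h} : 0 ≤ xs δ y (J.prt sh σ c ∅ ∅ H) := by
  have : J.cs (∅ : Set (Reg A)) H = ∅ := eq_empty_of_forall_notMem fun i k =>
    (hn i).not_subset_empty (by simpa using k.2)
  simp [xs_eq, ix, stb, this, add_nonneg]

end job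

end Crest.Agent.X212.Sw21
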