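import Crest.Agent.X212.Sw21.KrA

/-!
# Row 212, KILL-R (helper21): the pieces of a face with the broken wall `R`, the core
-/

set_option autoImplicit false
set_option linter.unusedSectionVars false
noncomputable section
open scoped Manifold ContDiff Topology
open MeasureTheory Set Function Filter Classical

namespace Crest.Agent.X212.Sw21
open An M Nd18 Rdc90 Rf65 Cyl58 G75 Ins26 Kl48
open An.Job (Sol SolOn)

variable {κ lam : Type} [Fintype κ] [Fintype lam] [DecidableEq lam] {Lm : LM κ lam} {S : Scene Lm}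
  {D : S.Dat} {i : S.L} {Wi : Type} {r n : ℕ} {J : Job Wi (D.Λ i) (S.A ⊕ Unit) S.ls r n} {c : S.M.Cl}
  {δ ε K₀ T : ℝ} {Adm : (Wi →₀ ℝ) → Prop} {R : S.A} {E : Finset S.A} {b z j : ℕ} {n₀ : ℤ}
  {τ σ : Finset S.A} {o : Option Bool} {q : Wi →₀ ℝ} {y : J.Obc c} {a e l x : S.A} {ι ρ π : Reg S.A}
  {f : Fls J c} {U : Set S.X.M}

theorem ou_R : Ou (some R) U ↔ U ⊆ (S.M.sys.w R).sd true := by simp [Ou]

theorem ou_no : Ou (none : Option S.A) U := fun _ h => by cases h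

theorem nb_ne (l : S.ls) : (S.nb l).Nonempty := ((S.M.sys.w l).ne false).mono inter_subset_right

/-- the caps inside `R` -/
def Cp (c : S.M.Cl) (R : S.A) : Set (Reg S.A) :=
  {ρ ∈ Pc c | S.M.sys.U ρ ⊆ (S.M.sys.w R).sd false ∧ ρ R ≠ some false}

/-- the number of dropped cuts inside `R` -/
def di (y : J.Obc c) (R : S.A) : ℕ := {l ∈ J.unc c | l ∉ y.H ∧ ¬Ou (some R) (S.nb l)}.ncard

/-- the fillers: from `LixAt` at the lens walls, `y` itself at `R` -/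
structure FL (δ ε : ℝ) (R : S.A) (y : J.Obc c) (ι : Reg S.A) (f : Fls J c) : Prop where
  i : f.ι R = ι
  z : f.z R = y
  e : f.e R = 0
  ls : ∀ a ∈ cylW c, a ≠ R → f.ι a = hp a false ∧ Fil δ ε y (f.z a) a (hp a false) ∧
    y.kap (D.W.pc c (hp a false)) + y.k a = (f.z a).kap (D.W.pc c (hp a false)) + f.e a ∧
    1 ≤ ia δ (f.z a) (hp a false) + 8 * (f.e a + drp y a) ∧
    2 ≤ ia δ (f.z a) (hp a false) + idr δ (f.z a) (hp a false) + 6 * (f.e a + drp y a)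

variable (J c δ ε K₀ T Adm R E b z j n₀ τ σ o) in
/-- the standing hypotheses -/
structure Cr : Prop extends HR J c δ (cel τ o) Adm R E b z j n₀ T where
  sub : τ ⊆ σ
  ms : σ ∈ S.K i
  hd : ↑τ ⊆ hard S {R}
  num : n₀ + σ.card + sf o ≤ 1
  eps : EpsAt J ε Adm
  py : PY (J.xs R).D 1
  gap : Gap J R
  flc : Flc J c
  inn : InnAt J c δ (cel τ o) Adm R E b z
  fnw : FnW J c δ (shX S {R}) (cel τ o) n₀
  k0 : KcAt J c δ ε K₀ (shX S {R}) (cel τ o) none j J.k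
  k1 : KcAt J c δ ε K₀ (shX S {R}) (cel τ o) (some R) j (J.k - z / 4)

namespace Cr
variable (H : Cr J c δ ε K₀ T Adm R E b z j n₀ τ σ o)
include H

theorem Rc : R ∈ cylW c := let ⟨_, _, k⟩ := H.ri.rw; ⟨H.mem, k.np⟩

theorem nl : R ∉ S.ls := let ⟨_, _, k⟩ := H.ri.rw; k.nl

theorem cmp (hl : l ∈ S.ls) : S.M.sys.Cmp R l := let ⟨_, _, k⟩ := H.ri.rw; k.cmp l hl

theorem lens (hl : l ∈ S.ls) (k : l ∈ c.1) : hp l false ∈ Pc c ∧
    ∀ ρ ∈ Pc c, S.M.sys.U ρ ⊆ (S.M.sys.w l).sd false → ρ = hp l false :=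
  lf1 c.2 k fun a ha e => H.gx.sc.lsi l hl a e (c.2 ha k e)

theorem rt (hρ : ρ ∈ Pc c) (h : ∀ l ∈ S.ls, ρ l ≠ some false) : RT J c (cel τ o) ρ :=
  fun s hs k => ((H.gx.rich _ H.an.mem s hs c k (by simp)).2 ρ hρ).1 h

theorem ntf (ha : Adm q) (hy : Sol (cel τ o) q y) (hρ : ρ ∈ Pc c) (hl : l ∈ S.ls)
    (h : ρ l = some false) : ¬y.TF ρ :=
  have k := hρ.bd_subset (Sys.mem_bd_of h)
  (H.lens hl k).2 ρ hρ (fun _ p => p l _ h) ▸ (H.lix.2 _ H.an.mem q y ⟨l, hl⟩ ha hy k).1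

theorem rch : Rch J c (cel τ o) Adm :=
  ⟨fun s hs k => (H.gx.rich _ H.an.mem s hs c k (by simp)).1, fun s hs k π hπ l i => by
    rw [H.gx.nb] at i
    exact ((H.gx.rich _ H.an.mem s hs c k (by simp)).2 π hπ).2 l i, fun ρ hρ =>
    or_iff_not_imp_right.2 fun k => H.rt hρ fun _ hl h => k fun _ _ ha hy => H.ntf ha hy hρ hl h⟩

theorem sh0 : ∀ a ∈ shX S {R}, J.hd a = none := by
  rw [H.gx.hd]
  rintro (a | u) k
  exacts [if_neg fun i => k a i rfl, rfl]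

/-- every lens wall is outside or inside `R` -/
theorem side (l : S.ls) : l.1 ∈ lsI S R ↔ ¬Ou (some R) (S.nb l) := by
  rw [ou_R, lsI, Finset.mem_filter, and_iff_right l.2]
  refine ⟨fun k i => not_tf (nb_ne l) i (subset_union_left.trans k), fun k => ?_⟩
  have m := H.cmp l.2
  obtain ⟨_ | _, e⟩ := Wall.exists_side m
  exacts [Wall.nest m.symm (H.gx.sc.lsi l l.2 R (fun e => H.nl (e ▸ l.2)) m) e,
    (k (subset_union_left.trans (Wall.nest m.symm (H.gx.sc.lsi l l.2 R (fun e => H.nl (e ▸ l.2)) m) e))).elim]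

theorem eps' (ha : Adm q) (hy : Sol (cel τ o) q y) (hπ : π ∈ Pc c) (h : ¬y.TF π) :
    EA ε y π ∧ 0 ≤ y.kap (D.W.pc c π) ∧ (y.kap (D.W.pc c π) = 0 → Fl y π) :=
  H.eps _ H.an.mem c q y π ha hy hπ h fun a _ => H.gx.nil a (by simp)

theorem ok (p : Prt S.A (S.A ⊕ Unit) S.ls) : (Ok δ y p ↔ 0 ≤ 2 * j + xs δ y p) ∧
    dmy δ y p = 2 * j + xs δ y p + 1 + stb y p.P := by
  have := H.gx.r
  rw [ok_iff]
  simp only [dmy, dm, xs]
  omega

section sol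
variable (hy : Sol (cel τ o) q y)
include hy

theorem c_sub (ha : a ∈ c.1) : a ∈ τ := by
  obtain ⟨a' | u, h1, h2⟩ := H.an.ok.inf _ H.an.mem _ (J.cl_dom hy.cell) a (hy.inf.ge ha) <;>
    rw [H.gx.hd] at h1
  · obtain rfl : a' = a := by simpa using (Option.ite_none_right_eq_some.1 h1).2
    exact by_contra fun k => by simpa [h2, b01] using hy.cell.1 (.inl a') false (if_neg k)
  · cases h1

theorem out (ha : a ∈ τ) : a = R ∨ a ∈ E ∨ (S.M.sys.w a).band ⊆ (S.M.sys.w R).sd true :=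
  H.ri.out σ H.ms (H.sub (H.c_sub hy H.mem)) a (H.sub ha)

theorem cyl (ha : a ∈ cylW c) (h : a ≠ R) : a ∈ S.ls :=
  ((H.hd (H.c_sub hy ha.1)).resolve_left ha.2).resolve_right fun k => h (Finset.mem_singleton.1 k)

theorem nn : ∀ a ∈ cylW c, ∀ a' ∈ cylW c, a ≠ a' →
    (S.M.sys.w a').band ⊆ (S.M.sys.w a).sd true := fun a ha a' ha' e => by
  by_cases k : a = R
  · subst k
    exact ((H.out hy (H.c_sub hy ha'.1)).resolve_left e.symm).resolve_left fun k =>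
      ha'.2 (H.ri.pin _ k).1
  · exact H.gx.sc.lsi a (H.cyl hy ha k) a' e.symm (c.2 ha'.1 ha.1 e.symm)

/-- a piece inside a broken cylindrical wall has no other cylindrical end -/
theorem end1 (hρ : ρ ∈ Pc c) (ha : a ∈ cylW c) (h : ρ a = some false) (hl : l ∈ cylW c)
    (k : ρ l ≠ none) : l = a := by_contra fun e =>
  not_both (H.nn hy a ha l hl (Ne.symm e)) (hρ.toIsReg.band_subset e h k)

theorem outer (ha : a ∈ cylW c) : ∃ ρ ∈ Rl (some R) c, ρ a = some true := by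
  obtain ⟨ρ, h, k⟩ := (Sys.existsUnique_adj c.2 ha.1 true).exists
  refine ⟨ρ, ⟨h, ou_R.2 ?_, fun l hl i => ?_⟩, k⟩
  · by_cases e : a = R
    · exact e ▸ fun _ p => p a _ k
    obtain ⟨_ | _, m⟩ := h.side c.2 H.mem
    · obtain ⟨p, hp⟩ := (S.M.sys.w a).ne true
      exact (Wall.not_mem_sd _ (m (h.adj a _ k hp)) (H.nn hy R H.Rc a ha (Ne.symm e) hp.1)).elim
    · exact m
  · obtain rfl := H.end1 hy h hl i ha (k ▸ nofun)
    cases i.symm.trans k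

theorem dzR (s : Bool) : dh (J.xs R).D (y.β R s) = dz (J.xs R).D (y.β R s) ∧
    (dz (J.xs R).D (y.β R s) = 1 ∨ dz (J.xs R).D (y.β R s) = 3) :=
  have k := anh_bs H.an hy H.Rc s
  have k' := (H.an.wl R _ 1 k.ok (H.an.pj.nil R H.Rc).1 H.py).2.1 _ k
  ⟨k'.1.trans (one_mul _), k'.2.resolve_left (H.an.ab R H.Rc _ k)⟩

theorem duR : du y R = 0 ∧ dz (J.xs R).D (y.β R true) = 1 ∨
    du y R = 3 ∧ dz (J.xs R).D (y.β R true) = 3 :=
  (H.dzR hy true).2.imp (fun k => by simp [du, Rf65.Cn, H.dzR hy, k])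
    fun k => by simp [du, Rf65.Cn, H.dzR hy, k]

theorem kR : 0 ≤ y.k R ∧ (y.k R < 1 → y.j R = 0 ∧ y.β R false = y.β R true ∧ y.k R = 0) :=
  have k := anh_brk H.an hy H.Rc
  have k' := hy.crit R H.Rc false
  ⟨((H.an.wl R _ 1 (anh_bs H.an hy H.Rc true).ok (H.an.pj.nil R H.Rc).1 H.py).2.2.2 _ _ _ _ _ _ k' k).1,
    fun h => have e := by_contra fun e => h.not_ge (H.gap _ _ _ _ _ _ k' k e); ⟨e, brk0 k e⟩⟩

theorem xs0 (hF : (y.F (Pc c)).Nonempty → Ok δ y (pF J c (shX S {R}) (cel τ o) y)) :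
    0 ≤ 2 * j + xs δ y (pF J c (shX S {R}) (cel τ o) y) := by
  rcases (y.F (Pc c)).eq_empty_or_nonempty with k | k
  · rw [pF, k]
    exact add_nonneg (by positivity) (xs_empty (H.gx.nb ▸ nb_ne))
  · exact (H.ok _).1.1 (hF k)

theorem exists_fl (ha : Adm q) (ι : Reg S.A) : ∃ f, FL δ ε R y ι f := by
  suffices h : ∀ a, ∃ (p : Reg S.A) (w : J.Obc c) (m : ℕ), (a = R → p = ι ∧ w = y ∧ m = 0) ∧
      (a ∈ cylW c → a ≠ R → p = hp a false ∧ Fil δ ε y w a (hp a false) ∧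
        y.kap (D.W.pc c (hp a false)) + y.k a = w.kap (D.W.pc c (hp a false)) + m ∧
        1 ≤ ia δ w (hp a false) + 8 * (m + drp y a) ∧
        2 ≤ ia δ w (hp a false) + idr δ w (hp a false) + 6 * (m + drp y a)) by
    choose p w m h1 h2 using h
    exact ⟨⟨p, w, m⟩, (h1 R rfl).1, (h1 R rfl).2.1, (h1 R rfl).2.2, h2⟩
  intro a
  by_cases k : a ∈ cylW c ∧ a ≠ R
  · have hl := H.cyl hy k.1 k.2
    obtain ⟨-, w, m, h1, h2, h3, h4, -⟩ := H.lix.2 _ H.an.mem q y ⟨a, hl⟩ ha hy k.1.1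
    have e : (if (⟨a, hl⟩ : S.ls) ∈ y.H then 0 else 1 : ℤ) = drp y a := by simp [drp, hl]
    exact ⟨_, w, m, fun i => (k.2 i).elim, fun _ _ => ⟨rfl, fil_zero h1, h2, e ▸ h3, e ▸ h4⟩⟩
  · exact ⟨ι, y, 0, fun _ => ⟨rfl, rfl, rfl⟩, fun i i' => (k ⟨i, i'⟩).elim⟩

theorem rl0 : Rl none c = Rl (some R) c ∪ Cp c R := by
  refine Set.ext fun ρ => ⟨fun ⟨h, _, k⟩ => ?_, fun k => k.elim (fun ⟨h, _, k⟩ => ⟨h, ou_no, k⟩)
    fun ⟨h, k, k'⟩ => ⟨h, ou_no, fun a ha e => ?_⟩⟩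
  · obtain ⟨_ | _, m⟩ := h.side c.2 H.mem
    exacts [.inr ⟨h, m, k R H.Rc⟩, .inl ⟨h, ou_R.2 m, k⟩]
  · obtain ⟨p, hp⟩ := (S.M.sys.w a).ne false
    exact Wall.not_mem_sd _ (k (h.adj a _ e hp)) (H.nn hy R H.Rc a ha (fun i => k' (i ▸ e)) hp.1)

variable (hι : ι ∈ Pc c) (hR : ι R = some false)
include hι hR

theorem edp : EdP c {ι} = {(⟨R, H.Rc⟩, false)} := by
  refine eq_singleton_iff_unique_mem.2 ⟨⟨ι, rfl, hR⟩, ?_⟩
  rintro ⟨⟨a, ha⟩, s⟩ ⟨_, rfl, k⟩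
  obtain rfl := H.end1 hy hι H.Rc hR ha (k ▸ nofun)
  cases hR.symm.trans k
  rfl

theorem stb_i : stb y {ι} = dz (J.xs R).D (y.β R false) := by
  change ∑ᶠ i ∈ EdP c {ι}, _ = _
  rw [H.edp hy hι hR, finsum_mem_singleton]

theorem F_eq (ha : Adm q) : y.F (Pc c) = y.F (insert ι (Rl none c)) :=
  Set.ext fun ρ => and_congr_left fun t => ⟨fun h => or_iff_not_imp_right.2 fun k => by
    obtain ⟨a, i, e⟩ : ∃ a ∈ cylW c, ρ a = some false := by simpa [Rl, h, ou_no] using k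
    obtain rfl : a = R := by_contra fun m => H.ntf ha hy h (H.cyl hy i m) e t
    exact (Sys.existsUnique_adj c.2 H.mem _).unique ⟨h, e⟩ ⟨hι, hR⟩,
  fun k => k.elim (· ▸ hι) And.left⟩

variable (hf : FL δ ε R y ι f)
include hf

theorem fi (ha : a ∈ cylW c) : f.ι a ∈ Pc c ∧ f.ι a a = some false := by
  by_cases k : a = R
  · exact k ▸ hf.i ▸ ⟨hι, hR⟩
  · exact (hf.ls a ha k).1 ▸ ⟨(H.lens (H.cyl hy ha k) ha.1).1, hp_self⟩

theorem lev : ∑ᶠ ρ ∈ Rl none c, y.kap (D.W.pc c ρ) +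
    ∑ a ∈ (LL c).erase R, ((f.z a).kap (D.W.pc c (f.ι a)) + f.e a) +
    y.kap (D.W.pc c ι) + y.k R + y.l = J.k := by
  have h1 := hy.lev
  have k := fun a (i : a ∈ LL c) => H.fi hy hι hR hf (mem_LL.1 i)
  have e : Pc c = Rl none c ∪ f.ι '' ↑(LL c) := Set.ext fun ρ =>
    ⟨fun h => or_iff_not_imp_left.2 fun m => by
      obtain ⟨a, i, e⟩ : ∃ a ∈ cylW c, ρ a = some false := by simpa [Rl, h, ou_no] using m
      exact ⟨a, mem_LL.2 i, (Sys.existsUnique_adj c.2 i.1 _).unique (k a (mem_LL.2 i)) ⟨h, e⟩⟩,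
    fun m => m.elim And.left fun ⟨a, i, e⟩ => e ▸ (k a i).1⟩
  have e1 : Disjoint (Rl none c) (f.ι '' ↑(LL c)) :=
    disjoint_left.2 fun _ m ⟨a, i, e⟩ => m.2.2 a (mem_LL.1 i) (e ▸ (k a i).2)
  have e2 : InjOn f.ι ↑(LL c) := fun a i a' i' e =>
    H.end1 hy (k a' i').1 (mem_LL.1 i') (k a' i').2 (mem_LL.1 i) (e ▸ (k a i).2 ▸ nofun)
  have e3 : ∀ a ∈ (LL c).erase R, y.kap (D.W.pc c (f.ι a)) + y.k a =
      (f.z a).kap (D.W.pc c (f.ι a)) + f.e a := fun a m =>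
    have m := hf.ls a (mem_LL.1 (Finset.mem_erase.1 m).2) (Finset.mem_erase.1 m).1
    m.1.symm ▸ m.2.2.1
  rw [kap_sum hy.int, e, finsum_mem_union e1 (toFinite _) (toFinite _), finsum_mem_image e2,
    finsum_mem_coe_finset, show ∑ a, (cylW c).indicator y.k a = ∑ a ∈ LL c, y.k a by
      simp [LL, indicator, Finset.sum_filter], add_assoc (finsum _), ← Finset.sum_add_distrib,
    ← Finset.add_sum_erase _ _ (mem_LL.2 H.Rc), hf.i, Finset.sum_congr rfl e3] at h1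
  linarith

omit hι hR in
theorem cost_l {R' : Option S.A} (h : ∀ a ∈ R', a = R) (ha : a ∈ cylW c) (k : a ≠ R) :
    1 ≤ cost δ R' y f a := by
  have := hf.ls a ha k
  rw [cost, if_neg fun i => k (h a i), if_pos (H.cyl hy ha k), this.1]
  linarith [this.2.2.2.2, du_nonneg (y := y) (a := a)]

omit hι hR in
/-- solutions are pre-objects -/
theorem pre (ha : Adm q) {R' : Option S.A} (h : ∀ a ∈ R', a = R)
    (hI : ∀ ρ ∈ y.I (Rl R' c), RT J c (cel τ o) ρ → Ok δ y.noz (pI J c (shX S {R}) (cel τ o) y ρ))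
    (hF : R ∉ R' → ι ∈ Pc c ∧ ι R = some false ∧ (∀ l ∈ S.ls, l ∉ S.M.sys.inn ι) ∧
      Fil δ ε y y R ι ∧ -1 ≤ ia δ y ι + du y R) {k₁ g : ℝ} {lo : ℕ}
    (lev : ∑ᶠ ρ ∈ Rl R' c, y.kap (D.W.pc c ρ) +
      ∑ᶠ a ∈ {a ∈ cylW c | a ∉ R'}, ((f.z a).kap (D.W.pc c (f.ι a)) + f.e a) + lo + g = k₁)
    (drop : {l ∈ J.unc c | l ∉ y.H ∧ Ou R' (S.nb l)}.ncard ≤ lo) :
    Pre δ ε K₀ (shX S {R}) (cel τ o) R' k₁ y (y.F (Rl R' c)) f lo g := by
  refine ⟨hy.cell, hy.inf, fun a k => h a k ▸ H.Rc, H.nn hy, sep_subset _ _,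
    fun ρ k => anh_go H.an hy (singleton_subset_iff.2 k.1), fun ρ k t => ?_, fun a k t => ?_, lev, drop⟩
  · have t' : ¬y.TF ρ := fun i => t ⟨k, i⟩
    have e := H.eps' ha hy k.1 t'
    by_cases m : y.TA ρ
    · exact .inl ⟨m, e.1, e.2.1⟩
    · exact .inr (.inr ⟨by linarith [e.2.1], by
        simpa [xs_noz] using ok_iff.1 (hI ρ ⟨k, t', m⟩ (H.rt k.1 fun l hl i =>
          k.2.2 l ⟨k.1.bd_subset (Sys.mem_bd_of i), H.gx.sc.lsp l hl⟩ i))⟩)
  by_cases e : a = R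
  · subst e
    obtain ⟨h1, h2, h3, h4, h5⟩ := hF t
    rw [hf.i, hf.z, hf.e, if_neg H.nl]
    exact ⟨h1, h2, h3, h4, h5.trans (le_add_of_nonneg_right (by positivity))⟩
  · obtain ⟨h1, h2, -, h3, -⟩ := hf.ls a k e
    have hl := H.cyl hy k e
    rw [h1, if_pos hl]
    exact ⟨(H.lens hl k.1).1, hp_self, fun l hl' i => not_both (H.gx.sc.lsi a hl l (hp_none.1 i.1)
      (i.2.2 a (Sys.mem_bd_of hp_self))) (i.2.1.trans U_hp.le), h2,
      by linarith [du_nonneg (y := y) (a := a)]⟩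

omit hf in
/-- **the core outside `R`** -/
theorem core (ha : Adm q)
    (hI : ∀ ρ ∈ y.I (Rl (some R) c), RT J c (cel τ o) ρ → Ok δ y.noz (pI J c (shX S {R}) (cel τ o) y ρ))
    {g : ℝ} (hg : g = y.kap (D.W.pc c ι) + ∑ᶠ ρ ∈ Cp c R, y.kap (D.W.pc c ρ) + y.k R + di y R - z / 4)
    {B : ℤ} (hB : B = 2 * j + xs δ y
      (J.prt (shX S {R}) (cel τ o) c (y.F (Rl (some R) c)) (y.F (Rl (some R) c)) y.H))
    (h0 : 0 ≤ B + 6 * g) : (∀ a ∈ c.1, a = R ∨ a ∈ E) ∧ Rl (some R) c ⊆ y.F (Rl (some R) c) ∧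
      du y R = 0 ∧ B + 6 * g = 0 ∧ y.l = di y R := by
  obtain ⟨f, hf⟩ := H.exists_fl hy ha ι
  have h1 := H.lev hy hι hR hf
  have h2 : {l ∈ J.unc c | l ∉ y.H ∧ Ou (some R) (S.nb l)}.ncard + di y R ≤ y.l := by
    rw [di, ← ncard_union_eq (disjoint_left.2 fun _ k k' => k'.2.2 k.2.2)]
    exact (ncard_le_ncard fun l k => k.elim (fun k => ⟨k.1, k.2.1⟩) fun k => ⟨k.1, k.2.1⟩).trans hy.drop
  have h3 : ((y.l - di y R : ℕ) : ℝ) = y.l - di y R := Nat.cast_sub (le_of_add_le_right h2)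
  have cR : cost δ (some R) y f R = du y R + 1 := by simp [cost]
  have dR := du_nonneg (y := y) (a := R)
  have cl := fun a => H.cost_l hy hf (R' := some R) (a := a) (by simp)
  rcases H.k1 y _ f (y.l - di y R) g (H.pre hy hf ha (by simp) hI (by simp) (by
    rw [H.rl0 hy, finsum_mem_union (disjoint_left.2 fun ρ k k' =>
      not_tf k.1.toIsReg.nonempty (ou_R.1 k.2.1) k'.2.1) (toFinite _) (toFinite _)] at h1
    rw [show {a ∈ cylW c | a ∉ some R} = ↑((LL c).erase R) from Set.ext fun _ => by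
      simp [mem_LL, and_comm, eq_comm], finsum_mem_coe_finset]
    linarith) (Nat.le_sub_of_add_le h2)) with k | ⟨k1, k2, k3⟩
  · have : 0 ≤ ∑ᶠ a ∈ {a ∈ cylW c | ∃ ρ ∈ y.F (Rl (some R) c), ρ a = some true}, cost δ (some R) y f a :=
      finsum_nonneg fun a => finsum_nonneg fun i => by
        by_cases e : a = R
        exacts [by rw [e, cR]; omega, zero_le_one.trans (cl a i.1 e)]
    rw [← hB] at k
    push_cast at k
    have : (0 : ℝ) ≤ _ := Int.cast_nonneg this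
    linarith
  have h4 : ∑ a ∈ LL c, (drp y a : ℝ) ≤ {l ∈ J.unc c | l ∉ y.H ∧ Ou (some R) (S.nb l)}.ncard :=
    sum_le_ncard fun a m => by
      unfold drp
      split_ifs with m'
      · obtain ⟨hl, m'⟩ := m'
        have m := mem_LL.1 m
        refine .inr ⟨by simp, ⟨a, hl⟩, ⟨?_, m', by_contra fun i => ?_⟩, rfl⟩
        · rw [Job.unc, H.gx.nb]
          exact H.gx.sc.unc_of _ fun a' k => c.2 k m.1
        · exact not_both (H.nn hy R H.Rc a m fun e => H.nl (e ▸ hl)) (subset_union_right.trans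
            (Finset.mem_filter.1 ((H.side _).2 i)).2)
      · exact .inl (by simp)
  have h5 := Finset.card_nsmul_le_sum ((LL c).erase R) (cost δ (some R) y f) 1 fun a m =>
    cl a (mem_LL.1 (Finset.mem_erase.1 m).2) (Finset.mem_erase.1 m).1
  rw [show {a ∈ cylW c | ∃ ρ ∈ y.F (Rl (some R) c), ρ a = some true} = ↑(LL c) from Set.ext fun a =>
      ⟨fun m => mem_LL.2 m.1, fun m => ⟨mem_LL.1 m, (H.outer hy (mem_LL.1 m)).imp fun _ i => ⟨k2 i.1, i.2⟩⟩⟩,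
    show cylW c = ↑(LL c) from Set.ext fun _ => mem_LL.symm, finsum_mem_coe_finset, finsum_mem_coe_finset,
    ← Finset.add_sum_erase _ _ (mem_LL.2 H.Rc), cR, ← hB, h3] at k3
  simp only [nsmul_eq_mul, mul_one] at h5
  have h6 : (((LL c).erase R).card : ℝ) ≤ (∑ a ∈ (LL c).erase R, cost δ (some R) y f a : ℤ) := by
    exact_mod_cast h5
  have h7 : ({l ∈ J.unc c | l ∉ y.H ∧ Ou (some R) (S.nb l)}.ncard : ℝ) + di y R ≤ y.l := by
    exact_mod_cast h2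
  have h8 : (0 : ℝ) ≤ du y R := by exact_mod_cast dR
  have h9 : (0 : ℝ) ≤ ((LL c).erase R).card := Nat.cast_nonneg _
  rw [Int.cast_add, Int.cast_add, Int.cast_add, Int.cast_one] at k3
  have e1 : (LL c).erase R = ∅ := Finset.card_eq_zero.1 (Nat.cast_eq_zero.1 (by linarith : (_ : ℝ) = 0))
  have e2 : ∀ a ∈ cylW c, a = R := fun a m => by_contra fun e =>
    Finset.notMem_empty a (e1 ▸ Finset.mem_erase.2 ⟨e, mem_LL.2 m⟩)
  have e3 : ∑ a ∈ LL c, (drp y a : ℝ) = 0 := Finset.sum_eq_zero fun a m => by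
    simp [e2 a (mem_LL.1 m), drp, H.nl]
  refine ⟨fun a m => ?_, k2, Int.cast_eq_zero.1 (by linarith : (_ : ℝ) = 0), by linarith,
    Nat.cast_injective (R := ℝ) (by linarith)⟩
  by_cases p : S.M.pin a
  · exact (H.out hy (H.c_sub hy m)).imp_right (·.resolve_right fun i => k1 a m p (ou_R.2 i))
  · exact .inl (e2 a ⟨m, p⟩)

end sol

end Cr

end Crest.Agent.X212.Sw21
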